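import Vale.Agent.P197.Full.Good

/-!
# P197: assembly of the full tensor square theorem

Packing of every diagram into good shapes and completeness of the Specht modules give every
irreducible representation in the tensor square of the staircase.
-/

noncomputable section

namespace Vale.Agent.P197.Full

open scoped Classical

theorem two_mul_sum_stair (m : ℕ) : 2 * (stairBlocks m).sum = m * (m + 1) := by
  induction m with
  | zero => rfl
  | succ m ih =>
    have e : stairBlocks (m + 1) = (m + 1) :: stairBlocks m := by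
      simp only [stairBlocks, List.range_succ_eq_map, List.map_cons, List.map_map, Nat.sub_zero]
      congr 1
      exact List.map_congr_left fun i _ => by simp
    rw [e, List.sum_cons, mul_add, ih]
    ring

theorem card_box (m : ℕ) : Fintype.card (Specht.Box m) = m * (m + 1) / 2 := by
  rw [(blocks_stair m).card_eq, ← two_mul_sum_stair m]
  omega

/-- A diagram labelled by the boxes of the staircase has as many cells. -/
theorem card_cells {m : ℕ} {nu : YoungDiagram} {S : Specht.Box m → ℕ × ℕ}
    (hS : Strip.IsLabelling S nu) : nu.cells.card = m * (m + 1) / 2 := by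
  rw [← hS.2, Finset.card_image_of_injective _ hS.1, Finset.card_univ, card_box]

/-- Packing puts every Specht module into the tensor square. -/
theorem occurs_spechtRep {m : ℕ}
    (hpack : ∀ nu : YoungDiagram, nu.cells.card = m * (m + 1) / 2 →
      Good (colList nu) (stairBlocks m) ∨ Good (colList nu.transpose) (stairBlocks m))
    {nu : YoungDiagram} {S : Specht.Box m → ℕ × ℕ} (hS : Strip.IsLabelling S nu) :
    Occurs (Strip.spechtRep S) :=
  occurs_of_good hS (hpack nu (card_cells hS))

/-- An occurrence moves along an equivariant bijection. -/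
theorem Occurs.of_equiv {m : ℕ} {V W : Type} [AddCommGroup V] [Module ℂ V] [AddCommGroup W]
    [Module ℂ W] {ρ : Representation ℂ (Specht.G m) V} {σ : Representation ℂ (Specht.G m) W}
    (h : Occurs ρ) (e : W ≃ₗ[ℂ] V) (he : ∀ g x, e (σ g x) = ρ g (e x)) : Occurs σ := by
  obtain ⟨T, hT, hT'⟩ := h
  refine ⟨T.comp e.toLinearMap, fun h0 => hT (LinearMap.ext fun x => ?_), fun g x => ?_⟩
  · simpa using LinearMap.congr_fun h0 (e.symm x)
  · simp [he, hT']

/-- An irreducible representation which occurs embeds. -/
theorem embeds_of_occurs {m : ℕ} {W : Type} [AddCommGroup W] [Module ℂ W]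
    {σ : Representation ℂ (Specht.G m) W}
    (hirr : ∀ U : Submodule ℂ W, (∀ g, ∀ x ∈ U, σ g x ∈ U) → U = ⊥ ∨ U = ⊤) (h : Occurs σ) :
    Embeds σ := by
  obtain ⟨T, hT, hT'⟩ := h
  refine ⟨T, ?_, hT'⟩
  refine LinearMap.ker_eq_bot.1 ((hirr (LinearMap.ker T) fun g x hx => ?_).resolve_right
    fun e => hT (LinearMap.ker_eq_top.1 e))
  rw [LinearMap.mem_ker] at hx ⊢
  rw [hT', hx, map_zero]

/-- Packing and completeness of the Specht modules give the full statement. -/
theorem embeds_all {m : ℕ}
    (hpack : ∀ nu : YoungDiagram, nu.cells.card = m * (m + 1) / 2 →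
      Good (colList nu) (stairBlocks m) ∨ Good (colList nu.transpose) (stairBlocks m))
    {W : Type} [AddCommGroup W] [Module ℂ W] (σ : Representation ℂ (Specht.G m) W)
    (hirr : ∀ U : Submodule ℂ W, (∀ g, ∀ x ∈ U, σ g x ∈ U) → U = ⊥ ∨ U = ⊤)
    (hcomp : ∃ (nu : YoungDiagram) (S : Specht.Box m → ℕ × ℕ), Strip.IsLabelling S nu ∧
      ∃ e : W ≃ₗ[ℂ] Strip.specht S, ∀ g x, e (σ g x) = Strip.spechtRep S g (e x)) :
    Embeds σ := by
  obtain ⟨nu, S, hS, e, he⟩ := hcomp
  exact embeds_of_occurs hirr (Occurs.of_equiv (occurs_spechtRep hpack hS) e he)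

end Vale.Agent.P197.Full

end
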