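import Mathlib

/-!
# P197: marking one letter of every row balances the alternation, modulo two

In a word in which the row `i` occurs `2 h i + 1` times, mark one letter of every row and colour
the other letters alternately. The weight `∏ i, choose (coloured letters of row i) (h i)` sums to
one modulo two: swapping two neighbours adds terms with one more edge between their rows, two equal
neighbours cancel to a shift, and a nonempty graph has an even number of balanced orientations.
-/

namespace Vale.Agent.P197.Full.Balance

open Finset

variable {ι : Type*} [Fintype ι] [DecidableEq ι]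

/-- Binomial weights. -/
def weight (h m : ι → ℕ) : ZMod 2 := ∏ i, ((m i).choose (h i) : ZMod 2)

/-- The sum over markings of a word, with the rows in `U` marked before and `p` the colour of the
next letter. -/
def total (h : ι → ℕ) : List ι → Bool → Finset ι → (ι → ℕ) → ZMod 2
  | [], _, U, m => if U = univ then weight h m else 0
  | i :: w, p, U, m => (if i ∈ U then 0 else total h w p (insert i U) m)
      + total h w (!p) U (if p then m + Pi.single i 1 else m)

/-- The indegree functions of the orientations of a list of edges. -/
def orient : List (ι × ι) → List (ι → ℕ)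
  | [] => [0]
  | e :: E => (orient E).map (· + Pi.single e.1 1) ++ (orient E).map (· + Pi.single e.2 1)

/-- The degrees of a list of edges. -/
def deg : List (ι × ι) → ι → ℕ
  | [] => 0
  | e :: E => deg E + (Pi.single e.1 1 + Pi.single e.2 1)

/-- The sum over orientations of the totals. -/
def Z (h : ι → ℕ) (w : List ι) (E : List (ι × ι)) (m : ι → ℕ) : ZMod 2 :=
  ((orient E).map fun q => total h w false ∅ (m + q)).sum

variable (h : ι → ℕ)

lemma add_self (z : ZMod 2) : z + z = 0 := by revert z; decide

/-- Two neighbours in different rows. -/
lemma total_swap {i j : ι} (hij : i ≠ j) (v : List ι) : ∀ (u : List ι) p U m,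
    total h (u ++ i :: j :: v) p U m = total h (u ++ j :: i :: v) p U m
      + (total h (u ++ v) p U (m + Pi.single i 1) + total h (u ++ v) p U (m + Pi.single j 1)) := by
  intro u
  induction u with
  | nil =>
    intro p U m
    have h2 : (2 : ZMod 2) = 0 := rfl
    by_cases hi : i ∈ U <;> by_cases hj : j ∈ U <;> cases p <;>
      simp [total, hi, hj, hij, Ne.symm hij, Finset.insert_comm i j] <;>
      ring_nf <;> simp [h2]
  | cons k u ih =>
    intro p U m
    simp only [List.cons_append, total]
    split_ifs <;> simp only [ih, add_right_comm m _ (Pi.single k 1)] <;> ring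

/-- Two neighbours in the same row. -/
lemma total_pair (i : ι) (v : List ι) : ∀ (u : List ι) p U m,
    total h (u ++ i :: i :: v) p U m = total h (u ++ v) p U (m + Pi.single i 1) := by
  intro u
  induction u with
  | nil =>
    intro p U m
    have h2 : (2 : ZMod 2) = 0 := rfl
    by_cases hi : i ∈ U <;> cases p <;> simp [total, hi] <;> ring_nf <;> simp [h2]
  | cons k u ih =>
    intro p U m
    simp only [List.cons_append, total]
    split_ifs <;> simp only [ih, add_right_comm m _ (Pi.single k 1)]

/-- A word without repeated rows. -/
lemma total_nodup : ∀ (w : List ι), w.Nodup → ∀ p U, (∀ i ∈ w, i ∉ U) → ∀ m,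
    total h w p U m = if U ∪ w.toFinset = univ then weight h m else 0 := by
  intro w
  induction w with
  | nil => intro _ p U _ m; simp [total]
  | cons i w ih =>
    intro hw p U hU m
    rw [List.nodup_cons] at hw
    have hi : i ∉ U := hU i (List.mem_cons_self ..)
    have h1 : ∀ k ∈ w, k ∉ insert i U := fun k hk hk' => by
      rcases mem_insert.1 hk' with rfl | hk''
      · exact hw.1 hk
      · exact hU k (List.mem_cons_of_mem _ hk) hk''
    have h2 : ¬ U ∪ w.toFinset = univ := fun e => by
      rcases mem_union.1 (e ▸ mem_univ i) with h' | h'
      · exact hi h'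
      · exact hw.1 (List.mem_toFinset.1 h')
    rw [total, if_neg hi, ih hw.2 p _ h1 m, ih hw.2 _ U (fun k hk => hU k (List.mem_cons_of_mem _ hk)),
      if_neg h2, add_zero, List.toFinset_cons, insert_union, union_insert]

omit [Fintype ι] in
lemma le_deg : ∀ (E : List (ι × ι)), ∀ q ∈ orient E, ∀ i, q i ≤ deg E i := by
  intro E
  induction E with
  | nil => simp [orient, deg]
  | cons e E ih =>
    intro q hq i
    simp only [orient, List.mem_append, List.mem_map] at hq
    rcases hq with ⟨r, hr, rfl⟩ | ⟨r, hr, rfl⟩ <;>
      (have := ih r hr i; simp only [deg, Pi.add_apply]; omega)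

omit [Fintype ι] in
/-- Reversing all edges. -/
lemma orient_flip : ∀ (E : List (ι × ι)) (F : (ι → ℕ) → ZMod 2),
    ((orient E).map F).sum = ((orient E).map fun q => F (deg E - q)).sum := by
  intro E
  induction E with
  | nil => intro F; simp [orient, deg]
  | cons e E ih =>
    intro F
    simp only [orient, deg, List.map_append, List.map_map, List.sum_append]
    refine (congrArg₂ (· + ·) (ih _) (ih _)).trans ?_
    rw [add_comm]
    congr 1 <;> refine congrArg List.sum (List.map_congr_left fun q hq => ?_) <;>
      simp only [Function.comp] <;> congr 1 <;> funext i <;>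
      (have := le_deg E q hq i; simp only [Pi.add_apply, Pi.sub_apply]; omega)

/-- A nonempty graph has an even number of balanced orientations. -/
lemma balanced_even (E : List (ι × ι)) (c : ι → ℕ) (hc : ∀ i, deg E i = 2 * c i) :
    ((orient E).map fun q => if q = c then (1 : ZMod 2) else 0).sum = if E = [] then 1 else 0 := by
  cases E with
  | nil =>
    have : c = 0 := funext fun i => by
      have := hc i
      simp only [deg, Pi.zero_apply] at this ⊢
      omega
    simp [orient, this]
  | cons e E =>
    simp only [orient, List.map_append, List.map_map, List.sum_append, Function.comp_def,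
      if_neg (List.cons_ne_nil e E)]
    refine (congrArg₂ (· + ·) rfl (orient_flip E _)).trans ?_
    refine Eq.trans (congrArg _ (congrArg List.sum (List.map_congr_left fun q hq => ?_))) (add_self _)
    refine if_congr ⟨fun hq' => ?_, fun hq' => ?_⟩ rfl rfl <;> funext i <;>
      (have h1 := congrFun hq' i; have := le_deg E q hq i; have := hc i
       simp only [deg, Pi.add_apply, Pi.sub_apply] at *; omega)

/-- Orientations have as many heads as edges. -/
lemma sum_orient : ∀ (E : List (ι × ι)), ∀ q ∈ orient E, ∑ i, q i = E.length := by
  intro E
  induction E with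
  | nil => simp [orient]
  | cons e E ih =>
    intro q hq
    simp only [orient, List.mem_append, List.mem_map] at hq
    rcases hq with ⟨r, hr, rfl⟩ | ⟨r, hr, rfl⟩ <;> simp [sum_add_distrib, ih r hr]

lemma sum_deg : ∀ E : List (ι × ι), ∑ i, deg E i = 2 * E.length := by
  intro E
  induction E with
  | nil => simp [deg]
  | cons e E ih => simp [deg, sum_add_distrib, ih]; ring

lemma map_sum_add {β : Type*} (l : List β) (f g : β → ZMod 2) :
    (l.map fun b => f b + g b).sum = (l.map f).sum + (l.map g).sum := by
  induction l with
  | nil => simp
  | cons b l ih => simp [ih]; ring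

lemma Z_nodup {w : List ι} (hw : w.Nodup) (E : List (ι × ι)) (m : ι → ℕ)
    (hn : ∀ i, w.count i + deg E i + 2 * m i = 2 * h i + 1) :
    Z h w E m = if E = [] then 1 else 0 := by
  have ht : ∀ q, total h w false ∅ (m + q) =
      if w.toFinset = univ then weight h (m + q) else 0 := fun q => by
    rw [total_nodup h w hw false ∅ (fun _ _ => notMem_empty _), empty_union]
  simp only [Z, ht]
  by_cases hu : w.toFinset = univ
  · simp only [if_pos hu]
    have hd : ∀ i, deg E i = 2 * (h i - m i) ∧ m i ≤ h i := fun i => by
      have h1 : w.count i = 1 :=
        List.count_eq_one_of_mem hw (List.mem_toFinset.1 (hu ▸ mem_univ i))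
      have := hn i
      omega
    rw [← balanced_even E (fun i => h i - m i) fun i => (hd i).1]
    refine congrArg List.sum (List.map_congr_left fun q hq => ?_)
    split_ifs with hqc
    · subst hqc
      refine prod_eq_one fun i _ => ?_
      rw [Pi.add_apply, Nat.add_sub_cancel' (hd i).2, Nat.choose_self, Nat.cast_one]
    · obtain ⟨i, hi⟩ : ∃ i, q i < h i - m i := by
        by_contra hne
        push Not at hne
        refine hqc (funext fun i => ((sum_eq_sum_iff_of_le fun i _ => hne i).1 ?_ i (mem_univ i)).symm)
        have := sum_deg E
        simp only [fun i => (hd i).1, ← mul_sum] at this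
        have := sum_orient E q hq
        omega
      exact prod_eq_zero (mem_univ i) (by
        rw [Nat.choose_eq_zero_of_lt (by simp only [Pi.add_apply]; omega), Nat.cast_zero])
  · simp only [if_neg hu, List.map_const', List.sum_replicate, smul_zero]
    refine (if_neg fun hE => hu ?_).symm
    subst hE
    refine eq_univ_iff_forall.2 fun i => List.mem_toFinset.2 ?_
    have := hn i
    simp only [deg, Pi.zero_apply] at this
    exact List.count_pos_iff.1 (by omega)

/-- The totals of all states. -/
theorem Z_eq : ∀ (N : ℕ) (w : List ι), w.length = N → ∀ (E : List (ι × ι)) (m : ι → ℕ),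
    (∀ i, w.count i + deg E i + 2 * m i = 2 * h i + 1) → Z h w E m = if E = [] then 1 else 0 := by
  intro N
  induction N using Nat.strong_induction_on with
  | _ N ih =>
    intro w hlen E m hn
    by_cases hw : w.Nodup
    · exact Z_nodup h hw E m hn
    obtain ⟨i, u, v, z, rfl⟩ : ∃ i u v z, w = u ++ i :: v ++ i :: z := by
      obtain ⟨i, hi⟩ := List.exists_duplicate_iff_not_nodup.2 hw
      obtain ⟨u, r, rfl⟩ := List.mem_iff_append.1 hi.mem
      by_cases hr : i ∈ r
      · obtain ⟨v, z, rfl⟩ := List.mem_iff_append.1 hr
        exact ⟨i, u, v, z, by simp⟩
      · have hu : i ∈ u := by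
          have := List.duplicate_iff_two_le_count.1 hi
          rw [List.count_append, List.count_cons_self, List.count_eq_zero.2 hr] at this
          exact List.count_pos_iff.1 (by omega)
        obtain ⟨v, z, rfl⟩ := List.mem_iff_append.1 hu
        exact ⟨i, v, z, r, by simp⟩
    induction v generalizing u E m with
    | nil =>
      simp only [List.append_assoc, List.cons_append, List.nil_append] at *
      have hZ : Z h (u ++ i :: i :: z) E m = Z h (u ++ z) E (m + Pi.single i 1) := by
        simp only [Z, total_pair, add_right_comm m _ (Pi.single i 1)]
      rw [hZ, ih (u ++ z).length (by simp only [List.length_append, List.length_cons] at hlen ⊢; omega)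
        _ rfl E _ fun k => ?_]
      have := hn k
      rcases eq_or_ne i k with rfl | hk
      · simp [List.count_append] at this ⊢; omega
      · simp [List.count_append, hk, Ne.symm hk] at this ⊢; omega
    | cons j v ihv =>
      rcases eq_or_ne i j with rfl | hij
      · simp only [List.cons_append, List.append_assoc] at *
        have hZ : Z h (u ++ i :: i :: (v ++ i :: z)) E m =
            Z h (u ++ (v ++ i :: z)) E (m + Pi.single i 1) := by
          simp only [Z, total_pair, add_right_comm m _ (Pi.single i 1)]
        rw [hZ, ih _ (by simp only [List.length_append, List.length_cons] at hlen ⊢; omega) _ rfl E _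
          fun k => ?_]
        have := hn k
        rcases eq_or_ne i k with rfl | hk
        · simp [List.count_append] at this ⊢; omega
        · simp [List.count_append, hk, Ne.symm hk] at this ⊢; omega
      simp only [List.cons_append, List.append_assoc] at *
      have hsplit : Z h (u ++ i :: j :: (v ++ i :: z)) E m =
          Z h ((u ++ [j]) ++ i :: (v ++ i :: z)) E m + Z h (u ++ (v ++ i :: z)) ((i, j) :: E) m := by
        simp only [Z, total_swap h hij, orient, List.map_append, List.map_map, List.sum_append,
          List.append_assoc, List.singleton_append, map_sum_add, Function.comp_def, add_assoc]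
      have hp : (u ++ [j] ++ i :: (v ++ i :: z)).Perm (u ++ i :: j :: (v ++ i :: z)) := by
        rw [List.append_assoc, List.singleton_append]
        exact (List.Perm.swap i j _).append_left u
      rw [hsplit, ihv (u := u ++ [j]) (E := E) (m := m) (hp.length_eq.trans hlen)
          (fun k => by rw [hp.count_eq k]; exact hn k) (fun e => hw (hp.nodup_iff.1 e)),
        ih (u ++ (v ++ i :: z)).length
          (by simp only [List.length_append, List.length_cons] at hlen ⊢; omega) _ rfl ((i, j) :: E) m
          fun k => ?_, if_neg (List.cons_ne_nil _ _), add_zero]
      have := hn k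
      simp only [List.count_append, List.count_cons, deg, Pi.add_apply, Pi.single_apply, beq_iff_eq,
        @eq_comm _ k i, @eq_comm _ k j] at this ⊢
      split_ifs at this ⊢ <;> omega

/-- In a word with `2 h i + 1` letters in row `i` the balanced markings are odd in number. -/
theorem total_eq_one {w : List ι} (hn : ∀ i, w.count i = 2 * h i + 1) :
    total h w false ∅ 0 = 1 := by
  have := Z_eq h w.length w rfl [] 0 fun i => by simp [deg, hn]
  simpa [Z, orient] using this

end Vale.Agent.P197.Full.Balance
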