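import Vale.Agent.P197.Full.Defs

/-!
# P197: a single column and a single row are good for every list of blocks
-/

namespace Vale.Agent.P197.Full

open scoped Classical

variable {α : Type*} [Fintype α] {S : α → ℕ × ℕ}

/-- The polytabloid with integral values. -/
noncomputable def polyInt (S : α → ℕ × ℕ) (t : α → ℕ) : ℤ :=
  ∑ c ∈ Strip.colPerms S, if t = fun x => (S (c x)).1 then (Equiv.Perm.sign c : ℤ) else 0

theorem cast_polyInt (S : α → ℕ × ℕ) : (fun t => (polyInt S t : ℂ)) = Strip.poly S := by
  funext t
  simp [polyInt, Strip.poly, Strip.sgn, apply_ite (fun z : ℤ => (z : ℂ))]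

theorem polyInt_mem (S : α → ℕ × ℕ) : (fun t => (polyInt S t : ℂ)) ∈ Strip.specht S := by
  rw [cast_polyInt]
  exact Submodule.subset_span ⟨1, rfl⟩

theorem polyInt_self (hS : Function.Injective S) : polyInt S (fun x => (S x).1) = 1 := by
  rw [polyInt, Finset.sum_eq_single_of_mem (1 : Equiv.Perm α) Strip.one_mem_colPerms]
  · simp
  · intro c hc hne
    rw [if_neg]
    intro e
    refine hne (Equiv.ext fun x => hS (Prod.ext ?_ (Strip.mem_colPerms.1 hc x)))
    exact (congrFun e x).symm

/-- A polytabloid that is invariant modulo two gives a good labelling. -/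
theorem goodLab_polyInt (hS : Function.Injective S) (b : α → ℕ)
    (h : ∀ g : Equiv.Perm α, (∀ x, b (g x) = b x) → ∀ t,
      (2 : ℤ) ∣ polyInt S (t ∘ g) - polyInt S t) : GoodLab S b :=
  ⟨polyInt S, polyInt_mem S, h, fun x => (S x).1, by rw [polyInt_self hS]; decide⟩

theorem goodLab_one_column {k : ℕ} (hS : IsLab S [k]) (b : α → ℕ) : GoodLab S b := by
  have h2 : ∀ x, (S x).2 = 0 := fun x => by
    have := hS.col_lt x
    simp only [List.length_singleton] at this
    omega
  have hall : ∀ c : Equiv.Perm α, c ∈ Strip.colPerms S := fun c =>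
    Strip.mem_colPerms.2 fun x => by rw [h2, h2]
  refine goodLab_polyInt hS.1 b fun g _ t => ?_
  have key : ∀ (g : Equiv.Perm α) t, polyInt S (t ∘ g) = (Equiv.Perm.sign g : ℤ) * polyInt S t := by
    intro g t
    rw [polyInt, polyInt, Finset.mul_sum]
    refine Finset.sum_nbij' (fun c => c * g⁻¹) (fun c => c * g) (fun c _ => hall _) (fun c _ => hall _)
      (fun c _ => inv_mul_cancel_right _ _) (fun c _ => mul_inv_cancel_right _ _) fun c _ => ?_
    have e : t ∘ g = (fun x => (S (c x)).1) ↔ t = fun x => (S ((c * g⁻¹) x)).1 := by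
      constructor <;> intro h <;> funext x
      · simpa using congrFun h (g⁻¹ x)
      · simpa using congrFun h (g x)
    by_cases hc : t ∘ g = fun x => (S (c x)).1
    · rw [if_pos hc, if_pos (e.1 hc)]
      simp only [map_mul, Equiv.Perm.sign_inv, Units.val_mul]
      rw [mul_comm ((Equiv.Perm.sign c : ℤˣ) : ℤ), ← mul_assoc, ← Units.val_mul,
        Int.units_mul_self, Units.val_one, one_mul]
    · rw [if_neg hc, if_neg (mt e.2 hc), mul_zero]
  rw [key]
  rcases Int.units_eq_one_or (Equiv.Perm.sign g) with h | h <;> rw [h] <;> simp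
  exact ⟨-polyInt S t, by ring⟩

theorem goodLab_one_row {n : ℕ} (hS : IsLab S (List.replicate n 1)) (b : α → ℕ) : GoodLab S b := by
  have h1 : ∀ x, (S x).1 = 0 := fun x => by
    have := hS.row_lt x
    rw [List.getD_eq_getElem _ _ (hS.col_lt x), List.getElem_replicate] at this
    omega
  refine goodLab_polyInt hS.1 b fun g _ t => ?_
  have : polyInt S (t ∘ g) = polyInt S t := by
    refine Finset.sum_congr rfl fun c _ => if_congr ?_ rfl rfl
    simp only [h1]
    constructor <;> intro h <;> funext x
    · simpa using congrFun h (g⁻¹ x)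
    · simpa using congrFun h (g x)
  simp [this]

/-- A single column is good for every list of blocks of the same total size. -/
theorem good_one_column {k : ℕ} {B : List ℕ} (h : k = B.sum) : Good [k] B :=
  ⟨by simpa using h, fun _ _ _ b hS _ => goodLab_one_column hS b⟩

/-- A single row is good for every list of blocks of the same total size. -/
theorem good_one_row {n : ℕ} {B : List ℕ} (h : n = B.sum) : Good (List.replicate n 1) B :=
  ⟨by simpa using h, fun _ _ _ b hS _ => goodLab_one_row hS b⟩

end Vale.Agent.P197.Full
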