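import Mathlib

/-!
# P197: shapes given by a list of column lengths

`colCells c` has `c[j]` cells in column `j`, in the first rows; the columns may come in any
order. Reordering and concatenation keep rows and keep the partition into columns.
-/

namespace Vale.Agent.P197.Full

variable {α β : Type*}

/-- The cells of a list of column lengths. -/
def colCells (c : List ℕ) : Finset (ℕ × ℕ) :=
  (Finset.range c.length).biUnion fun j => Finset.range (c.getD j 0) ×ˢ {j}

theorem mem_colCells {c : List ℕ} {p : ℕ × ℕ} : p ∈ colCells c ↔ p.1 < c.getD p.2 0 := by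
  obtain ⟨i, j⟩ := p
  simp only [colCells, Finset.mem_biUnion, Finset.mem_range, Finset.mem_product,
    Finset.mem_singleton]
  constructor
  · rintro ⟨k, -, h, rfl⟩; exact h
  · intro h
    refine ⟨j, ?_, h, rfl⟩
    by_contra hj
    rw [List.getD_eq_default _ _ (not_lt.1 hj)] at h
    exact Nat.not_lt_zero i h

theorem card_colCells (c : List ℕ) : (colCells c).card = c.sum := by
  rw [colCells, Finset.card_biUnion]
  · simp only [Finset.card_product, Finset.card_range, Finset.card_singleton, mul_one]
    rw [Finset.sum_range fun j => c.getD j 0]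
    rw [← Fin.sum_univ_getElem c]
    exact Finset.sum_congr rfl fun i _ => List.getD_eq_getElem c 0 i.isLt
  · intro j _ k _ hjk
    exact Finset.disjoint_left.2 fun p hp hq => hjk
      ((Finset.mem_singleton.1 (Finset.mem_product.1 hp).2).symm.trans
        (Finset.mem_singleton.1 (Finset.mem_product.1 hq).2))

/-- `S` numbers the cells of `c` bijectively. -/
def IsLab (S : α → ℕ × ℕ) (c : List ℕ) : Prop :=
  Function.Injective S ∧ ∀ p, p ∈ Set.range S ↔ p ∈ colCells c

theorem IsLab.row_lt {S : α → ℕ × ℕ} {c : List ℕ} (h : IsLab S c) (x : α) :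
    (S x).1 < c.getD (S x).2 0 := mem_colCells.1 ((h.2 _).1 ⟨x, rfl⟩)

theorem IsLab.col_lt {S : α → ℕ × ℕ} {c : List ℕ} (h : IsLab S c) (x : α) :
    (S x).2 < c.length := by
  by_contra hx
  have := h.row_lt x
  rw [List.getD_eq_default _ _ (not_lt.1 hx)] at this
  exact Nat.not_lt_zero _ this

theorem IsLab.image_univ [Fintype α] {S : α → ℕ × ℕ} {c : List ℕ} (h : IsLab S c) :
    Finset.univ.image S = colCells c := by
  ext p
  rw [← h.2 p]
  simp

theorem IsLab.card_eq [Fintype α] {S : α → ℕ × ℕ} {c : List ℕ} (h : IsLab S c) :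
    Fintype.card α = c.sum := by
  rw [← card_colCells, ← h.image_univ, Finset.card_image_of_injective _ h.1, Finset.card_univ]

theorem exists_isLab [Fintype α] (c : List ℕ) (h : Fintype.card α = c.sum) :
    ∃ S : α → ℕ × ℕ, IsLab S c := by
  have e : α ≃ colCells c := Fintype.equivOfCardEq (by rw [Fintype.card_coe, card_colCells, h])
  refine ⟨fun x => (e x : ℕ × ℕ), Subtype.val_injective.comp e.injective, fun p => ⟨?_, fun hp => ?_⟩⟩
  · rintro ⟨x, rfl⟩; exact (e x).2
  · exact ⟨e.symm ⟨p, hp⟩, by simp⟩

/-- Permutations of `ℕ` that fix `0` and act as `σ` above it. -/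
def liftSucc (σ : Equiv.Perm ℕ) : Equiv.Perm ℕ where
  toFun
    | 0 => 0
    | n + 1 => σ n + 1
  invFun
    | 0 => 0
    | n + 1 => σ.symm n + 1
  left_inv n := by cases n <;> simp
  right_inv n := by cases n <;> simp

theorem exists_perm_getD {c d : List ℕ} (h : c.Perm d) :
    ∃ σ : Equiv.Perm ℕ, ∀ j, c.getD j 0 = d.getD (σ j) 0 := by
  induction h with
  | nil => exact ⟨1, fun j => rfl⟩
  | @cons x l₁ l₂ _ ih =>
    obtain ⟨σ, hσ⟩ := ih
    refine ⟨liftSucc σ, fun j => ?_⟩
    cases j
    · rfl
    · exact hσ _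
  | swap x y l =>
    refine ⟨Equiv.swap 0 1, fun j => ?_⟩
    rcases j with _ | _ | j
    · simp
    · simp
    · rw [Equiv.swap_apply_of_ne_of_ne (by omega) (by omega)]
      simp
  | trans _ _ ih₁ ih₂ =>
    obtain ⟨σ, hσ⟩ := ih₁
    obtain ⟨τ, hτ⟩ := ih₂
    exact ⟨σ.trans τ, fun j => (hσ j).trans (hτ _)⟩

/-- Reordering the columns keeps rows and the partition into columns. -/
theorem IsLab.perm {S : α → ℕ × ℕ} {c d : List ℕ} (h : IsLab S c) (hp : c.Perm d) :
    ∃ T : α → ℕ × ℕ, IsLab T d ∧ (∀ x, (T x).1 = (S x).1) ∧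
      ∀ x y, (T x).2 = (T y).2 ↔ (S x).2 = (S y).2 := by
  obtain ⟨σ, hσ⟩ := exists_perm_getD hp
  refine ⟨fun x => ((S x).1, σ (S x).2), ⟨fun x y e => ?_, fun p => ?_⟩, fun x => rfl,
    fun x y => σ.apply_eq_iff_eq⟩
  · simp only [Prod.mk.injEq, EmbeddingLike.apply_eq_iff_eq] at e
    exact h.1 (Prod.ext e.1 e.2)
  · rw [mem_colCells]
    constructor
    · rintro ⟨x, rfl⟩
      exact (h.row_lt x).trans_eq (hσ _)
    · intro hp'
      obtain ⟨x, hx⟩ := (h.2 (p.1, σ.symm p.2)).2
        (mem_colCells.2 (by rw [hσ, Equiv.apply_symm_apply]; exact hp'))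
      exact ⟨x, by simp [hx]⟩

theorem getD_append_add (c d : List ℕ) (j : ℕ) : (c ++ d).getD (c.length + j) 0 = d.getD j 0 := by
  rw [List.getD_append_right c d 0 _ (Nat.le_add_right _ _), Nat.add_sub_cancel_left]

/-- Labellings of `c` and of `d` give one of `c ++ d`. -/
theorem IsLab.append {S : α → ℕ × ℕ} {T : β → ℕ × ℕ} {c d : List ℕ} (hS : IsLab S c)
    (hT : IsLab T d) :
    IsLab (Sum.elim S fun y => ((T y).1, c.length + (T y).2)) (c ++ d) := by
  refine ⟨?_, fun p => ?_⟩
  · rintro (x | y) (x' | y') e <;>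
      simp only [Sum.elim_inl, Sum.elim_inr] at e
    · exact congrArg _ (hS.1 e)
    · have := hS.col_lt x; rw [Prod.ext_iff] at e; simp at e; omega
    · have := hS.col_lt x'; rw [Prod.ext_iff] at e; simp at e; omega
    · simp only [Prod.mk.injEq, add_right_inj] at e
      exact congrArg _ (hT.1 (Prod.ext e.1 e.2))
  · obtain ⟨i, j⟩ := p
    rw [mem_colCells]
    by_cases hj : j < c.length
    · rw [List.getD_append c d 0 j hj]
      constructor
      · rintro ⟨x | y, e⟩ <;> simp only [Sum.elim_inl, Sum.elim_inr] at e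
        · have := hS.row_lt x; rwa [e] at this
        · simp only [Prod.mk.injEq] at e; omega
      · intro h
        obtain ⟨x, hx⟩ := (hS.2 (i, j)).2 (mem_colCells.2 h)
        exact ⟨.inl x, hx⟩
    · obtain ⟨k, rfl⟩ := Nat.exists_eq_add_of_le (not_lt.1 hj)
      rw [getD_append_add]
      constructor
      · rintro ⟨x | y, e⟩ <;> simp only [Sum.elim_inl, Sum.elim_inr] at e
        · have := hS.col_lt x; rw [e] at this; exact absurd this hj
        · simp only [Prod.mk.injEq, add_right_inj] at e
          have := hT.row_lt y; rwa [e.1, e.2] at this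
      · intro h
        obtain ⟨y, hy⟩ := (hT.2 (i, k)).2 (mem_colCells.2 h)
        exact ⟨.inr y, by simp [hy]⟩

/-- A labelling of `c ++ d` restricted to the columns of `c`. -/
theorem IsLab.left {S : α → ℕ × ℕ} {c d : List ℕ} (h : IsLab S (c ++ d)) :
    IsLab (fun x : {x // (S x).2 < c.length} => S x) c := by
  refine ⟨h.1.comp Subtype.val_injective, fun p => ?_⟩
  rw [mem_colCells]
  constructor
  · rintro ⟨⟨x, hx⟩, rfl⟩
    have := h.row_lt x
    rwa [List.getD_append c d 0 _ hx] at this
  · intro hp
    have hj : p.2 < c.length := by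
      by_contra hj
      rw [List.getD_eq_default _ _ (not_lt.1 hj)] at hp
      exact Nat.not_lt_zero _ hp
    obtain ⟨x, hx⟩ := (h.2 p).2 (mem_colCells.2 (by rwa [List.getD_append c d 0 _ hj]))
    exact ⟨⟨x, by rwa [hx]⟩, hx⟩

/-- A labelling of `c ++ d` restricted to the columns of `d`, moved to the left. -/
theorem IsLab.right {S : α → ℕ × ℕ} {c d : List ℕ} (h : IsLab S (c ++ d)) :
    IsLab (fun x : {x // ¬ (S x).2 < c.length} => ((S x).1, (S x).2 - c.length)) d := by
  refine ⟨fun x y e => ?_, fun p => ?_⟩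
  · simp only [Prod.mk.injEq] at e
    have := x.2; have := y.2
    exact Subtype.ext (h.1 (Prod.ext e.1 (by omega)))
  · rw [mem_colCells]
    constructor
    · rintro ⟨⟨x, hx⟩, rfl⟩
      have := h.row_lt x
      rwa [List.getD_append_right c d 0 _ (not_lt.1 hx)] at this
    · intro hp
      obtain ⟨x, hx⟩ := (h.2 (p.1, c.length + p.2)).2
        (mem_colCells.2 (by rwa [getD_append_add]))
      exact ⟨⟨x, by simp [hx]⟩, by simp [hx]⟩

/-- The column lengths of a diagram, in decreasing order. -/
def colList (nu : YoungDiagram) : List ℕ := nu.transpose.rowLens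

theorem colList_transpose (nu : YoungDiagram) : colList nu.transpose = nu.rowLens := by
  rw [colList, YoungDiagram.transpose_transpose]

theorem colList_sorted (nu : YoungDiagram) : (colList nu).SortedGE := nu.transpose.rowLens_sorted

theorem pos_of_mem_colList {nu : YoungDiagram} {x : ℕ} (h : x ∈ colList nu) : 0 < x :=
  nu.transpose.pos_of_mem_rowLens x h

theorem getD_colList (nu : YoungDiagram) (j : ℕ) : (colList nu).getD j 0 = nu.colLen j := by
  by_cases hj : j < (colList nu).length
  · rw [List.getD_eq_getElem _ _ hj]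
    simp only [colList, YoungDiagram.get_rowLens, YoungDiagram.rowLen_transpose]
  · rw [List.getD_eq_default _ _ (not_lt.1 hj)]
    by_contra h
    have h0 : 0 < nu.colLen j := Nat.pos_of_ne_zero (Ne.symm h)
    rw [colList, YoungDiagram.length_rowLens, YoungDiagram.colLen_transpose,
      ← YoungDiagram.mem_iff_lt_rowLen, YoungDiagram.mem_iff_lt_colLen] at hj
    exact hj h0

theorem colCells_colList (nu : YoungDiagram) : colCells (colList nu) = nu.cells := by
  ext ⟨i, j⟩
  rw [mem_colCells, getD_colList, YoungDiagram.mem_cells, YoungDiagram.mem_iff_lt_colLen]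

theorem sum_colList (nu : YoungDiagram) : (colList nu).sum = nu.cells.card := by
  rw [← card_colCells, colCells_colList]

theorem sum_rowLens (nu : YoungDiagram) : nu.rowLens.sum = nu.cells.card := by
  rw [← colList_transpose, sum_colList]
  exact Finset.card_equiv (Equiv.prodComm ℕ ℕ) fun p => by
    simp [YoungDiagram.mem_transpose]

theorem isLab_colList [Fintype α] {S : α → ℕ × ℕ} {nu : YoungDiagram}
    (h : Function.Injective S) (h' : Finset.univ.image S = nu.cells) : IsLab S (colList nu) :=
  ⟨h, fun p => by rw [colCells_colList, ← h']; simp⟩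

/-- A diagram whose columns are grouped: labellings turn into labellings of the concatenation. -/
theorem IsLab.groups [Fintype α] {S : α → ℕ × ℕ} {nu : YoungDiagram} (h : Function.Injective S)
    (h' : Finset.univ.image S = nu.cells) (gs : List (List ℕ))
    (hg : (colList nu : Multiset ℕ) = (gs.flatten : List ℕ)) :
    ∃ T : α → ℕ × ℕ, IsLab T gs.flatten ∧ (∀ x, (T x).1 = (S x).1) ∧
      ∀ x y, (T x).2 = (T y).2 ↔ (S x).2 = (S y).2 :=
  (isLab_colList h h').perm (Multiset.coe_eq_coe.1 hg)

/-- The number of cells in row `i`. -/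
def rowSize (c : List ℕ) (i : ℕ) : ℕ := c.countP fun l => decide (i < l)

theorem rowSize_append (c d : List ℕ) (i : ℕ) : rowSize (c ++ d) i = rowSize c i + rowSize d i :=
  List.countP_append

theorem rowSize_perm {c d : List ℕ} (h : c.Perm d) (i : ℕ) : rowSize c i = rowSize d i :=
  h.countP_eq _

theorem rowSize_flatten (gs : List (List ℕ)) (i : ℕ) :
    rowSize gs.flatten i = (gs.map fun c => rowSize c i).sum := by
  induction gs with
  | nil => rfl
  | cons c gs ih => rw [List.flatten_cons, rowSize_append, ih, List.map_cons, List.sum_cons]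

theorem rowSize_eq_card (c : List ℕ) (i : ℕ) :
    ((colCells c).filter fun p => p.1 = i).card = rowSize c i := by
  have h : (colCells c).filter (fun p => p.1 = i)
      = ((Finset.range c.length).filter fun j => i < c.getD j 0).image fun j => (i, j) := by
    ext ⟨a, j⟩
    simp only [Finset.mem_filter, mem_colCells, Finset.mem_image, Finset.mem_range, Prod.mk.injEq]
    constructor
    · rintro ⟨h, rfl⟩
      refine ⟨j, ⟨?_, h⟩, rfl, rfl⟩
      by_contra hj
      rw [List.getD_eq_default _ _ (not_lt.1 hj)] at h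
      exact Nat.not_lt_zero _ h
    · rintro ⟨k, ⟨-, h⟩, rfl, rfl⟩; exact ⟨h, rfl⟩
  rw [h, Finset.card_image_of_injective _ fun a b e => (Prod.mk.inj e).2]
  clear h
  induction c with
  | nil => rfl
  | cons l c ih =>
    rw [rowSize] at ih ⊢
    rw [List.countP_cons, ← ih, List.length_cons, Finset.card_filter, Finset.card_filter,
      Finset.sum_range_succ']
    simp

theorem rowSize_colList (nu : YoungDiagram) (i : ℕ) : rowSize (colList nu) i = nu.rowLen i := by
  rw [← rowSize_eq_card, colCells_colList, YoungDiagram.rowLen_eq_card]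
  rfl

/-- A labelling of a concatenation of groups splits into labellings of the groups. -/
theorem IsLab.split_flatten {α : Type*} {S : α → ℕ × ℕ} : ∀ {gs : List (List ℕ)},
    IsLab S gs.flatten →
      ∃ (g : α → Fin gs.length) (T : α → ℕ × ℕ),
        (∀ t, IsLab (fun x : {x // g x = t} => T x) gs[t]) ∧ (∀ x, (T x).1 = (S x).1) ∧
        ∀ x y, (g x = g y ∧ (T x).2 = (T y).2) ↔ (S x).2 = (S y).2 := by
  intro gs
  induction gs generalizing α with
  | nil =>
    intro h
    have : IsEmpty α := ⟨fun x => Nat.not_lt_zero _ (h.col_lt x)⟩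
    exact ⟨isEmptyElim, isEmptyElim, fun t => t.elim0, isEmptyElim, isEmptyElim⟩
  | cons c gs ih =>
    intro h
    rw [List.flatten_cons] at h
    obtain ⟨g, T, hT, hrow, hcol⟩ := ih h.right
    let g' : α → Fin (c :: gs).length := fun x =>
      if hx : (S x).2 < c.length then 0 else (g ⟨x, hx⟩).succ
    let T' : α → ℕ × ℕ := fun x => if hx : (S x).2 < c.length then S x else T ⟨x, hx⟩
    have h0 : ∀ {x}, g' x = 0 → (S x).2 < c.length := fun {x} e => by
      by_contra hx
      simp only [g', dif_neg hx] at e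
      exact Fin.succ_ne_zero _ e
    have h1 : ∀ {x t}, g' x = Fin.succ t → ¬ (S x).2 < c.length := fun {x t} e hx => by
      simp only [g', dif_pos hx] at e
      exact (Fin.succ_ne_zero _) e.symm
    refine ⟨g', T', fun t => ?_, fun x => ?_, fun x y => ?_⟩
    · refine Fin.cases ?_ (fun t => ?_) t
      · have hl := h.left
        refine ⟨fun x y e => ?_, fun p => ?_⟩
        · have hx := h0 x.2
          have hy := h0 y.2
          simp only [T', dif_pos hx, dif_pos hy] at e
          exact Subtype.ext (h.1 e)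
        · rw [show ((c :: gs)[(0 : Fin (c :: gs).length)]) = c from rfl, ← hl.2 p]
          constructor
          · rintro ⟨⟨x, hxt⟩, rfl⟩
            have hx := h0 hxt
            exact ⟨⟨x, hx⟩, by simp [T', hx]⟩
          · rintro ⟨⟨x, hx⟩, rfl⟩
            exact ⟨⟨x, by simp [g', hx]⟩, by simp [T', hx]⟩
      · refine ⟨fun x y e => ?_, fun p => ?_⟩
        · have hx := h1 x.2
          have hy := h1 y.2
          simp only [T', dif_neg hx, dif_neg hy] at e
          have := @(hT t).1 ⟨⟨x.1, hx⟩, by simpa [g', hx] using x.2⟩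
            ⟨⟨y.1, hy⟩, by simpa [g', hy] using y.2⟩ e
          exact Subtype.ext (congrArg (fun z => z.1.1) this)
        · rw [show ((c :: gs)[(t.succ : Fin (c :: gs).length)]) = gs[t] from rfl, ← (hT t).2 p]
          constructor
          · rintro ⟨⟨x, hxt⟩, rfl⟩
            have hx := h1 hxt
            exact ⟨⟨⟨x, hx⟩, by simpa [g', hx] using hxt⟩, by simp [T', hx]⟩
          · rintro ⟨⟨⟨x, hx⟩, hxt⟩, rfl⟩
            exact ⟨⟨x, by simp [g', hx, hxt]⟩, by simp [T', hx]⟩
    · by_cases hx : (S x).2 < c.length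
      · simp [T', hx]
      · simpa [T', hx] using hrow ⟨x, hx⟩
    · by_cases hx : (S x).2 < c.length <;> by_cases hy : (S y).2 < c.length
      · simp [g', T', hx, hy]
      · simp [g', T', hx, hy, (Fin.succ_ne_zero _).symm]
        omega
      · simp [g', T', hx, hy, Fin.succ_ne_zero]
        omega
      · simp only [g', T', hx, hy, dif_neg, not_false_iff, Fin.succ_inj]
        rw [hcol ⟨x, hx⟩ ⟨y, hy⟩]
        constructor <;> intro e
        · simp only at e; omega
        · simp only; omega

end Vale.Agent.P197.Full
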