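import Vale.Agent.P197.Full.Fill

/-!
# P197: every shape packs into the staircase

While the rows of the remaining columns do not dominate the remaining blocks, remove a long
column or a triple `h, b, b` and pour blocks into it; what is left at the end is a dominance
group.
-/

noncomputable section

namespace Vale.Agent.P197.Full

open scoped Classical

theorem stairBlocks_succ (p : ℕ) : stairBlocks (p + 1) = (p + 1) :: stairBlocks p := by
  simp only [stairBlocks, List.range_succ_eq_map, List.map_cons, List.map_map, Nat.sub_zero]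
  congr 1
  exact List.map_congr_left fun i _ => by simp

theorem sum_stair_succ (p : ℕ) :
    (stairBlocks (p + 1)).sum = (stairBlocks p).sum + (p + 1) := by
  rw [stairBlocks_succ, List.sum_cons, add_comm]

/-- The positive members of a list. -/
def posPart (l : List ℕ) : Multiset ℕ := (l : Multiset ℕ).filter fun x => 0 < x

theorem posPart_append (l l' : List ℕ) : posPart (l ++ l') = posPart l + posPart l' := by
  rw [posPart, posPart, posPart, ← Multiset.coe_add, Multiset.filter_add]

theorem posPart_cons (a : ℕ) (l : List ℕ) : posPart (a :: l) = posPart [a] + posPart l :=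
  posPart_append [a] l

theorem posPart_stair (p : ℕ) : posPart (stairBlocks p) = stairBlocks p :=
  Multiset.filter_eq_self.2 fun _ hx => (mem_stair.1 hx).1

/-- Empty blocks may be dropped. -/
theorem Good.drop_zero {c B B' : List ℕ} (h : Good c B) (e : posPart B = (B' : Multiset ℕ)) :
    Good c B' := by
  obtain ⟨k, hk⟩ : ∃ k, B.Perm (B' ++ List.replicate k 0) := by
    refine ⟨((B : Multiset ℕ).filter fun x => ¬ 0 < x).card, ?_⟩
    rw [← Multiset.coe_eq_coe, ← Multiset.coe_add, ← e, posPart, Multiset.coe_replicate]
    conv_lhs => rw [← Multiset.filter_add_not (fun x => 0 < x) (B : Multiset ℕ)]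
    congr 1
    exact Multiset.eq_replicate.2 ⟨rfl, fun x hx => by
      have := (Multiset.mem_filter.1 hx).2; omega⟩
  have h' := h.perm (List.Perm.refl c) hk
  refine ⟨by simpa using h'.1, fun α _ S b hS hb => h'.2 α S b hS fun i => ?_⟩
  rw [hb i]
  rcases lt_or_ge i B'.length with hi | hi
  · rw [List.getD_append _ _ _ i hi]
  · rw [List.getD_append_right _ _ _ i hi, List.getD_eq_default _ _ hi]
    by_cases hk' : i - B'.length < k
    · simp [List.getD_eq_getElem?_getD, hk']
    · simp [List.getD_eq_getElem?_getD, hk']

/-- The column prefix of a set of blocks. -/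
def colPrefix (B : List ℕ) (j : ℕ) : ℕ := (B.map fun b => min b j).sum

theorem two_mul_colPrefix_stair {j : ℕ} : ∀ {p : ℕ}, j ≤ p →
    2 * colPrefix (stairBlocks p) j + j * j = 2 * j * p + j := by
  intro p hp
  induction p, hp using Nat.le_induction with
  | base =>
    rw [colPrefix, show ((stairBlocks j).map fun b => min b j) = stairBlocks j from
      (List.map_congr_left fun x hx => min_eq_left (mem_stair.1 hx).2).trans (List.map_id' _)]
    have := two_mul_sum_stair j
    nlinarith
  | succ p hp ih =>
    unfold colPrefix at ih ⊢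
    rw [stairBlocks_succ, List.map_cons, List.sum_cons, min_eq_right (by omega : j ≤ p + 1)]
    nlinarith

theorem colPrefix_le (B : List ℕ) (i j : ℕ) :
    colPrefix B j + (B.take i).sum ≤ i * j + B.sum := by
  have h1 : colPrefix B j = colPrefix (B.take i) j + colPrefix (B.drop i) j := by
    unfold colPrefix
    rw [← List.sum_append, ← List.map_append, List.take_append_drop]
  have h2 : colPrefix (B.take i) j ≤ i * j := by
    have h := List.sum_le_card_nsmul ((B.take i).map fun b => min b j) j fun x hx => by
      obtain ⟨y, -, rfl⟩ := List.mem_map.1 hx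
      exact min_le_right _ _
    rw [smul_eq_mul, List.length_map] at h
    exact h.trans (Nat.mul_le_mul_right j (List.length_take_le i B))
  have h3 : colPrefix (B.drop i) j ≤ (B.drop i).sum := by
    have h : ∀ l : List ℕ, colPrefix l j ≤ l.sum := fun l => by
      induction l with
      | nil => simp [colPrefix]
      | cons a l ih => unfold colPrefix at ih ⊢; simp; omega
    exact h _
  have h4 := congrArg List.sum (List.take_append_drop i B)
  rw [List.sum_append] at h4
  omega

/-- A failure of dominance shows up in a set of long columns. -/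
theorem exists_long {c B : List ℕ} (hs : c.sum = B.sum) {i : ℕ}
    (hi : psum (rowSize c) i < (B.take i).sum) :
    ∃ J : List ℕ, J.Sublist c ∧ colPrefix B J.length < J.sum := by
  refine ⟨c.filter fun x => decide (i < x), List.filter_sublist, ?_⟩
  have key : ∀ l : List ℕ, (l.map fun x => min x i).sum + (l.filter fun x => decide (i < x)).sum =
      l.sum + i * (l.filter fun x => decide (i < x)).length := fun l => by
    induction l with
    | nil => simp
    | cons a l ih =>
      by_cases ha : i < a
      · simp [ha, min_eq_right ha.le, Nat.mul_add]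
        omega
      · simp [ha, min_eq_left (not_lt.1 ha)]
        omega
  have h1 := key c
  rw [← psum_rowSize] at h1
  have h2 := colPrefix_le B i (c.filter fun x => decide (i < x)).length
  omega

/-- The main arithmetic lemma: a triple has at least `p + 2` cells. -/
theorem triple_size {p h M b : ℕ} {t J : List ℕ} (hp : h ≤ p) (hJ : J.Sublist (h :: t))
    (htM : ∀ x ∈ t, x ≤ h ∧ x ≤ M) (hMp : p ≤ M + 1) (hM : M ≤ p) (hjp : J.length ≤ p)
    (hb : ∀ v, b < v → v ≤ h → t.count v < 2) (hbh : b ≤ h)
    (hfail : 2 * J.length * p + J.length + 2 * (M + 1 - p) * (J.length - 1) <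
      2 * J.sum + J.length * J.length) :
    0 < b ∧ p + 2 ≤ h + 2 * b := by
  obtain ⟨a, J', rfl, ha, hJ'⟩ : ∃ a J', J = a :: J' ∧ a ≤ h ∧ J'.Sublist t := by
    rcases J with _ | ⟨a, J'⟩
    · simp at hfail
    · rcases List.cons_sublist_cons'.1 hJ with h1 | ⟨rfl, h1⟩
      · exact ⟨a, J', rfl, (htM a (h1.subset (List.mem_cons_self ..))).1,
          (List.sublist_cons_self a J').trans h1⟩
      · exact ⟨a, J', rfl, le_rfl, h1⟩
  set D := J'.filter fun x => decide (b < x)
  have hDt : D.Sublist t := List.filter_sublist.trans hJ'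
  have hnd : D.Nodup := List.nodup_iff_count_le_one.2 fun v => by
    by_cases hv : v ∈ D
    · have h1 : b < v := by simpa using (List.mem_filter.1 hv).2
      have := hb v h1 (htM v (hDt.subset hv)).1
      have := hDt.count_le v
      omega
    · simp [List.count_eq_zero_of_not_mem hv]
  have hk : D.length + b ≤ h := by
    have : D.toFinset ⊆ Finset.Ioc b h := fun v hv => by
      rw [List.mem_toFinset] at hv
      exact Finset.mem_Ioc.2
        ⟨by simpa using (List.mem_filter.1 hv).2, (htM v (hDt.subset hv)).1⟩
    have := Finset.card_le_card this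
    rw [List.toFinset_card_of_nodup hnd, Nat.card_Ioc] at this
    omega
  have hD : 2 * D.sum + D.length * D.length ≤ 2 * D.length * M + D.length := by
    have hp' : (D.mergeSort fun a b => decide (b ≤ a)).Perm D := List.mergeSort_perm _ _
    have hsort := List.pairwise_mergeSort (le := fun a b : ℕ => decide (b ≤ a))
      (fun a b c h1 h2 => by simp at *; omega) (fun a b => by simp; omega) D
    have := two_mul_sum_le _ M ((hsort.and (hp'.nodup_iff.2 hnd)).imp fun {a b} hab => by
      simp at hab; omega) fun x hx => (htM x (hDt.subset (hp'.subset hx))).2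
    rwa [hp'.sum_eq, hp'.length_eq] at this
  have hrest : J'.sum ≤ D.sum + (J'.length - D.length) * b ∧ D.length ≤ J'.length := by
    refine ⟨?_, List.length_filter_le _ _⟩
    have e := List.filter_append_perm (fun x => decide (b < x)) J'
    have h1 := e.sum_eq
    have h2 := e.length_eq
    rw [List.sum_append] at h1
    rw [List.length_append] at h2
    change D.sum + _ = _ at h1
    change D.length + _ = _ at h2
    have h3 := List.sum_le_card_nsmul (J'.filter fun x => ! decide (b < x)) b fun x hx => by
      simpa using (List.mem_filter.1 hx).2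
    rw [smul_eq_mul] at h3
    rw [show J'.length - D.length = (J'.filter fun x => ! decide (b < x)).length by omega]
    omega
  simp only [List.length_cons, List.sum_cons, Nat.add_sub_cancel] at hfail hjp
  obtain ⟨hrest, hkl⟩ := hrest
  obtain ⟨l, hl⟩ := Nat.exists_eq_add_of_le hkl
  obtain ⟨d, hd⟩ := Nat.exists_eq_add_of_le hMp
  rw [hl, Nat.add_sub_cancel_left] at hrest
  rw [hl, hd, Nat.add_sub_cancel_left] at hfail
  rw [hl] at hjp
  generalize D.length = k at *
  generalize J'.sum = G at *
  generalize D.sum = E at *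
  have key : p - k < 2 * b := by
    by_contra hc
    rw [not_lt] at hc
    obtain ⟨z, hz⟩ := Nat.exists_eq_add_of_le hjp
    subst hz
    have h1 := Nat.mul_le_mul_left l (show 2 * b ≤ l + 1 + z by omega)
    have e : k + 1 + l + z + d = M + 1 := by omega
    nlinarith [Nat.zero_le (l * z), Nat.zero_le (l * d)]
  omega

/-- What the last unit knows when a block is cut at its end. -/
def CutInv (A : ℕ × ℕ) (c : List ℕ) (q : ℕ) : Prop :=
  (∀ x ∈ c, x ≤ A.1) ∧ A.2 ≤ A.1 ∧ (A.2 = 0 → q ≤ A.1) ∧
    (0 < A.2 → q + 2 ≤ A.1 + 2 * A.2 ∧ ∀ v, 2 ≤ c.count v → v ≤ A.2)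

/-- Two shares of a cut block fit into different rows. -/
theorem exists_cut {A : ℕ × ℕ} {h b p r : ℕ} {t : List ℕ} (hA : CutInv A (h :: t) (p + 1))
    (hr0 : 0 < r) (hrp : r ≤ p) (hbh : b ≤ h) (hrv : r ≤ h + 2 * b)
    (hB : (0 < b ∧ p + 2 ≤ h + 2 * b) ∨ (b = 0 ∧ (p < h ∨ h = p ∧ r < p ∧ p ∈ t))) :
    ∃ n, r ≤ unitCells (h, b) n ∧ unitCells A n + (p + 1 - r) ≤ unitSize A := by
  obtain ⟨hA1, hA2, hA3, hA4⟩ := hA
  have hh : h ≤ A.1 := hA1 h (List.mem_cons_self ..)
  unfold unitCells unitSize
  rcases Nat.eq_zero_or_pos A.2 with h2 | h2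
  · have := hA3 h2
    exact ⟨min r h, by simp only; omega, by omega⟩
  obtain ⟨h4, h5⟩ := hA4 h2
  rcases le_or_gt r (3 * b) with hr | hr
  · exact ⟨(r + 2) / 3, by simp only; omega, by omega⟩
  refine ⟨r - 2 * b, by simp only; omega, ?_⟩
  rcases hB with ⟨hb, hv⟩ | ⟨rfl, hph | ⟨hhp, hrlt, hmem⟩⟩
  · omega
  · omega
  · subst hhp
    have h6 : h + 1 ≤ A.1 ∨ A.1 = h := by omega
    rcases h6 with h6 | h6
    · omega
    · have := h5 h (by
        rw [List.count_cons_self]
        have := List.count_pos_iff.2 hmem
        omega)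
      omega

/-- The packing, with a possibly cut first block. -/
theorem exists_pack (I : ℕ) : ∀ (c : List ℕ) (p r : ℕ) (A : ℕ × ℕ),
    c.Pairwise (fun a b => b ≤ a) → (∀ x ∈ c, 0 < x) → (∀ x ∈ c, x ≤ I) →
    c.sum = (stairBlocks p).sum + r → r ≤ p → (0 < r → CutInv A c (p + 1)) →
    ∃ (gs : List (ℕ × ℕ)) (d : List ℕ) (T : ℕ → ℕ → ℕ → ℕ) (n x : ℕ) (L Bt : List ℕ),
      (∀ u ∈ gs, u.2 ≤ u.1 ∧ u.1 ≤ I) ∧ c.Perm ((gs.map unitCols).flatten ++ d) ∧ Good d Bt ∧
      Fill I gs (x :: L) T ∧ (∀ g i, n ≤ i → T 0 g i = 0) ∧
      (0 < r → unitCells A n + (p + 1 - r) ≤ unitSize A) ∧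
      posPart (((if r = 0 then 0 else p + 1 - r) + x) :: (L ++ Bt)) =
        posPart [if r = 0 then 0 else p + 1] + (stairBlocks p : Multiset ℕ) := by
  intro c
  induction hc : c.length using Nat.strong_induction_on generalizing c with
  | _ len ih =>
  intro p r A hsort hpos hcI hsum hrp hA
  set s := if r = 0 then 0 else p + 1 - r with hs
  set Bt := if r = 0 then stairBlocks p else (stairBlocks (p + 1)).erase (p + 1 - r) with hBt
  have hmem : 0 < r → p + 1 - r ∈ stairBlocks (p + 1) := fun h =>
    mem_stair.2 ⟨by omega, by omega⟩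
  have hBsum : c.sum = Bt.sum := by
    rw [hBt, hsum]
    split_ifs with h0
    · omega
    · have := (List.perm_cons_erase (hmem (by omega))).sum_eq
      rw [sum_stair_succ, List.sum_cons] at this
      omega
  by_cases hdom : ∀ i, (Bt.take i).sum ≤ psum (rowSize c) i
  · refine ⟨[], c, fun _ _ _ => 0, 0, 0, [], Bt, by simp, by simp, ?_, fill_nil I,
      fun _ _ _ => rfl, fun h => ?_, ?_⟩
    · refine good_dom_rows hBsum ?_ hdom
      rw [hBt]
      split_ifs
      · exact (pairwise_stair p).imp fun hab => hab.le
      · exact ((pairwise_stair _).sublist List.erase_sublist).imp fun hab => hab.le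
    · obtain ⟨h1, h2, h3, h4⟩ := hA h
      simp only [unitCells, unitSize, Nat.zero_min]
      rcases Nat.eq_zero_or_pos A.2 with e | e
      · have := h3 e; omega
      · have := (h4 e).1; omega
    · rw [List.nil_append, add_zero, posPart_cons, hs, hBt]
      split_ifs with h0
      · rw [posPart_stair]
      · rw [← posPart_cons, ← posPart_stair p, ← posPart_cons, ← stairBlocks_succ]
        exact congrArg (Multiset.filter _) (Multiset.coe_eq_coe.2
          (List.perm_cons_erase (hmem (by omega))).symm)
  simp only [not_forall, not_le] at hdom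
  obtain ⟨i, hi⟩ := hdom
  obtain ⟨J, hJc, hJ⟩ := exists_long hBsum hi
  have hBle : ∀ b ∈ Bt, b ≤ p + 1 := fun b hb => by
    rw [hBt] at hb
    split_ifs at hb
    · exact (mem_stair.1 hb).2.trans (Nat.le_succ p)
    · exact (mem_stair.1 (List.mem_of_mem_erase hb)).2
  have hjp : J.length ≤ p := by
    by_contra hgt
    have h1 : colPrefix Bt J.length = Bt.sum := by
      rw [colPrefix, show (Bt.map fun b => min b J.length) = Bt from
        (List.map_congr_left fun b hb => min_eq_left (by
          have := hBle b hb; omega)).trans (List.map_id' _)]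
    have h2 := hJc.sum_le_sum fun x _ => Nat.zero_le x
    omega
  have hcp : 2 * J.length * p + J.length + (if r = p ∧ 0 < r then 2 * (J.length - 1) else 0) ≤
      2 * colPrefix Bt J.length + J.length * J.length := by
    have h1 := two_mul_colPrefix_stair hjp
    rcases Nat.eq_zero_or_pos r with h0 | h0
    · rw [hBt, if_pos h0, if_neg (by omega)]
      omega
    · have e : colPrefix (stairBlocks (p + 1)) J.length =
          min (p + 1 - r) J.length + colPrefix Bt J.length := by
        rw [colPrefix, ((List.perm_cons_erase (hmem h0)).map _).sum_eq, List.map_cons,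
          List.sum_cons, hBt, if_neg (by omega), colPrefix]
      have e2 : colPrefix (stairBlocks (p + 1)) J.length =
          J.length + colPrefix (stairBlocks p) J.length := by
        rw [stairBlocks_succ, colPrefix, List.map_cons, List.sum_cons, colPrefix,
          min_eq_right (by omega : J.length ≤ p + 1)]
      by_cases hrp' : r = p ∧ 0 < r
      · rw [if_pos hrp']; omega
      · rw [if_neg hrp']; omega
  rcases c with _ | ⟨h, t⟩
  · rw [List.sublist_nil] at hJc
    subst hJc
    simp at hJ
  obtain ⟨hth, hsort'⟩ := List.pairwise_cons.1 hsort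
  -- the next unit `(h, b)` and what remains
  have key : ∃ b t', (h :: t).Perm (unitCols (h, b) ++ t') ∧ t'.Sublist t ∧ b ≤ h ∧
      r < h + 2 * b ∧ (0 < b → ∀ v, 2 ≤ t.count v → v ≤ b) ∧
      ((0 < b ∧ p + 2 ≤ h + 2 * b) ∨ (b = 0 ∧ (p < h ∨ h = p ∧ r < p ∧ p ∈ t))) := by
    by_cases hsingle : p < h ∨ h = p ∧ r < p ∧ p ∈ t
    · refine ⟨0, t, by simp [unitCols], List.Sublist.refl _, Nat.zero_le _, by omega,
        fun h => absurd h (lt_irrefl 0), Or.inr ⟨rfl, hsingle⟩⟩
    have hhp : h ≤ p := by omega
    set b := Nat.findGreatest (fun v => 2 ≤ t.count v) h with hb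
    have hmax : ∀ v, b < v → v ≤ h → t.count v < 2 := fun v h1 h2 =>
      not_le.1 (Nat.findGreatest_is_greatest (P := fun v => 2 ≤ t.count v) h1 h2)
    have hsz : 0 < b ∧ p + 2 ≤ h + 2 * b := by
      by_cases hpt : p ∈ t
      · have h1 : r = p := by
          have := hth p hpt
          by_contra hne
          exact hsingle (Or.inr ⟨by omega, by omega, hpt⟩)
        have h2 := hpos p (List.mem_cons_of_mem _ hpt)
        refine triple_size (M := p) hhp hJc (fun x hx => ⟨hth x hx, (hth x hx).trans hhp⟩)
          (by omega) le_rfl hjp hmax (Nat.findGreatest_le h) ?_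
        rw [if_pos ⟨h1, by omega⟩] at hcp
        rw [show p + 1 - p = 1 by omega]
        omega
      · have h2 := hpos h (List.mem_cons_self ..)
        refine triple_size (M := p - 1) hhp hJc (fun x hx => ⟨hth x hx, ?_⟩)
          (by omega) (by omega) hjp hmax (Nat.findGreatest_le h) ?_
        · have := (hth x hx).trans hhp
          rcases eq_or_lt_of_le this with e | e
          · exact absurd (e ▸ hx) hpt
          · omega
        · rw [show p - 1 + 1 - p = 0 by omega]
          omega
    have hcnt : 2 ≤ t.count b :=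
      Nat.findGreatest_of_ne_zero (P := fun v => 2 ≤ t.count v) hb.symm hsz.1.ne'
    refine ⟨b, (t.erase b).erase b, ?_, (List.erase_sublist).trans List.erase_sublist,
      Nat.findGreatest_le h, by omega, fun _ v hv => ?_, Or.inl hsz⟩
    · have hc2 : 0 < (t.erase b).count b := by
        rw [List.count_erase_self]
        exact Nat.sub_pos_of_lt hcnt
      rw [unitCols, if_neg hsz.1.ne']
      exact List.Perm.cons h
        ((List.perm_cons_erase (List.count_pos_iff.1 (show 0 < t.count b by omega))).trans
          (List.Perm.cons b (List.perm_cons_erase (List.count_pos_iff.1 hc2))))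
    · by_contra hlt
      have := hmax v (by omega) (hth v (List.count_pos_iff.1 (by omega)))
      omega
  obtain ⟨b, t', hperm, hsub, hbh, hrv, hrep, hkind⟩ := key
  have hps := hperm.sum_eq
  rw [List.sum_append, sum_unitCols, unitSize] at hps
  simp only at hps
  set p' := Nat.findGreatest (fun k => (stairBlocks k).sum ≤ t'.sum) p with hp'
  have hle' : (stairBlocks p').sum ≤ t'.sum :=
    Nat.findGreatest_spec (P := fun k => (stairBlocks k).sum ≤ t'.sum) (Nat.zero_le p)
      (by simp [stairBlocks])
  have hp'p : p' < p := by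
    rcases eq_or_lt_of_le (Nat.findGreatest_le (P := fun k => (stairBlocks k).sum ≤ t'.sum) p)
      with e | e
    · rw [← hp'] at e
      rw [e] at hle'
      omega
    · exact e
  have hlt' : t'.sum < (stairBlocks (p' + 1)).sum := not_le.1
    (Nat.findGreatest_is_greatest (P := fun k => (stairBlocks k).sum ≤ t'.sum)
      (Nat.lt_succ_self _) hp'p)
  rw [sum_stair_succ] at hlt'
  set r' := t'.sum - (stairBlocks p').sum with hr'
  set K := if r' = 0 then p' else p' + 1 with hK
  set s' := if r' = 0 then 0 else p' + 1 - r' with hs'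
  have hv : p ≤ h + 2 * b ∧ (b = 0 → p ≤ h) ∧ (0 < b → p + 2 ≤ h + 2 * b) := by omega
  have hlen' : t'.length < len := by
    rw [← hc]
    exact Nat.lt_succ_of_le hsub.length_le
  obtain ⟨gs, d, T, n', x', L', Bt', hgs, hper', hgood, hfill, hT, hcut, hmass⟩ :=
    ih t'.length hlen' t' rfl p' r' (h, b) (hsort'.sublist hsub)
      (fun y hy => hpos y (List.mem_cons_of_mem _ (hsub.subset hy)))
      (fun y hy => hcI y (List.mem_cons_of_mem _ (hsub.subset hy))) (by omega) (by omega)
      fun _ => ⟨fun y hy => hth y (hsub.subset hy), hbh, fun e => by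
        simp only at e ⊢; omega, fun e => ⟨by simp only at e ⊢; omega, fun v hv' =>
          hrep e v (hv'.trans (hsub.count_le v))⟩⟩
  obtain ⟨n, hn, hnA⟩ : ∃ n, r ≤ unitCells (h, b) n ∧
      (0 < r → unitCells A n + (p + 1 - r) ≤ unitSize A) := by
    rcases Nat.eq_zero_or_pos r with h0 | h0
    · exact ⟨0, by omega, fun h => by omega⟩
    · obtain ⟨n, h1, h2⟩ := exists_cut (hA h0) h0 hrp hbh hrv.le hkind
      exact ⟨n, h1, fun _ => h2⟩
  have hW := congrArg List.sum (topBlocks_append (show K ≤ p by rw [hK]; split_ifs <;> omega))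
  rw [List.sum_append] at hW
  have hKs : (stairBlocks K).sum = (stairBlocks p').sum + (if r' = 0 then 0 else p' + 1) := by
    rw [hK]
    split_ifs
    · rw [add_zero]
    · exact sum_stair_succ p'
  have hs'n : unitCells (h, b) n' + s' ≤ unitSize (h, b) := by
    rw [hs']
    split_ifs with h0
    · exact (add_zero _).trans_le (unitCells_le _ _)
    · exact hcut (by omega)
  obtain ⟨A', hA', hA0⟩ := hfill.cons (u := (h, b)) hbh (hcI h (List.mem_cons_self ..)) hT hn hs'n
    (show r + (topBlocks p K).sum + s' = unitSize (h, b) by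
      simp only [unitSize, hs']
      split_ifs at hKs ⊢ <;> omega)
  refine ⟨(h, b) :: gs, d, A', n, r, topBlocks p K ++ (s' + x') :: L', Bt', ?_, ?_, hgood, hA',
    hA0, hnA, ?_⟩
  · simp only [List.mem_cons, forall_eq_or_imp]
    exact ⟨⟨hbh, hcI h (List.mem_cons_self ..)⟩, hgs⟩
  · refine hperm.trans ?_
    rw [List.map_cons, List.flatten_cons, List.append_assoc]
    exact hper'.append_left _
  · have e1 : s + r = if r = 0 then 0 else p + 1 := by
      rw [hs]
      split_ifs <;> omega
    have e2 : posPart (topBlocks p K) + posPart [if r' = 0 then 0 else p' + 1] +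
        (stairBlocks p' : Multiset ℕ) = (stairBlocks p : Multiset ℕ) := by
      rw [← posPart_stair p', add_assoc, ← posPart_stair p,
        ← topBlocks_append (show K ≤ p by rw [hK]; split_ifs <;> omega), posPart_append]
      congr 1
      rw [hK]
      split_ifs
      · rw [show posPart [0] = 0 by simp [posPart, Multiset.filter_singleton], zero_add]
      · rw [stairBlocks_succ, posPart_cons (p' + 1) (stairBlocks p')]
    rw [← hs'] at hmass
    rw [posPart_cons, e1, List.append_assoc, posPart_append, List.cons_append, hmass,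
      ← add_assoc (posPart (topBlocks p K)), e2]

/-- Every list of column lengths of the right size is good for the rows of the staircase. -/
theorem good_stair (m : ℕ) (c : List ℕ) (hsort : c.Pairwise fun a b => b ≤ a)
    (hpos : ∀ x ∈ c, 0 < x) (hsum : c.sum = (stairBlocks m).sum) : Good c (stairBlocks m) := by
  obtain ⟨gs, d, T, n, x, L, Bt, hgs, hperm, hgood, hfill, -, -, hmass⟩ :=
    exists_pack c.sum c m 0 (0, 0) hsort hpos (fun x hx => List.le_sum_of_mem hx) (by omega)
      (Nat.zero_le m) fun h => absurd h (lt_irrefl 0)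
  have h := ((hfill.good (fun u hu => (hgs u hu).1) fun u hu => (hgs u hu).2).append hgood).perm
    hperm.symm (List.Perm.refl _)
  refine h.drop_zero ?_
  simp only [reduceIte, zero_add] at hmass
  rw [List.cons_append, hmass, show posPart [0] = 0 by simp [posPart, Multiset.filter_singleton],
    zero_add]

end Vale.Agent.P197.Full

end
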