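import Vale.Agent.P197.Full.Columns
import Vale.Agent.P197.Strip.Peel

/-!
# P197: good shapes

A shape, given by a list `c` of column lengths in any order, is good for a list `B` of block sizes
if the rational Specht module holds an integral function on row assignments which is odd
somewhere and, modulo two, is invariant under the permutations preserving the blocks.
-/

namespace Vale.Agent.P197.Full

open scoped Classical

/-- The fibres of `b` have the sizes listed in `B`. -/
def Blocks {α : Type*} [Fintype α] (b : α → ℕ) (B : List ℕ) : Prop :=
  ∀ i, (Finset.univ.filter fun x => b x = i).card = B.getD i 0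

/-- An integral vector of the Specht module of `S`, odd somewhere and invariant modulo two under
the stabiliser of the blocks of `b`. -/
def GoodLab {α : Type*} [Fintype α] (S : α → ℕ × ℕ) (b : α → ℕ) : Prop :=
  ∃ f : (α → ℕ) → ℤ, (fun t => (f t : ℂ)) ∈ Strip.specht S ∧
    (∀ g : Equiv.Perm α, (∀ x, b (g x) = b x) → ∀ t, (2 : ℤ) ∣ f (t ∘ g) - f t) ∧
    ∃ t, ¬ (2 : ℤ) ∣ f t

/-- The shape with columns `c` is good for blocks of sizes `B`. -/
def Good (c B : List ℕ) : Prop :=
  c.sum = B.sum ∧ ∀ (α : Type) [Fintype α] (S : α → ℕ × ℕ) (b : α → ℕ),
    IsLab S c → Blocks b B → GoodLab S b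

/-- The row lengths of the staircase. -/
def stairBlocks (m : ℕ) : List ℕ := (List.range m).map fun i => m - i

end Vale.Agent.P197.Full
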