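import Mathlib

/-!
# P197: semistandard tableaux from dominance

If the partial sums of the row lengths `r` dominate those of a decreasing list `B` of the same
total, the cells `j < r i` carry a semistandard filling with `B[l]` entries equal to `l`: remove
a horizontal strip for the last entry; the new partial sums are `min (P i) (P (i + 1) - b)`.
-/

namespace Vale.Agent.P197.Full

open Finset

/-- The partial sums of `r`. -/
def psum (r : ℕ → ℕ) (i : ℕ) : ℕ := ∑ j ∈ range i, r j

theorem psum_succ (r : ℕ → ℕ) (i : ℕ) : psum r (i + 1) = psum r i + r i := sum_range_succ r i

theorem psum_mono (r : ℕ → ℕ) : Monotone (psum r) :=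
  monotone_nat_of_le_succ fun i => by rw [psum_succ]; exact Nat.le_add_right _ _

theorem sum_take_le (B : List ℕ) (i : ℕ) : (B.take i).sum ≤ B.sum :=
  (List.take_sublist i B).sum_le_sum fun _ _ => Nat.zero_le _

/-- Dominance gives a semistandard tableau with the prescribed content. -/
theorem exists_ssyt (B : List ℕ) : ∀ r : ℕ → ℕ, Antitone r → B.Pairwise (fun a b => b ≤ a) →
    (∀ i, (B.take i).sum ≤ psum r i) → (∀ i, psum r i ≤ B.sum) →
    ∃ T : ℕ → ℕ → ℕ, (∀ i j, j < r i → T i j < B.length) ∧
      (∀ i i' j j', i ≤ i' → j ≤ j' → j' < r i' → T i j ≤ T i' j') ∧
      (∀ i i' j, i < i' → j < r i' → T i j < T i' j) ∧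
      ∀ l, ∀ K, B.length ≤ K →
        ∑ i ∈ range K, ((range (r i)).filter fun j => T i j = l).card = B.getD l 0 := by
  induction B using List.reverseRecOn with
  | nil =>
    intro r _ _ _ htot
    have hr : ∀ i, r i = 0 := fun i => by
      have := htot (i + 1)
      rw [psum_succ] at this
      simp at this
      omega
    exact ⟨fun _ _ => 0, fun i j h => by simp [hr] at h, fun _ _ _ _ _ _ h => by simp [hr] at h,
      fun _ _ _ _ h => by simp [hr] at h, fun l K _ => by simp [hr]⟩
  | append_singleton B b ih =>
    intro r hr hB hdom htot
    rw [List.pairwise_append] at hB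
    obtain ⟨hB', -, hge⟩ := hB
    simp only [List.mem_singleton, forall_eq] at hge
    set n := B.length
    have hsum : (B ++ [b]).sum = B.sum + b := by simp
    have hK : ∀ K, n + 1 ≤ K → psum r K = B.sum + b := fun K hK => by
      refine le_antisymm ((htot K).trans_eq hsum) ?_
      have := hdom K
      rwa [List.take_of_length_le (by simpa using hK), hsum] at this
    -- the smaller shape
    set p : ℕ → ℕ := fun i => min (psum r i) (psum r (i + 1) - b)
    have hb1 : ∀ i, b ≤ psum r (i + 1) := by
      intro i
      have h1 := hdom (i + 1)
      rcases B with _ | ⟨x, B⟩
      · simpa using h1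
      · refine le_trans ?_ h1
        have := hge x (by simp)
        simp [List.take_succ_cons]
        omega
    have hstep : ∀ i, p i + r (i + 1) ≤ p (i + 1) ∧ p (i + 1) ≤ p i + r i := by
      intro i
      have h1 := psum_succ r i
      have h2 := psum_succ r (i + 1)
      have h3 := hr (Nat.le_succ i)
      have h4 := hb1 i
      simp only [Nat.succ_eq_add_one] at h3
      simp only [p]
      omega
    set μ : ℕ → ℕ := fun i => p (i + 1) - p i
    have hμ1 : ∀ i, μ i ≤ r i := fun i => by have := hstep i; simp only [μ]; omega
    have hμ2 : ∀ i, r (i + 1) ≤ μ i := fun i => by have := hstep i; simp only [μ]; omega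
    have hμanti : Antitone μ := antitone_nat_of_succ_le fun i => (hμ1 _).trans (hμ2 i)
    have hp : ∀ i, psum μ i = p i := by
      intro i
      induction i with
      | zero => simp [p, psum]
      | succ i ih' =>
        have := hstep i
        rw [psum_succ, ih']
        simp only [μ]
        omega
    have hdom' : ∀ i, (B.take i).sum ≤ psum μ i := by
      intro i
      rw [hp]
      refine le_min ?_ ?_
      · rcases le_or_gt i n with hi | hi
        · have := hdom i
          rwa [List.take_append_of_le_length hi] at this
        · rw [List.take_of_length_le (le_of_lt hi)]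
          exact (Nat.le_add_right _ b).trans (hK i hi).ge
      · have h1 := hdom (i + 1)
        rcases lt_or_ge i n with hi | hi
        · rw [List.take_append_of_le_length hi, List.take_succ_eq_append_getElem hi,
            List.sum_append, List.sum_singleton] at h1
          have := hge B[i] (List.getElem_mem hi)
          omega
        · rw [List.take_of_length_le hi]
          have := hK (i + 1) (by omega)
          omega
    have htot' : ∀ i, psum μ i ≤ B.sum := fun i => by
      rw [hp]
      have := htot (i + 1)
      simp only [p]
      omega
    obtain ⟨T, hT1, hT2, hT3, hT4⟩ := ih μ hμanti hB' hdom' htot'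
    refine ⟨fun i j => if j < μ i then T i j else n, fun i j hj => ?_,
      fun i i' j j' hi hj hj' => ?_, fun i i' j hi hj => ?_, fun l K hKl => ?_⟩
    · simp only [List.length_append, List.length_singleton]
      split_ifs with h
      · exact lt_of_lt_of_le (hT1 i j h) (Nat.le_succ _)
      · exact Nat.lt_succ_self _
    · dsimp only
      by_cases h' : j' < μ i'
      · rw [if_pos h', if_pos (lt_of_lt_of_le (lt_of_le_of_lt hj h') (hμanti hi))]
        exact hT2 i i' j j' hi hj h'
      · rw [if_neg h']
        split_ifs with h
        · exact (hT1 i j h).le
        · exact le_rfl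
    · dsimp only
      have hji : j < μ i := lt_of_lt_of_le hj ((hr (Nat.succ_le_of_lt hi)).trans (hμ2 i))
      rw [if_pos hji]
      split_ifs with h
      · exact hT3 i i' j hi h
      · exact hT1 i j hji
    · simp only [List.length_append, List.length_singleton] at hKl
      dsimp only
      rcases lt_trichotomy l n with hl | rfl | hl
      · rw [List.getD_append _ _ _ _ hl, ← hT4 l K (by omega)]
        refine sum_congr rfl fun i _ => congrArg card ?_
        ext j
        simp only [mem_filter, mem_range]
        constructor
        · rintro ⟨-, h⟩
          split_ifs at h with h'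
          · exact ⟨h', h⟩
          · omega
        · rintro ⟨h, h'⟩
          exact ⟨h.trans_le (hμ1 i), by rw [if_pos h]; exact h'⟩
      · rw [List.getD_append_right _ _ _ _ le_rfl, Nat.sub_self, List.getD_cons_zero]
        have : ∀ i, ((range (r i)).filter fun j => (if j < μ i then T i j else n) = n).card
            + μ i = r i := by
          intro i
          have e : ((range (r i)).filter fun j => (if j < μ i then T i j else n) = n)
              = Ico (μ i) (r i) := by
            ext j
            simp only [mem_filter, mem_range, mem_Ico]
            constructor
            · rintro ⟨h, h'⟩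
              refine ⟨?_, h⟩
              by_contra hlt
              rw [if_pos (not_le.1 hlt)] at h'
              have := hT1 i j (not_le.1 hlt)
              omega
            · rintro ⟨h, h'⟩
              exact ⟨h', by rw [if_neg (not_lt.2 h)]⟩
          rw [e, Nat.card_Ico]
          have := hμ1 i
          omega
        have h1 := sum_congr (s₁ := range K) rfl fun i _ => this i
        rw [sum_add_distrib] at h1
        change _ + psum μ K = psum r K at h1
        rw [hp, hK K (by omega)] at h1
        have h2 := hK (K + 1) (by omega)
        have h3 := hK K (by omega)
        simp only [p] at h1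
        omega
      · rw [List.getD_eq_default _ _ (by simp; omega)]
        refine sum_eq_zero fun i _ => card_eq_zero.2 (filter_eq_empty_iff.2 fun j hj => ?_)
        rw [mem_range] at hj
        split_ifs with h
        · have := hT1 i j h; omega
        · omega

end Vale.Agent.P197.Full
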