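import Vale.Agent.P197.Full.Good
import Vale.Agent.P197.Full.Tableau

/-!
# P197: dominance groups are good

A semistandard filling is a peeling into horizontal strips, its transpose one into vertical
strips; the resulting eigenvector is integral, and halving makes it odd somewhere.
-/

noncomputable section

namespace Vale.Agent.P197.Full

open scoped Classical
open Finset

variable {α : Type} [Fintype α] {S : α → ℕ × ℕ}

/-- A nonzero integral vector of the Specht module fixed up to sign by the stabiliser of the
blocks makes the labelling good. -/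
theorem goodLab_of_sign (b : α → ℕ) : ∀ (N : ℕ) (f : (α → ℕ) → ℤ) (t₀ : α → ℕ),
    (f t₀).natAbs ≤ N → f t₀ ≠ 0 → (fun t => (f t : ℂ)) ∈ Strip.specht S →
    (∀ g : Equiv.Perm α, (∀ x, b (g x) = b x) →
      (∀ t, f (t ∘ g) = f t) ∨ ∀ t, f (t ∘ g) = -f t) → GoodLab S b := by
  intro N
  induction N with
  | zero => intro f t₀ h h0; exact absurd (Int.natAbs_eq_zero.1 (Nat.le_zero.1 h)) h0
  | succ N ih =>
    intro f t₀ hN h0 hf hg
    by_cases hodd : ∃ t, ¬ (2 : ℤ) ∣ f t
    · refine ⟨f, hf, fun g hgb t => ?_, hodd⟩
      rcases hg g hgb with h | h <;> rw [h t]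
      · simp
      · exact ⟨-f t, by ring⟩
    · push Not at hodd
      have e : ∀ t, f t = 2 * (f t / 2) := fun t => (Int.mul_ediv_cancel' (hodd t)).symm
      refine ih (fun t => f t / 2) t₀ ?_ ?_ ?_ fun g hgb => ?_
      · have := e t₀; omega
      · intro h; exact h0 (by rw [e t₀, h, mul_zero])
      · have : (fun t => ((f t / 2 : ℤ) : ℂ)) = (2⁻¹ : ℂ) • fun t => (f t : ℂ) := by
          funext t
          rw [Pi.smul_apply, smul_eq_mul]
          conv_rhs => rw [e t]
          push_cast
          ring
        rw [this]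
        exact Submodule.smul_mem _ _ hf
      · refine (hg g hgb).imp (fun h t => ?_) fun h t => ?_
        · simp only [h t]
        · simp only [h t]
          have := e t
          omega

/-- Peelings into strips, the blocks coming in increasing order, give good labellings. -/
theorem goodLab_of_peel {nu : YoungDiagram} {b : α → ℕ} {vert : ℕ → Prop}
    (hS : Strip.IsLabelling S nu) (hP : Strip.Peel (fun x => (b x, 0)) S vert id) :
    GoodLab S b := by
  set T : α → ℕ × ℕ := fun x => (b x, 0) with hT
  set e : Equiv.Perm α → ℤ := fun r => (Equiv.Perm.sign (Strip.vertPerm T vert r) : ℤ)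
  have heps : ∀ r, Strip.eps T vert r = (e r : ℂ) := fun r => rfl
  have hpoly : ∀ t, Strip.poly S t
      = ((∑ c ∈ Strip.colPerms S, if t = fun x => (S (c x)).1 then
          (Equiv.Perm.sign c : ℤ) else 0 : ℤ) : ℂ) := fun t => by
    simp [Strip.poly, Strip.sgn, apply_ite (fun z : ℤ => (z : ℂ))]
  set f : (α → ℕ) → ℤ := fun t => ∑ r ∈ Strip.rowPerms T, e r *
    ∑ c ∈ Strip.colPerms S, if t ∘ r = fun x => (S (c x)).1 then (Equiv.Perm.sign c : ℤ) else 0
  have hf : (fun t => (f t : ℂ))
      = ∑ r ∈ Strip.rowPerms T, Strip.eps T vert r • fun t : α → ℕ => Strip.poly S (t ∘ r) := by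
    funext t
    simp only [f, Finset.sum_apply, Pi.smul_apply, smul_eq_mul, hpoly, heps]
    push_cast
    rfl
  have hne : f (fun x => (S x).1) ≠ 0 := by
    intro h0
    refine Strip.sum_eps_poly_ne_zero hS hP ?_
    have := congrFun hf fun x => (S x).1
    simp only [h0, Int.cast_zero, Finset.sum_apply, Pi.smul_apply, smul_eq_mul] at this
    exact this.symm
  refine goodLab_of_sign b _ f _ le_rfl hne ?_ fun g hg => ?_
  · rw [hf]
    exact Submodule.sum_mem _ fun r _ =>
      Submodule.smul_mem _ _ (Submodule.subset_span ⟨r, rfl⟩)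
  · have hg' : g ∈ Strip.rowPerms T := Strip.mem_rowPerms.2 hg
    have key : ∀ t, (f (t ∘ g) : ℂ) = (e g : ℂ) * (f t : ℂ) := by
      intro t
      rw [congrFun hf t, congrFun hf (t ∘ g), Finset.sum_apply, Finset.sum_apply, Finset.mul_sum]
      refine Finset.sum_nbij' (fun r => g * r) (fun r => g⁻¹ * r)
        (fun r h => Strip.mul_mem_rowPerms hg' h)
        (fun r h => Strip.mul_mem_rowPerms (Strip.inv_mem_rowPerms hg') h)
        (fun r _ => by group) (fun r _ => by group) fun r h => ?_
      simp only [Pi.smul_apply, smul_eq_mul]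
      rw [← heps g, Strip.eps_mul hg' h, ← mul_assoc, ← mul_assoc, Strip.eps_sq, one_mul]
      rfl
    rcases Int.units_eq_one_or (Equiv.Perm.sign (Strip.vertPerm T vert g)) with h | h
    · exact .inl fun t => Int.cast_injective (α := ℂ) (by rw [key t]; simp [e, h])
    · exact .inr fun t => Int.cast_injective (α := ℂ) (by rw [key t]; simp [e, h])

/-- The diagram of a decreasing list of column lengths. -/
def diag (c : List ℕ) (hc : c.Pairwise fun a b => b ≤ a) : YoungDiagram where
  cells := colCells c
  isLowerSet := by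
    rintro ⟨i, j⟩ ⟨i', j'⟩ ⟨hi, hj⟩ h
    simp only [Finset.mem_coe, mem_colCells] at h ⊢
    rcases lt_or_ge j c.length with hl | hl
    · refine lt_of_le_of_lt hi (h.trans_le ?_)
      rw [List.getD_eq_getElem _ _ hl, List.getD_eq_getElem _ _ (lt_of_le_of_lt hj hl)]
      rcases eq_or_lt_of_le hj with rfl | hlt
      · exact le_rfl
      · exact List.pairwise_iff_getElem.1 hc _ _ _ hl hlt
    · rw [List.getD_eq_default _ _ hl] at h
      exact absurd h (Nat.not_lt_zero _)

theorem mem_iff_lt_rowSize {c : List ℕ} (hc : c.Pairwise fun a b => b ≤ a) (i j : ℕ) :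
    (i, j) ∈ colCells c ↔ j < rowSize c i := by
  have e : (diag c hc).rowLen i = rowSize c i := by
    rw [YoungDiagram.rowLen_eq_card, ← rowSize_eq_card]; rfl
  rw [← e, ← YoungDiagram.mem_iff_lt_rowLen]
  rfl

theorem rowSize_anti (c : List ℕ) : Antitone (rowSize c) := fun i i' h =>
  List.countP_mono_left fun x _ hx => by
    simp only [decide_eq_true_eq] at hx ⊢
    omega

theorem psum_rowSize_le (c : List ℕ) (i : ℕ) : psum (rowSize c) i ≤ c.sum := by
  have e : psum (rowSize c) i = ((colCells c).filter fun p => p.1 < i).card := by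
    rw [psum, Finset.sum_congr rfl fun a _ => (rowSize_eq_card c a).symm,
      Finset.card_eq_sum_card_fiberwise (f := Prod.fst) (t := Finset.range i)
        (fun p hp => Finset.mem_coe.2 (Finset.mem_range.2 (Finset.mem_filter.1 hp).2))]
    refine Finset.sum_congr rfl fun a ha => congrArg Finset.card ?_
    ext p
    simp only [Finset.mem_filter]
    rw [Finset.mem_range] at ha
    constructor
    · rintro ⟨h, rfl⟩; exact ⟨⟨h, ha⟩, rfl⟩
    · rintro ⟨⟨h, -⟩, h'⟩; exact ⟨h, h'⟩
  rw [e, ← card_colCells]
  exact Finset.card_filter_le _ _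

/-- The block sizes of a filling. -/
theorem card_entry {c B : List ℕ} (T : ℕ → ℕ → ℕ) (K : ℕ) (r : ℕ → ℕ) (σ : ℕ × ℕ → ℕ × ℕ)
    (hσ : Function.Injective σ) (hmem : ∀ i j, σ (i, j) ∈ colCells c ↔ j < r i)
    (hK : ∀ i, K ≤ i → r i = 0) (hsurj : Function.Surjective σ) (l : ℕ)
    (hl : ∑ i ∈ range K, ((range (r i)).filter fun j => T i j = l).card = B.getD l 0) :
    (univ.filter fun p : colCells c =>
      T (Function.invFun σ p).1 (Function.invFun σ p).2 = l).card = B.getD l 0 := by
  rw [← hl, ← card_sigma]
  have inv : ∀ q, Function.invFun σ (σ q) = q := Function.leftInverse_invFun hσ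
  have inv' : ∀ p, σ (Function.invFun σ p) = p := Function.rightInverse_invFun hsurj
  have hj : ∀ p : colCells c, (Function.invFun σ (p : ℕ × ℕ)).2
      < r (Function.invFun σ (p : ℕ × ℕ)).1 := fun p =>
    (hmem _ _).1 (by rw [Prod.mk.eta, inv']; exact p.2)
  refine card_bij (fun p _ => ⟨(Function.invFun σ (p : ℕ × ℕ)).1,
    (Function.invFun σ (p : ℕ × ℕ)).2⟩) (fun p hp => ?_) (fun p _ q _ h => ?_) fun q hq => ?_
  · simp only [mem_filter, mem_univ, true_and] at hp
    simp only [mem_sigma, mem_range, mem_filter]
    refine ⟨?_, hj p, hp⟩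
    by_contra hlt
    have := hj p
    rw [hK _ (not_lt.1 hlt)] at this
    exact Nat.not_lt_zero _ this
  · simp only [Sigma.mk.injEq, heq_eq_eq] at h
    exact Subtype.ext ((inv' p).symm.trans ((congrArg σ (Prod.ext h.1 h.2)).trans (inv' q)))
  · obtain ⟨i, j⟩ := q
    simp only [mem_sigma, mem_range, mem_filter] at hq
    exact ⟨⟨σ (i, j), (hmem i j).2 hq.2.1⟩, by simp [inv, hq.2.2], by simp [inv]⟩

/-- A group whose rows dominate the blocks is good. -/
theorem good_dom_rows {c B : List ℕ} (hs : c.sum = B.sum) (hB : B.Pairwise fun a b => b ≤ a)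
    (h : ∀ i, (B.take i).sum ≤ psum (rowSize c) i) : Good c B := by
  set d := c.mergeSort (fun a b => decide (b ≤ a))
  have hperm : d.Perm c := List.mergeSort_perm c _
  have hd : d.Pairwise fun a b => b ≤ a := by
    have := List.pairwise_mergeSort (le := fun a b : ℕ => decide (b ≤ a))
      (by intros; simp at *; omega) (by intros; simp; omega) c
    simpa using this
  refine Good.perm ?_ hperm (List.Perm.refl B)
  have hrs : rowSize d = rowSize c := funext (rowSize_perm hperm)
  have hsd : d.sum = B.sum := hperm.sum_eq.trans hs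
  obtain ⟨T, hlt, hmono, hstrict, hcount⟩ := exists_ssyt B (rowSize d) (rowSize_anti d) hB
    (hrs ▸ h) fun i => (psum_rowSize_le d i).trans_eq hsd
  have hzero : ∀ i, B.length ≤ i → rowSize d i = 0 := fun i hi => by
    have h1 := (psum_rowSize_le d (i + 1)).trans_eq hsd
    have h2 := h i
    rw [List.take_of_length_le hi, ← hrs] at h2
    rw [psum_succ] at h1
    omega
  refine Good.of_lab (β := colCells d) (S := Subtype.val) (b := fun p => T p.1.1 p.1.2)
    ⟨Subtype.val_injective, fun p => by simp⟩ (fun l => ?_) ?_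
  · have := card_entry (c := d) (B := B) T B.length (rowSize d) id Function.injective_id
      (mem_iff_lt_rowSize hd) hzero Function.surjective_id l (hcount l _ le_rfl)
    have e : ∀ q : ℕ × ℕ, Function.invFun id q = q := fun q =>
      Function.leftInverse_invFun Function.injective_id q
    simpa [e] using this
  · have hS : Strip.IsLabelling (Subtype.val : colCells d → ℕ × ℕ) (diag d hd) :=
      ⟨Subtype.val_injective, by ext p; simp [diag]⟩
    refine goodLab_of_peel (vert := fun _ => False) hS
      ⟨fun _ _ e => e, fun x y hxy => hmono _ _ _ _ hxy.1 hxy.2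
        ((mem_iff_lt_rowSize hd _ _).1 y.2), fun x y _ e e' => ?_, fun x y hv => hv.elim⟩
    have hx := (mem_iff_lt_rowSize hd _ _).1 x.2
    have hy := (mem_iff_lt_rowSize hd _ _).1 y.2
    simp only at e e'
    rcases lt_trichotomy x.1.1 y.1.1 with h | h | h
    · have := hstrict _ _ _ h hy; rw [← e', e] at this; rw [e'] at this; exact absurd this (lt_irrefl _)
    · exact Subtype.ext (Prod.ext h e')
    · have := hstrict _ _ _ h hx; rw [e, e'] at this; exact absurd this (lt_irrefl _)

theorem psum_getD (c : List ℕ) : ∀ i, psum (fun j => c.getD j 0) i = (c.take i).sum := by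
  intro i
  induction i with
  | zero => simp [psum]
  | succ i ih =>
    rw [psum_succ, ih]
    rcases lt_or_ge i c.length with h | h
    · rw [List.take_succ_eq_append_getElem h, List.sum_append, List.sum_singleton,
        List.getD_eq_getElem _ _ h]
    · rw [List.getD_eq_default _ _ h, List.take_of_length_le h, List.take_of_length_le (h.trans i.le_succ),
        add_zero]

/-- A group whose columns dominate the blocks is good. -/
theorem good_dom_cols {c B : List ℕ} (hs : c.sum = B.sum) (hc : c.Pairwise fun a b => b ≤ a)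
    (hB : B.Pairwise fun a b => b ≤ a) (h : ∀ i, (B.take i).sum ≤ (c.take i).sum) : Good c B := by
  have hanti : Antitone fun j => c.getD j 0 := fun j j' hj => by
    rcases lt_or_ge j' c.length with hl | hl
    · simp only [List.getD_eq_getElem _ _ hl, List.getD_eq_getElem _ _ (lt_of_le_of_lt hj hl)]
      rcases eq_or_lt_of_le hj with rfl | hlt
      · exact le_rfl
      · exact List.pairwise_iff_getElem.1 hc _ _ _ hl hlt
    · simp only [List.getD_eq_default _ _ hl, Nat.zero_le]
  obtain ⟨T, hlt, hmono, hstrict, hcount⟩ := exists_ssyt B (fun j => c.getD j 0) hanti hB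
    (fun i => (h i).trans_eq (psum_getD c i).symm)
    fun i => by rw [psum_getD, ← hs]; exact sum_take_le c i
  have hzero : ∀ i, B.length ≤ i → c.getD i 0 = 0 := fun i hi => by
    have h1 := sum_take_le c (i + 1)
    have h2 := h i
    rw [List.take_of_length_le hi, ← hs] at h2
    have h3 := psum_succ (fun j => c.getD j 0) i
    rw [psum_getD, psum_getD] at h3
    omega
  refine Good.of_lab (β := colCells c) (S := Subtype.val) (b := fun p => T p.1.2 p.1.1)
    ⟨Subtype.val_injective, fun p => by simp⟩ (fun l => ?_) ?_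
  · have := card_entry (c := c) (B := B) T B.length (fun j => c.getD j 0) Prod.swap
      Prod.swap_injective (fun i j => mem_colCells) hzero Prod.swap_surjective l
      (hcount l _ le_rfl)
    have e : ∀ p : ℕ × ℕ, Function.invFun Prod.swap p = p.swap := fun p => by
      conv_lhs => rw [← Prod.swap_swap p]
      exact Function.leftInverse_invFun Prod.swap_injective _
    simpa [e] using this
  · have hS : Strip.IsLabelling (Subtype.val : colCells c → ℕ × ℕ) (diag c hc) :=
      ⟨Subtype.val_injective, by ext p; simp [diag]⟩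
    refine goodLab_of_peel (vert := fun _ => True) hS
      ⟨fun _ _ e => e, fun x y hxy => hmono _ _ _ _ hxy.2 hxy.1 (mem_colCells.1 y.2),
        fun x y hv => absurd trivial hv, fun x y _ e e' => ?_⟩
    have hx := mem_colCells.1 x.2
    have hy := mem_colCells.1 y.2
    simp only at e e'
    rcases lt_trichotomy x.1.2 y.1.2 with h | h | h
    · have := hstrict _ _ _ h hy; rw [← e', e] at this; rw [e'] at this; exact absurd this (lt_irrefl _)
    · exact Subtype.ext (Prod.ext e' h)
    · have := hstrict _ _ _ h hx; rw [e, e'] at this; exact absurd this (lt_irrefl _)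

end Vale.Agent.P197.Full
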