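import Vale.Agent.P197.Full.Assembly
import Vale.Agent.P197.Full.Dominance

/-!
# P197: threshold reduction for packing the staircase

For a suitable threshold `h` the columns of length at most `h` form a group whose rows dominate
an initial segment of block sizes, possibly short of one block; what remains are few columns on a
top segment of block sizes and that one block.
-/

noncomputable section

namespace Vale.Agent.P197.Full

open scoped Classical

/-- The block sizes `m, m - 1, …, K + 1`. -/
def topBlocks (m K : ℕ) : List ℕ := (List.range (m - K)).map fun i => m - i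

/-- The one block left over. -/
def restBlock (e : ℕ) : List ℕ := if e = 0 then [] else [e]

theorem topBlocks_append {m K : ℕ} (h : K ≤ m) : topBlocks m K ++ stairBlocks K = stairBlocks m := by
  obtain ⟨q, rfl⟩ := Nat.exists_eq_add_of_le h
  conv_rhs => rw [stairBlocks, show K + q = q + K by ring, List.range_add, List.map_append,
    List.map_map]
  rw [topBlocks, stairBlocks, show K + q - K = q by omega, show K + q = q + K by ring]
  congr 1
  exact List.map_congr_left fun i _ => by simp; omega

theorem pairwise_stair (K : ℕ) : (stairBlocks K).Pairwise fun a b => b < a := by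
  rw [stairBlocks, List.pairwise_map]
  exact List.pairwise_lt_range.imp_of_mem fun {a b} _ hb h => by
    have := List.mem_range.1 hb
    omega

theorem mem_stair {K x : ℕ} : x ∈ stairBlocks K ↔ 0 < x ∧ x ≤ K := by
  simp only [stairBlocks, List.mem_map, List.mem_range]
  exact ⟨fun ⟨i, hi, e⟩ => by omega, fun h => ⟨K - x, by omega, by omega⟩⟩

/-- Distinct numbers bounded by `K`. -/
theorem two_mul_sum_le : ∀ (l : List ℕ) (K : ℕ), l.Pairwise (fun a b => b < a) →
    (∀ x ∈ l, x ≤ K) → 2 * l.sum + l.length * l.length ≤ 2 * l.length * K + l.length
  | [], K, _, _ => by simp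
  | x :: l, K, hp, hK => by
    obtain ⟨h1, h2⟩ := List.pairwise_cons.1 hp
    have hx := hK x (List.mem_cons_self ..)
    rcases Nat.eq_zero_or_pos x with h0 | h0
    · subst h0
      have : l = [] := List.eq_nil_iff_forall_not_mem.2 fun y hy => Nat.not_lt_zero y (h1 y hy)
      subst this
      simp
    · obtain ⟨y, rfl⟩ := Nat.exists_eq_add_of_le' h0
      have ih := two_mul_sum_le l y h2 fun z hz => Nat.lt_succ_iff.1 (h1 z hz)
      simp only [List.sum_cons, List.length_cons]
      nlinarith [Nat.mul_le_mul_left l.length hx]

theorem psum_rowSize (c : List ℕ) (n : ℕ) : psum (rowSize c) n = (c.map fun x => min x n).sum := by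
  induction c with
  | nil => simp [psum, rowSize]
  | cons x c ih =>
    have hx : (Finset.range n).filter (fun i => i < x) = Finset.range (min x n) := by
      ext i
      simp only [Finset.mem_filter, Finset.mem_range, lt_min_iff]
      omega
    unfold psum rowSize at ih ⊢
    simp only [List.countP_cons, decide_eq_true_eq, Finset.sum_add_distrib, Finset.sum_boole,
      Nat.cast_id, ih, hx, Finset.card_range, List.map_cons, List.sum_cons]
    omega

/-- The row prefix of the short columns, counted by all columns. -/
theorem min_sum_filter (c : List ℕ) {n h : ℕ} (hn : n ≤ h) :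
    ((c.filter fun x => decide (x ≤ h)).map fun x => min x n).sum +
        n * c.countP (fun x => decide (h < x)) =
      (c.filter fun x => decide (x ≤ n)).sum + n * c.countP (fun x => decide (n < x)) := by
  induction c with
  | nil => simp
  | cons x c ih =>
    rcases le_or_gt x n with h1 | h1
    · have h2 : x ≤ h := h1.trans hn
      simp [h1, h2, not_lt.2 h1, not_lt.2 h2]
      omega
    · rcases le_or_gt x h with h2 | h2
      · simp [h1, h2, not_lt.2 h2, not_le.2 h1, min_eq_right h1.le, Nat.mul_add]
        omega
      · simp [h1, h2, not_le.2 h2, not_le.2 h1, Nat.mul_add]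
        omega

theorem exists_stair_ge (s : ℕ) : ∃ k, s ≤ (stairBlocks k).sum :=
  ⟨s, by have := two_mul_sum_stair s; have := Nat.le_mul_self s; nlinarith⟩

/-- The least staircase with at least `s` boxes. -/
def stairIndex (s : ℕ) : ℕ := Nat.find (exists_stair_ge s)

theorem le_stair_index (s : ℕ) : s ≤ (stairBlocks (stairIndex s)).sum :=
  Nat.find_spec (exists_stair_ge s)

theorem stair_index_sq (s : ℕ) : stairIndex s * stairIndex s ≤ 2 * s + stairIndex s := by
  rcases Nat.eq_zero_or_pos (stairIndex s) with h | h
  · simp [h]
  · have h1 := Nat.find_min (exists_stair_ge s) (show stairIndex s - 1 < stairIndex s by omega)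
    have h2 := two_mul_sum_stair (stairIndex s - 1)
    obtain ⟨k, hk⟩ := Nat.exists_eq_add_of_le' h
    rw [hk] at h1 h2 ⊢
    simp only [Nat.add_sub_cancel] at h1 h2
    nlinarith

theorem stairIndex_le {s m : ℕ} (h : s ≤ (stairBlocks m).sum) : stairIndex s ≤ m :=
  Nat.find_le h

/-- The excess of the least staircase over `s` is zero or one of its smaller blocks. -/
theorem excess_lt (s : ℕ) :
    (stairBlocks (stairIndex s)).sum - s = 0 ∨
      (stairBlocks (stairIndex s)).sum - s < stairIndex s := by
  rcases Nat.eq_zero_or_pos (stairIndex s) with h | h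
  · left
    rw [h]
    simp [stairBlocks]
  · have h1 := Nat.find_min (exists_stair_ge s) (show stairIndex s - 1 < stairIndex s by omega)
    have h2 := two_mul_sum_stair (stairIndex s - 1)
    have h3 := two_mul_sum_stair (stairIndex s)
    obtain ⟨k, hk⟩ := Nat.exists_eq_add_of_le' h
    rw [hk] at h1 h2 h3 ⊢
    simp only [Nat.add_sub_cancel] at h1 h2
    right
    simp only [Nat.succ_eq_add_one, Nat.zero_add] at h3 ⊢
    have : (k + 1) * (k + 1 + 1) = k * (k + 1) + 2 * (k + 1) := by ring
    omega

/-- Packing of all shapes follows from packing of few columns on a top segment of blocks and at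
most one smaller block. -/
theorem good_stair_of_top (m : ℕ)
    (hT : ∀ (K e : ℕ) (d : List ℕ), K ≤ m → (e = 0 ∨ e < K) → (∀ x ∈ d, 0 < x) →
      d.length + K ≤ m → d.sum = (topBlocks m K ++ restBlock e).sum →
      Good d (topBlocks m K ++ restBlock e))
    (c : List ℕ) (hpos : ∀ x ∈ c, 0 < x) (hsum : c.sum = (stairBlocks m).sum) :
    Good c (stairBlocks m) := by
  let s : ℕ → ℕ := fun h => (c.filter fun x => decide (x ≤ h)).sum
  let f : ℕ → ℕ := fun h => c.countP fun x => decide (h < x)
  have hsm : ∀ h, s h ≤ (stairBlocks m).sum := fun h =>
    hsum ▸ List.filter_sublist.sum_le_sum fun _ _ => Nat.zero_le _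
  have hex : ∃ h, f h + stairIndex (s h) ≤ m := by
    refine ⟨c.sum, ?_⟩
    have : f c.sum = 0 := List.countP_eq_zero.2 fun x hx => by
      simpa using List.le_sum_of_mem hx
    rw [this, zero_add]
    exact stairIndex_le (hsm _)
  set h := Nat.find hex
  have hh : f h + stairIndex (s h) ≤ m := Nat.find_spec hex
  set K := stairIndex (s h) with hK
  set e := (stairBlocks K).sum - s h with he
  have hKm : K ≤ m := stairIndex_le (hsm h)
  set B0 := (stairBlocks K).erase e with hB0
  have hperm : (restBlock e ++ B0).Perm (stairBlocks K) := by
    rcases Nat.eq_zero_or_pos e with h0 | h0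
    · rw [hB0, h0, List.erase_of_not_mem fun h => absurd (mem_stair.1 h).1 (lt_irrefl _)]
      simp [restBlock]
    · have hmem : e ∈ stairBlocks K := mem_stair.2 ⟨h0, by
        rcases excess_lt (s h) with h1 | h1 <;> rw [← hK, ← he] at h1 <;> omega⟩
      simpa [restBlock, h0.ne'] using (List.perm_cons_erase hmem).symm
  have hB0sum : (c.filter fun x => decide (x ≤ h)).sum = B0.sum := by
    have h1 := hperm.sum_eq
    have h2 := le_stair_index (s h)
    rw [← hK] at h2
    have h3 : (restBlock e).sum = e := by by_cases h0 : e = 0 <;> simp [restBlock, h0]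
    rw [List.sum_append, h3] at h1
    have h4 : s h = (c.filter fun x => decide (x ≤ h)).sum := rfl
    omega
  have hp0 : B0.Pairwise fun a b => b < a := (pairwise_stair K).sublist List.erase_sublist
  have hsmall : Good (c.filter fun x => decide (x ≤ h)) B0 := by
    refine good_dom_rows hB0sum (hp0.imp fun hab => hab.le) fun i => ?_
    rcases le_or_gt h i with hi | hi
    · rw [psum_rowSize, List.map_congr_left (g := id) fun x hx => ?_, List.map_id, hB0sum]
      · exact sum_take_le B0 i
      · exact min_eq_left (le_trans (by simpa using (List.mem_filter.1 hx).2) hi)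
    · have hn : (B0.take i).length ≤ i := List.length_take_le i B0
      have hl : ∀ x ∈ B0.take i, x ≤ K := fun x hx =>
        (mem_stair.1 (List.mem_of_mem_erase (List.mem_of_mem_take hx))).2
      have h1 := two_mul_sum_le _ K (hp0.sublist (List.take_sublist i B0)) hl
      refine le_trans ?_ (psum_mono _ hn)
      generalize hnn : (B0.take i).length = n at *
      have hmin := Nat.find_min hex (show n < h by omega)
      have h2 := min_sum_filter c (show n ≤ h by omega)
      rw [← psum_rowSize] at h2
      change _ + n * f h = s n + n * f n at h2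
      have h3 := stair_index_sq (s n)
      generalize psum (rowSize (c.filter fun x => decide (x ≤ h))) n = P at *
      generalize stairIndex (s n) = k at *
      have h4 : n * (K + f h + 1) ≤ n * (f n + k) := Nat.mul_le_mul_left n (by omega)
      have h5 : 2 * n * k ≤ n * n + k * k + n ∧
          n * n + k * k + n ≥ 2 * n * k + k ∨ 2 * n * k + k > n * n + k * k + n := by omega
      rcases h5 with ⟨-, h5⟩ | h5
      · nlinarith
      · exfalso
        rcases le_or_gt k n with hkn | hkn
        · obtain ⟨d, rfl⟩ := Nat.exists_eq_add_of_le hkn
          nlinarith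
        · obtain ⟨d, rfl⟩ := Nat.exists_eq_add_of_le hkn
          nlinarith
  have hrest : Good (c.filter fun x => ! decide (x ≤ h)) (topBlocks m K ++ restBlock e) := by
    refine hT K e _ hKm (hK ▸ he ▸ excess_lt (s h)) (fun x hx => hpos x (List.mem_filter.1 hx).1)
      ?_ ?_
    · rw [← List.countP_eq_length_filter]
      refine le_trans (add_le_add ?_ le_rfl) hh
      exact le_of_eq (List.countP_congr fun x _ => by simp)
    · have h1 := (List.filter_append_perm (fun x => decide (x ≤ h)) c).sum_eq
      rw [List.sum_append, hB0sum, hsum, ← topBlocks_append hKm, List.sum_append] at h1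
      have h2 := hperm.sum_eq
      rw [List.sum_append] at h2 ⊢
      omega
  refine (hsmall.append hrest).perm (List.filter_append_perm _ c) ?_
  rw [← topBlocks_append hKm]
  exact (List.perm_append_comm).trans (by
    rw [List.append_assoc]
    exact hperm.append_left _)

end Vale.Agent.P197.Full

end
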