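import Vale.Agent.P197.Full.Split
import Vale.Agent.P197.Full.Threshold

/-!
# P197: consecutive filling of units by blocks

A unit is a single column `h` or a triple `h, b, b`. Blocks are poured into the units in order,
each unit row by row; a block cut between two units is harmless if its two shares lie in
different rows.
-/

noncomputable section

namespace Vale.Agent.P197.Full

open scoped Classical
open Finset

/-- The columns of a unit. -/
def unitCols (u : ℕ × ℕ) : List ℕ := if u.2 = 0 then [u.1] else [u.1, u.2, u.2]

/-- The number of cells of a unit in its first `n` rows. -/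
def unitCells (u : ℕ × ℕ) (n : ℕ) : ℕ := min n u.1 + 2 * min n u.2

/-- The number of cells of a unit. -/
def unitSize (u : ℕ × ℕ) : ℕ := u.1 + 2 * u.2

theorem psum_unitCols (u : ℕ × ℕ) (n : ℕ) : psum (rowSize (unitCols u)) n = unitCells u n := by
  rw [psum_rowSize, unitCols, unitCells, min_comm n u.1, min_comm n u.2]
  split_ifs with h
  · simp [h]
  · simp
    omega

theorem unitCells_le (u : ℕ × ℕ) (n : ℕ) : unitCells u n ≤ unitSize u := by
  unfold unitCells unitSize
  omega

theorem sum_unitCols (u : ℕ × ℕ) : (unitCols u).sum = unitSize u := by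
  unfold unitCols unitSize
  split_ifs with h
  · simp [h]
  · simp
    omega

theorem allGood_unitCols {u : ℕ × ℕ} (h : u.2 ≤ u.1) : AllGood (unitCols u) := by
  unfold unitCols
  split_ifs with hb
  · exact allGood_one_column u.1
  · have := allGood_three u.2 (u.1 - u.2)
    rwa [Nat.add_sub_cancel' h] at this

/-- The common part of the intervals `[p j, p (j + 1))` and `[q i, q (i + 1))`. -/
def common (p q : ℕ → ℕ) (j i : ℕ) : ℕ := min (p (j + 1)) (q (i + 1)) - max (p j) (q i)

theorem common_comm (p q : ℕ → ℕ) (j i : ℕ) : common p q j i = common q p i j := by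
  rw [common, common, min_comm, max_comm]

theorem sum_common {p q : ℕ → ℕ} (hp : Monotone p) (hq : Monotone q) (hq0 : q 0 = 0) {G j : ℕ}
    (hG : p (j + 1) ≤ q G) : ∑ i ∈ range G, common p q j i = p (j + 1) - p j := by
  have key : ∀ k, ∑ i ∈ range k, common p q j i = min (p (j + 1)) (q k) - p j := by
    intro k
    induction k with
    | zero => simp [hq0]
    | succ k ih =>
      rw [sum_range_succ, ih, common]
      have := hq (show k ≤ k + 1 by omega)
      have := hp (show j ≤ j + 1 by omega)
      omega
  rw [key, min_eq_left hG]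

/-- An array filling the units `gs` by the blocks `B`, with at most one unit in each row of each
block. -/
def Fill (I : ℕ) (gs : List (ℕ × ℕ)) (B : List ℕ) (A : ℕ → ℕ → ℕ → ℕ) : Prop :=
  (∀ g i, ∑ j ∈ range B.length, A j g i = rowSize (unitCols (gs.getD g (0, 0))) i) ∧
    (∀ j < B.length, ∑ g ∈ range gs.length, ∑ i ∈ range I, A j g i = B.getD j 0) ∧
    ∀ j g g' i, g ≠ g' → A j g i = 0 ∨ A j g' i = 0

theorem fill_nil (I : ℕ) : Fill I [] [0] fun _ _ _ => 0 :=
  ⟨fun g i => by simp [unitCols, rowSize], fun j hj => by simp at hj; simp [hj],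
    fun _ _ _ _ _ => Or.inl rfl⟩

/-- A filling makes the union of the units good. -/
theorem Fill.good {I : ℕ} {gs : List (ℕ × ℕ)} {B : List ℕ} {A : ℕ → ℕ → ℕ → ℕ}
    (h : Fill I gs B A) (hu : ∀ u ∈ gs, u.2 ≤ u.1) (hI : ∀ u ∈ gs, u.1 ≤ I) :
    Good (gs.map unitCols).flatten B := by
  refine Good.split (gs.map unitCols) ?_ (I := I) ?_ (fun j g i => A j g i) (fun g i _ => ?_)
    (fun j hj => ?_) fun j _ i _ g g' hne => ?_
  · simp only [List.mem_map, forall_exists_index, and_imp, forall_apply_eq_imp_iff₂]
    exact fun u hu' => allGood_unitCols (hu u hu')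
  · intro l hl
    obtain ⟨_, hc, hlc⟩ := List.mem_flatten.1 hl
    obtain ⟨u, hu', rfl⟩ := List.mem_map.1 hc
    have := hu u hu'
    have := hI u hu'
    unfold unitCols at hlc
    split_ifs at hlc <;> simp at hlc <;> omega
  · rw [h.1, List.getD_eq_getElem _ _ (by simpa using g.isLt)]
    simp
  · rw [← h.2.1 j hj, Fin.sum_univ_eq_sum_range (fun g => ∑ i ∈ range I, A j g i),
      List.length_map]
  · rcases h.2.2 j g g' i (fun e => hne (Fin.ext e)) with e | e <;> simp [e]

/-- Prepend a unit: the first `r` cells are the share of a cut block, then come whole blocks,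
then a share `s` of a block which the first unit of the rest completes in higher rows. -/
theorem Fill.cons {I : ℕ} {gs : List (ℕ × ℕ)} {x : ℕ} {L : List ℕ} {A' : ℕ → ℕ → ℕ → ℕ}
    (h : Fill I gs (x :: L) A') {u : ℕ × ℕ} (hu : u.2 ≤ u.1) (hI : u.1 ≤ I) {n n' r s : ℕ}
    {W : List ℕ} (h0 : ∀ g i, n' ≤ i → A' 0 g i = 0) (hr : r ≤ unitCells u n)
    (hs : unitCells u n' + s ≤ unitSize u) (hsum : r + W.sum + s = unitSize u) :
    ∃ A, Fill I (u :: gs) (r :: W ++ (s + x) :: L) A ∧ ∀ g i, n ≤ i → A 0 g i = 0 := by
  set P : ℕ → ℕ := fun j => ((r :: W ++ [s]).take j).sum with hP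
  set Q : ℕ → ℕ := fun i => psum (rowSize (unitCols u)) i with hQ
  have hQc : ∀ i, Q i = unitCells u i := psum_unitCols u
  have hQm : Monotone Q := psum_mono _
  have hPm : Monotone P := fun a b hab =>
    (List.take_sublist_take_left (l := r :: W ++ [s]) hab).sum_le_sum fun _ _ => Nat.zero_le _
  have hP0 : P 0 = 0 := rfl
  have hQ0 : Q 0 = 0 := rfl
  have hPs : ∀ j, P (j + 1) = P j + (r :: W ++ [s]).getD j 0 := fun j => by
    rcases lt_or_ge j (r :: W ++ [s]).length with hj | hj
    · simp only [hP]
      rw [List.sum_take_succ _ j hj, List.getD_eq_getElem _ _ hj]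
    · simp only [hP]
      rw [List.getD_eq_default _ _ hj, List.take_of_length_le hj,
        List.take_of_length_le (hj.trans (Nat.le_succ _)), add_zero]
  have hPtot : P (W.length + 2) = unitSize u := by
    simp only [hP]
    rw [List.take_of_length_le (by simp), ← hsum]
    simp [List.sum_append]
    omega
  have hQI : Q I = unitSize u := by
    rw [hQc]
    unfold unitCells unitSize
    rw [min_eq_right hI, min_eq_right (hu.trans hI)]
  let A : ℕ → ℕ → ℕ → ℕ := fun j g i =>
    match g with
    | 0 => if j < W.length + 2 then common P Q j i else 0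
    | g + 1 => if W.length + 1 ≤ j then A' (j - (W.length + 1)) g i else 0
  refine ⟨A, ⟨fun g i => ?_, fun j hj => ?_, fun j g g' i hne => ?_⟩, fun g i hi => ?_⟩
  · have hlen : (r :: W ++ (s + x) :: L).length = W.length + 1 + (1 + L.length) := by
      simp
      omega
    rw [hlen]
    rcases g with _ | g
    · rw [show W.length + 1 + (1 + L.length) = W.length + 2 + L.length by omega, sum_range_add,
        sum_congr rfl (fun j hj => if_pos (mem_range.1 hj)),
        sum_eq_zero (s := range L.length) fun j _ => if_neg (by omega), add_zero]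
      simp only [common_comm P Q]
      rw [sum_common hQm hPm hP0 (hPtot ▸ (hQc _).trans_le (unitCells_le u _)), List.getD_cons_zero,
        hQ]
      simp only [psum_succ, Nat.add_sub_cancel_left]
    · rw [sum_range_add, sum_eq_zero (s := range (W.length + 1)) fun j hj => if_neg (by
        have := mem_range.1 hj; omega), zero_add, List.getD_cons_succ, ← h.1 g i,
        List.length_cons, add_comm 1]
      exact sum_congr rfl fun j _ => (if_pos (by omega)).trans (by rw [Nat.add_sub_cancel_left])
  · rw [List.length_cons, sum_range_succ']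
    have hrow : ∀ k, k < W.length + 2 → ∑ i ∈ range I, common P Q k i =
        (r :: W ++ [s]).getD k 0 := fun k hk => by
      rw [sum_common hPm hQm hQ0 (hQI ▸ hPtot ▸ hPm (by omega : k + 1 ≤ W.length + 2)), hPs,
        Nat.add_sub_cancel_left]
    rcases lt_trichotomy j (W.length + 1) with hj' | rfl | hj'
    · rw [sum_eq_zero fun g _ => sum_eq_zero fun i _ => if_neg (by omega), zero_add,
        sum_congr rfl fun i _ => if_pos (by omega), hrow j (by omega),
        List.getD_append _ _ _ j (by simp; omega), List.getD_append _ _ _ j (by simp; omega)]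
    · have e1 := h.2.1 0 (by simp)
      rw [List.getD_cons_zero] at e1
      rw [sum_congr rfl fun g _ => sum_congr rfl fun i _ =>
          (if_pos le_rfl).trans (by rw [Nat.sub_self]), e1,
        sum_congr rfl fun i _ => if_pos (by omega), hrow _ (by omega),
        List.getD_append_right _ _ _ _ (by simp), List.getD_append_right _ _ _ _ (by simp)]
      simp
      omega
    · obtain ⟨k, rfl⟩ := Nat.exists_eq_add_of_le hj'.le
      simp only [List.length_append, List.length_cons] at hj
      have e1 := h.2.1 k (by simp; omega)
      rw [sum_congr rfl fun g _ => sum_congr rfl fun i _ =>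
          (if_pos (Nat.le_add_right _ _)).trans (by rw [Nat.add_sub_cancel_left]), e1,
        sum_eq_zero fun i _ => if_neg (by omega),
        List.getD_append_right _ _ _ _ (by simp)]
      obtain ⟨k, rfl⟩ := Nat.exists_eq_add_of_le' (show 0 < k by omega)
      simp [show W.length + 1 + (k + 1) - (W.length + 1) = k + 1 by omega]
  · have key : ∀ g, A j 0 i = 0 ∨ A j (g + 1) i = 0 := fun g => by
      simp only [A]
      split_ifs with h1 h2 h2
      · have hj : j = W.length + 1 := by omega
        subst hj
        rcases le_or_gt n' i with hi | hi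
        · right
          rw [Nat.sub_self]
          exact h0 g i hi
        · left
          have h3 : Q (i + 1) ≤ Q n' := hQm hi
          rw [hQc n'] at h3
          have h4 : P (W.length + 1) + s = unitSize u := by
            rw [← hPtot, hPs (W.length + 1), List.getD_append_right _ _ _ _ (by simp)]
            simp
          unfold common
          omega
      all_goals simp
    rcases g with _ | g <;> rcases g' with _ | g'
    · exact absurd rfl hne
    · exact key g'
    · exact (key g).symm
    · simp only [A]
      split_ifs
      · exact h.2.2 _ g g' i (by omega)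
      · exact Or.inl rfl
  · rcases g with _ | g
    · have h3 : Q n ≤ Q i := hQm hi
      rw [hQc n] at h3
      have h4 := hPs 0
      simp only [List.cons_append, List.getD_cons_zero, hP0, zero_add] at h4
      show (if 0 < W.length + 2 then common P Q 0 i else 0) = 0
      rw [if_pos (by omega), common]
      simp only [hP0, Nat.zero_add] at h4 ⊢
      omega
    · show (if W.length + 1 ≤ 0 then _ else 0) = 0
      rw [if_neg (by omega)]

end Vale.Agent.P197.Full

end
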