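import Vale.Agent.P197.Full.Assembly
import Vale.Agent.P197.Spe.Box

/-!
# P197: from packing of columns to the tensor square theorem
-/

noncomputable section

namespace Vale.Agent.P197.Full

/-- If every list of column lengths of the right size, in decreasing order, is good for the rows
of the staircase, then every irreducible representation embeds in the tensor square and every
Specht module occurs in it. -/
theorem saxl_of_packing (m : ℕ)
    (hpack : ∀ c : List ℕ, c.Pairwise (fun a b => b ≤ a) → (∀ x ∈ c, 0 < x) →
      c.sum = (stairBlocks m).sum → Good c (stairBlocks m)) :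
    (∀ (W : Type) [AddCommGroup W] [Module ℂ W] (σ : Representation ℂ (Specht.G m) W),
      (∀ U : Submodule ℂ W, (∀ g, ∀ x ∈ U, σ g x ∈ U) → U = ⊥ ∨ U = ⊤) → Embeds σ) ∧
    (∀ (nu : YoungDiagram) (L : Specht.Box m → ℕ × ℕ),
      Strip.IsLabelling L nu → Occurs (Strip.spechtRep L)) := by
  have hgood : ∀ nu : YoungDiagram, nu.cells.card = m * (m + 1) / 2 →
      Good (colList nu) (stairBlocks m) := fun nu hn =>
    hpack _ (List.sortedGE_iff_pairwise.1 (colList_sorted nu)) (fun x => pos_of_mem_colList)
      (by rw [sum_colList, hn, ← card_box, (blocks_stair m).card_eq])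
  have hocc : ∀ (nu : YoungDiagram) (L : Specht.Box m → ℕ × ℕ),
      Strip.IsLabelling L nu → Occurs (Strip.spechtRep L) := fun nu L hL =>
    occurs_of_good hL (Or.inl (hgood nu (card_cells hL)))
  refine ⟨fun W _ _ σ hirr => ?_, hocc⟩
  rcases subsingleton_or_nontrivial W with hW | hW
  · exact ⟨0, Function.injective_of_subsingleton _, fun g x => by simp⟩
  · exact embeds_of_occurs hirr (Spe.occurs_of_forall_labelling hocc σ hirr)

end Vale.Agent.P197.Full

end
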