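import Vale.Agent.P197.Strip.Glue
import Vale.Agent.P197.Specht.Modular
import Vale.Agent.P197.Occurs

/-!
# P197: the sign twist of a Specht module is the Specht module of the transposed labelling

For any labelling `S` with transpose `S'` the map `v ↦ ∑ g, sgn g * v (rows' ∘ g) • g⁻¹ poly S`
is a bijection from `specht S'` to `specht S` which is equivariant up to the sign: the function
`g ↦ sgn g * poly S' (rows' ∘ g)` is `g ↦ poly S (rows ∘ g⁻¹)`, so injectivity is the
nondegeneracy of a real Gram matrix.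
-/

noncomputable section

namespace Vale.Agent.P197.Strip

open scoped Classical
open Finset

variable {α : Type*} [Fintype α]

/-- The transposed labelling. -/
def flipLab (S : α → ℕ × ℕ) : α → ℕ × ℕ := fun x => ((S x).2, (S x).1)

/-- The value of the polytabloid of `S` at the translate of its own rows by `g`. -/
def polyVal (S : α → ℕ × ℕ) (g : Equiv.Perm α) : ℂ := poly S fun x => (S (g x)).1

/-- The same value as an integer. -/
def polyValZ (S : α → ℕ × ℕ) (g : Equiv.Perm α) : ℤ :=
  ∑ c ∈ colPerms S, if g * c⁻¹ ∈ rowPerms S then (Equiv.Perm.sign c : ℤ) else 0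

variable {S : α → ℕ × ℕ}

lemma sgn_mul (g h : Equiv.Perm α) : sgn (g * h) = sgn g * sgn h := by simp [sgn]

lemma sgn_inv (g : Equiv.Perm α) : sgn g⁻¹ = sgn g := by simp [sgn]

lemma sgn_sq (g : Equiv.Perm α) : sgn g * sgn g = 1 := by
  simp only [sgn]
  rw [← Int.cast_mul, ← Units.val_mul, Int.units_mul_self]
  simp

lemma rows_eq_iff (g c : Equiv.Perm α) :
    ((fun x => (S (g x)).1) = fun x => (S (c x)).1) ↔ g * c⁻¹ ∈ rowPerms S := by
  rw [mem_rowPerms]
  constructor
  · intro h x
    simpa using congrFun h (c⁻¹ x)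
  · intro h
    funext x
    simpa using h (c x)

lemma polyVal_eq (g : Equiv.Perm α) : polyVal S g = (polyValZ S g : ℂ) := by
  simp only [polyVal, poly, polyValZ, rows_eq_iff, Int.cast_sum]
  refine Finset.sum_congr rfl fun c _ => ?_
  split_ifs <;> simp [sgn]

lemma flip_rowPerms : rowPerms (flipLab S) = colPerms S := by
  ext g; simp [mem_rowPerms, mem_colPerms, flipLab]

lemma flip_colPerms : colPerms (flipLab S) = rowPerms S := by
  ext g; simp [mem_rowPerms, mem_colPerms, flipLab]

/-- The sign times the transposed value is the value at the inverse. -/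
lemma sgn_mul_polyVal_flip (g : Equiv.Perm α) :
    sgn g * polyVal (flipLab S) g = polyVal S g⁻¹ := by
  simp only [polyVal, poly, rows_eq_iff, flip_rowPerms, flip_colPerms, Finset.mul_sum, mul_ite,
    mul_zero]
  rw [← Finset.sum_filter, ← Finset.sum_filter]
  refine Finset.sum_nbij' (fun r => r * g⁻¹) (fun c => c * g) (fun r hr => ?_) (fun c hc => ?_)
    (fun r _ => by group) (fun c _ => by group) fun r hr => ?_
  · rw [Finset.mem_filter] at hr ⊢
    refine ⟨?_, ?_⟩
    · have := inv_mem_colPerms hr.2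
      simpa using this
    · have := inv_mem_rowPerms hr.1
      simpa [mul_assoc] using this
  · rw [Finset.mem_filter] at hc ⊢
    refine ⟨?_, ?_⟩
    · have := inv_mem_rowPerms hc.2
      simpa [mul_assoc] using this
    · have := inv_mem_colPerms hc.1
      simpa using this
  · rw [sgn_mul, sgn_inv, mul_comm]

/-- The translates of the polytabloid vanish away from the translates of the rows. -/
lemma specht_support {v : (α → ℕ) → ℂ} (hv : v ∈ specht S) {t : α → ℕ}
    (ht : ∀ g : Equiv.Perm α, t ≠ fun x => (S (g x)).1) : v t = 0 := by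
  induction hv using Submodule.span_induction with
  | mem x hx =>
    obtain ⟨h, rfl⟩ := hx
    refine Finset.sum_eq_zero fun c _ => if_neg fun e => ht (c * h⁻¹) ?_
    funext y
    simpa using congrFun e (h⁻¹ y)
  | zero => rfl
  | add a b _ _ ha hb => rw [Pi.add_apply, ha, hb, add_zero]
  | smul c a _ ha => rw [Pi.smul_apply, ha, smul_zero]

/-- The twist as a map on all functions. -/
def twistFun (S : α → ℕ × ℕ) : ((α → ℕ) → ℂ) →ₗ[ℂ] ((α → ℕ) → ℂ) where
  toFun v := ∑ g : Equiv.Perm α,
    (sgn g * v fun x => (flipLab S (g x)).1) • fun t : α → ℕ => poly S (t ∘ (g⁻¹ : Equiv.Perm α))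
  map_add' v w := by simp only [Pi.add_apply, mul_add, add_smul, Finset.sum_add_distrib]
  map_smul' a v := by
    simp only [Pi.smul_apply, smul_eq_mul, mul_left_comm _ a, RingHom.id_apply, Finset.smul_sum,
      smul_smul]

lemma twistFun_apply (v : (α → ℕ) → ℂ) (t : α → ℕ) :
    twistFun S v t = ∑ g : Equiv.Perm α,
      sgn g * v (fun x => (flipLab S (g x)).1) * poly S (t ∘ (g⁻¹ : Equiv.Perm α)) := by
  simp [twistFun, Finset.sum_apply, smul_eq_mul]

lemma twistFun_mem (v : (α → ℕ) → ℂ) : twistFun S v ∈ specht S :=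
  Submodule.sum_mem _ fun g _ => Submodule.smul_mem _ _ (Submodule.subset_span ⟨g⁻¹, rfl⟩)

/-- The twist is equivariant up to the sign. -/
lemma twistFun_act (h : Equiv.Perm α) (v : (α → ℕ) → ℂ) :
    twistFun S (fun t => v (t ∘ h)) = sgn h • fun t => twistFun S v (t ∘ h) := by
  funext t
  rw [Pi.smul_apply, smul_eq_mul, twistFun_apply, twistFun_apply, Finset.mul_sum]
  refine Fintype.sum_equiv (Equiv.mulRight h) _ _ fun g => ?_
  simp only [Equiv.coe_mulRight, sgn_mul, mul_inv_rev]
  have e1 : ((fun x => (flipLab S (g x)).1) ∘ ⇑h) = fun x => (flipLab S ((g * h) x)).1 := rfl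
  have e2 : (t ∘ ⇑h) ∘ ⇑(h⁻¹ * g⁻¹ : Equiv.Perm α) = t ∘ ⇑(g⁻¹ : Equiv.Perm α) := by
    funext x; simp
  rw [e1, e2]
  linear_combination (-(sgn g * v (fun x => (flipLab S ((g * h) x)).1)
    * poly S (t ∘ ⇑(g⁻¹ : Equiv.Perm α)))) * sgn_sq h

lemma twistFun_eq_zero {v : (α → ℕ) → ℂ} (hv : v ∈ specht (flipLab S))
    (h0 : twistFun S v = 0) : v = 0 := by
  set w : Equiv.Perm α → ℂ := fun k =>
    sgn k⁻¹ * v fun x => (flipLab S ((k⁻¹ : Equiv.Perm α) x)).1 with hw
  have horth : ∀ p, ∑ k, w k * polyVal S (p * k) = 0 := by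
    intro p
    have := congrFun h0 fun x => (S (p x)).1
    rw [twistFun_apply, Pi.zero_apply] at this
    rw [← this]
    refine Fintype.sum_equiv (Equiv.inv _) _ _ fun k => ?_
    simp only [hw, Equiv.inv_apply, inv_inv, polyVal, Equiv.Perm.mul_apply, Function.comp_def]
  obtain ⟨y, hy⟩ : ∃ y : Equiv.Perm α → ℂ, ∀ k, w k = ∑ h, y h * polyVal S (h⁻¹ * k) := by
    obtain ⟨x, hx⟩ := (Submodule.mem_span_range_iff_exists_fun ℂ).1 hv
    refine ⟨fun h => x h * sgn h, fun k => ?_⟩
    simp only [hw, ← hx, Finset.sum_apply, Pi.smul_apply, smul_eq_mul, Finset.mul_sum]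
    refine Finset.sum_congr rfl fun h _ => ?_
    have e := sgn_mul_polyVal_flip (S := S) (k⁻¹ * h)
    rw [mul_inv_rev, inv_inv, sgn_mul] at e
    rw [← e]
    simp only [polyVal, Equiv.Perm.mul_apply, Function.comp_def]
    linear_combination (-(sgn k⁻¹ * x h
      * poly (flipLab S) fun y => (flipLab S ((k⁻¹ : Equiv.Perm α) (h y))).1)) * sgn_sq h
  have hsum : ∑ k, w k * starRingEnd ℂ (w k) = 0 := by
    have : ∀ k, w k * starRingEnd ℂ (w k)
        = ∑ h, starRingEnd ℂ (y h) * (w k * polyVal S (h⁻¹ * k)) := fun k => by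
      conv_lhs => arg 2; rw [hy k]
      simp only [map_sum, map_mul, polyVal_eq, map_intCast, Finset.mul_sum]
      exact Finset.sum_congr rfl fun h _ => by ring
    simp only [this]
    rw [Finset.sum_comm]
    simp only [← Finset.mul_sum, horth, mul_zero, Finset.sum_const_zero]
  have hw0 : ∀ k, w k = 0 := fun k => by
    simp only [Complex.mul_conj] at hsum
    rw [← Complex.ofReal_sum, Complex.ofReal_eq_zero] at hsum
    exact Complex.normSq_eq_zero.1
      ((Finset.sum_eq_zero_iff_of_nonneg fun i _ => Complex.normSq_nonneg _).1 hsum k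
        (Finset.mem_univ k))
  funext t
  by_cases ht : ∃ g : Equiv.Perm α, t = fun x => (flipLab S (g x)).1
  · obtain ⟨g, rfl⟩ := ht
    have := hw0 g⁻¹
    simp only [hw, inv_inv] at this
    have hne : sgn g ≠ 0 := fun e => by simpa [e] using sgn_sq g
    simpa [hne] using this
  · simp only [not_exists] at ht
    simpa using specht_support hv ht

/-- The twist between the Specht modules. -/
def twist (S : α → ℕ × ℕ) : specht (flipLab S) →ₗ[ℂ] specht S :=
  LinearMap.codRestrict (specht S) ((twistFun S).comp (specht (flipLab S)).subtype)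
    fun v => twistFun_mem _

lemma twist_injective (S : α → ℕ × ℕ) : Function.Injective (twist S) := by
  intro v w e
  have e' : twistFun S (v : (α → ℕ) → ℂ) = twistFun S (w : (α → ℕ) → ℂ) := congrArg Subtype.val e
  refine Subtype.ext (sub_eq_zero.1 (twistFun_eq_zero (S := S) ?_ ?_))
  · exact Submodule.sub_mem _ v.2 w.2
  · rw [map_sub, e', sub_self]

instance (S : α → ℕ × ℕ) : FiniteDimensional ℂ (specht S) :=
  FiniteDimensional.span_of_finite ℂ (Set.finite_range _)

/-- `twist` is bijective. -/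
lemma twist_bijective (S : α → ℕ × ℕ) : Function.Bijective (twist S) := by
  refine ⟨twist_injective S, ?_⟩
  have h1 := LinearMap.finrank_le_finrank_of_injective (twist_injective S)
  have h2 := LinearMap.finrank_le_finrank_of_injective (twist_injective (flipLab S))
  have e : flipLab (flipLab S) = S := rfl
  rw [e] at h2
  exact (LinearMap.injective_iff_surjective_of_finrank_eq_finrank (le_antisymm h1 h2)).1
    (twist_injective S)

/-- **Sign twist**: the Specht module of the transposed labelling, twisted by the sign, is the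
Specht module. -/
def signTwist (S : α → ℕ × ℕ) : specht (flipLab S) ≃ₗ[ℂ] specht S :=
  LinearEquiv.ofBijective (twist S) (twist_bijective S)

theorem signTwist_act (h : Equiv.Perm α) (v w : specht (flipLab S))
    (hw : (w : (α → ℕ) → ℂ) = fun t => (v : (α → ℕ) → ℂ) (t ∘ h)) :
    ((signTwist S w : specht S) : (α → ℕ) → ℂ)
      = sgn h • fun t => ((signTwist S v : specht S) : (α → ℕ) → ℂ) (t ∘ h) := by
  show twistFun S (w : (α → ℕ) → ℂ) = sgn h • fun t => twistFun S (v : (α → ℕ) → ℂ) (t ∘ h)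
  rw [hw, twistFun_act]

/-- The transpose of a labelling. -/
theorem isLabelling_flip {nu : YoungDiagram} (hS : IsLabelling S nu) :
    IsLabelling (flipLab S) nu.transpose := by
  refine ⟨fun a b h => hS.1 (Prod.ext (congrArg Prod.snd h) (congrArg Prod.fst h)), ?_⟩
  ext ⟨i, j⟩
  rw [YoungDiagram.mem_cells, YoungDiagram.mem_transpose, Prod.swap_prod_mk,
    ← YoungDiagram.mem_cells, ← hS.2]
  simp only [Finset.mem_image, Finset.mem_univ, true_and, flipLab, Prod.ext_iff]
  exact exists_congr fun a => and_comm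

section Box

variable {m : ℕ}

theorem signTwist_spechtRep (S : Specht.Box m → ℕ × ℕ) (g : Specht.G m)
    (v : specht (flipLab S)) :
    signTwist S (spechtRep (flipLab S) g v) = sgn g • spechtRep S g (signTwist S v) :=
  Subtype.ext (signTwist_act g v _ rfl)

/-- Coefficient functions pass to the transpose with the sign. -/
theorem exists_coef_flip (S : Specht.Box m → ℕ × ℕ) (φ : specht (flipLab S) →ₗ[ℂ] ℂ)
    (u : specht (flipLab S)) :
    ∃ (φ' : specht S →ₗ[ℂ] ℂ) (u' : specht S),
      ∀ g, φ' (spechtRep S g u') = sgn g * φ (spechtRep (flipLab S) g u) := by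
  refine ⟨φ.comp (signTwist S).symm.toLinearMap, signTwist S u, fun g => ?_⟩
  have e : spechtRep S g (signTwist S u) = sgn g • signTwist S (spechtRep (flipLab S) g u) := by
    rw [signTwist_spechtRep, smul_smul, sgn_sq, one_smul]
  simp [e]

/-- An odd coefficient function invariant modulo two passes to the transpose. -/
theorem odd_coef_flip (S : Specht.Box m → ℕ × ℕ) (φ : specht (flipLab S) →ₗ[ℂ] ℂ)
    (u : specht (flipLab S)) (ψ : Specht.G m → ℤ)
    (h1 : ∀ g, φ (spechtRep (flipLab S) g u) = ψ g)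
    (h2 : ∀ g, ∀ r ∈ Specht.R m, (2 : ℤ) ∣ ψ (g * r) - ψ g) (h3 : ¬ (2 : ℤ) ∣ ψ 1) :
    ∃ (φ' : specht S →ₗ[ℂ] ℂ) (u' : specht S) (ψ' : Specht.G m → ℤ),
      (∀ g, φ' (spechtRep S g u') = ψ' g) ∧
      (∀ g, ∀ r ∈ Specht.R m, (2 : ℤ) ∣ ψ' (g * r) - ψ' g) ∧ ¬ (2 : ℤ) ∣ ψ' 1 := by
  obtain ⟨φ', u', h⟩ := exists_coef_flip S φ u
  refine ⟨φ', u', fun g => (Equiv.Perm.sign g : ℤ) * ψ g, fun g => ?_, fun g r hr => ?_, ?_⟩
  · rw [h, h1, sgn]; push_cast
    exact congrArg (fun d => (((@Equiv.Perm.sign (Specht.Box m) d _ g : ℤˣ) : ℤ) : ℂ) * (ψ g : ℂ))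
      (Subsingleton.elim _ _)
  · have h4 := h2 g r hr
    rcases Int.units_eq_one_or (Equiv.Perm.sign (g * r)) with a | a <;>
      rcases Int.units_eq_one_or (Equiv.Perm.sign g) with b | b <;>
        simp only [a, b, Units.val_one, Units.val_neg, one_mul, neg_mul] <;> omega
  · simpa using h3

/-- A transpose with an odd coefficient function invariant modulo two gives an occurrence. -/
theorem occurs_of_flip (S : Specht.Box m → ℕ × ℕ) (φ : specht (flipLab S) →ₗ[ℂ] ℂ)
    (u : specht (flipLab S)) (ψ : Specht.G m → ℤ)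
    (h1 : ∀ g, φ (spechtRep (flipLab S) g u) = ψ g)
    (h2 : ∀ g, ∀ r ∈ Specht.R m, (2 : ℤ) ∣ ψ (g * r) - ψ g) (h3 : ¬ (2 : ℤ) ∣ ψ 1) :
    Occurs (spechtRep S) := by
  obtain ⟨φ', u', ψ', k1, k2, k3⟩ := odd_coef_flip S φ u ψ h1 h2 h3
  exact Specht.exists_map_of_fixed_mod_two (spechtRep S) φ' u' ψ' k1 k2 k3

end Box

end Vale.Agent.P197.Strip

end
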