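import Vale.Agent.P197.Full.Defs
import Vale.Agent.P197.Full.SignTwist

/-!
# P197: calculus of good shapes

Good shapes are closed under reordering, under concatenating columns and block lists, and under
refining a single block; a good shape for the rows of the staircase occurs in the tensor square.
-/

noncomputable section

namespace Vale.Agent.P197.Full

open scoped Classical
open Finset

variable {α β : Type} [Fintype α] [Fintype β] {c c' d B B' D : List ℕ}

theorem Blocks.lt_length {b : α → ℕ} (h : Blocks b B) (x : α) : b x < B.length := by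
  by_contra hx
  have := h (b x)
  rw [List.getD_eq_default _ _ (not_lt.1 hx), card_eq_zero] at this
  exact eq_empty_iff_forall_notMem.1 this x (by simp)

theorem exists_blocks (B : List ℕ) (h : Fintype.card α = B.sum) : ∃ b : α → ℕ, Blocks b B := by
  obtain ⟨S, hS⟩ := exists_isLab (α := α) B h
  refine ⟨fun x => (S x).2, fun i => ?_⟩
  refine (card_bij (t := range (B.getD i 0)) (fun x _ => (S x).1) (fun x hx => ?_)
    (fun x hx y hy e => ?_) fun j hj => ?_).trans (card_range _)
  · simp only [mem_filter, mem_univ, true_and] at hx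
    rw [mem_range, ← hx]
    exact hS.row_lt x
  · simp only [mem_filter, mem_univ, true_and] at hx hy
    exact hS.1 (Prod.ext e (hx.trans hy.symm))
  · obtain ⟨x, hx⟩ := (hS.2 (j, i)).2 (mem_colCells.2 (mem_range.1 hj))
    exact ⟨x, by simp [hx], by simp [hx]⟩

theorem Blocks.card_eq {b : α → ℕ} (h : Blocks b B) : Fintype.card α = B.sum := by
  rw [← card_univ, card_eq_sum_card_fiberwise (f := b) (t := range B.length)
    (fun x _ => mem_coe.2 (mem_range.2 (h.lt_length x))), ← Fin.sum_univ_getElem B,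
    Finset.sum_range]
  exact sum_congr rfl fun i _ => (h i).trans (List.getD_eq_getElem B 0 i.isLt)

theorem Blocks.exists_equiv {b : α → ℕ} {b' : β → ℕ} (h : Blocks b B) (h' : Blocks b' B) :
    ∃ e : α ≃ β, b' ∘ e = b := by
  have key : ∀ i, {x // b x = i} ≃ {y // b' y = i} := fun i =>
    Fintype.equivOfCardEq (by rw [Fintype.card_subtype, Fintype.card_subtype, h i, h' i])
  exact ⟨Equiv.ofFiberEquiv key, funext fun x => Equiv.ofFiberEquiv_map key x⟩

/-- Changing the letters moves the polytabloid. -/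
theorem poly_comp (S : β → ℕ × ℕ) (e : α ≃ β) (t : α → ℕ) :
    Strip.poly (S ∘ e) t = Strip.poly S (t ∘ e.symm) := by
  refine sum_nbij' (fun c => e.permCongr c) (fun c => e.symm.permCongr c) (fun c hc => ?_)
    (fun c hc => ?_) (fun c _ => by ext; simp) (fun c _ => by ext; simp) fun c _ => ?_
  · rw [Strip.mem_colPerms] at hc ⊢
    intro x
    simpa using hc (e.symm x)
  · rw [Strip.mem_colPerms] at hc ⊢
    intro x
    simpa using hc (e x)
  · refine if_congr ?_ (by simp [Strip.sgn]) rfl
    constructor <;> intro h <;> funext x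
    · have := congrFun h (e.symm x)
      simpa using this
    · have := congrFun h (e x)
      simpa using this

theorem mem_specht_comp {S : β → ℕ × ℕ} (e : α ≃ β) {F : (β → ℕ) → ℂ}
    (hF : F ∈ Strip.specht S) : (fun t => F (t ∘ e.symm)) ∈ Strip.specht (S ∘ e) := by
  induction hF using Submodule.span_induction with
  | mem x hx =>
    obtain ⟨g, rfl⟩ := hx
    refine Submodule.subset_span ⟨e.symm.permCongr g, funext fun t => ?_⟩
    show Strip.poly (S ∘ e) (t ∘ e.symm.permCongr g) = Strip.poly S ((t ∘ e.symm) ∘ g)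
    rw [poly_comp]
    congr 1
    funext x
    simp
  | zero => exact Submodule.zero_mem _
  | add F G _ _ hF hG => exact Submodule.add_mem _ hF hG
  | smul q F _ hF => exact Submodule.smul_mem _ q hF

theorem IsLab.comp_equiv {S : β → ℕ × ℕ} (h : IsLab S c) (e : α ≃ β) : IsLab (S ∘ e) c :=
  ⟨h.1.comp e.injective, fun p => by rw [e.surjective.range_comp, h.2]⟩

/-- The Specht module depends only on the shape. -/
theorem specht_eq {S T : α → ℕ × ℕ} (hS : IsLab S c) (hT : IsLab T c) :
    Strip.specht S = Strip.specht T := by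
  suffices h : ∀ S T : α → ℕ × ℕ, IsLab S c → IsLab T c → Strip.specht S ≤ Strip.specht T from
    le_antisymm (h S T hS hT) (h T S hT hS)
  intro S T hS hT
  have hr : Set.range S = Set.range T := Set.ext fun p => (hS.2 p).trans (hT.2 p).symm
  let e : α ≃ α := ((Equiv.ofInjective S hS.1).trans (Equiv.setCongr hr)).trans
    (Equiv.ofInjective T hT.1).symm
  have he : S = T ∘ e := funext fun x => (Equiv.apply_ofInjective_symm hT.1
    (Equiv.setCongr hr (Equiv.ofInjective S hS.1 x))).symm
  refine Submodule.span_le.2 ?_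
  rintro _ ⟨g, rfl⟩
  refine Submodule.subset_span ⟨g * e.symm, funext fun t => ?_⟩
  show Strip.poly T (t ∘ ⇑(g * e.symm)) = Strip.poly S (t ∘ g)
  rw [he, poly_comp]
  rfl

theorem GoodLab.comp_equiv {S : β → ℕ × ℕ} {b : β → ℕ} (h : GoodLab S b) (e : α ≃ β) :
    GoodLab (S ∘ e) (b ∘ e) := by
  obtain ⟨f, hf, hinv, t, ht⟩ := h
  refine ⟨fun t => f (t ∘ e.symm), mem_specht_comp e hf, fun g hg t => ?_, t ∘ e, ?_⟩
  · have := hinv (e.permCongr g) (fun x => by simpa using hg (e.symm x)) (t ∘ e.symm)
    have e' : (t ∘ e.symm) ∘ e.permCongr g = (t ∘ g) ∘ e.symm := by funext x; simp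
    rwa [e'] at this
  · simpa [Function.comp_assoc] using ht

/-- One labelling with its blocks decides goodness. -/
theorem Good.of_lab {S : β → ℕ × ℕ} {b : β → ℕ} (hS : IsLab S c) (hb : Blocks b B)
    (h : GoodLab S b) : Good c B := by
  refine ⟨hS.card_eq.symm.trans hb.card_eq, fun α _ S' b' hS' hb' => ?_⟩
  obtain ⟨e, rfl⟩ := hb'.exists_equiv hb
  have h' := h.comp_equiv e
  rwa [GoodLab, specht_eq (hS.comp_equiv e) hS', ← GoodLab] at h'

theorem poly_congr {S T : α → ℕ × ℕ} (hr : ∀ x, (T x).1 = (S x).1)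
    (hc : ∀ x y, (T x).2 = (T y).2 ↔ (S x).2 = (S y).2) : Strip.poly T = Strip.poly S := by
  have : Strip.colPerms T = Strip.colPerms S := by
    ext g
    simp only [Strip.mem_colPerms, hc]
  funext t
  simp only [Strip.poly, this, hr]

/-- Goodness ignores the order of the columns and of the blocks. -/
theorem Good.perm (h : Good c B) (hc : c.Perm c') (hB : B.Perm B') : Good c' B' := by
  refine ⟨by rw [← hc.sum_eq, ← hB.sum_eq]; exact h.1, fun α _ S b hS hb => ?_⟩
  obtain ⟨T, hT, hr, hcol⟩ := hS.perm hc.symm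
  obtain ⟨σ, hσ⟩ := exists_perm_getD hB
  have hb' : Blocks (fun x => σ.symm (b x)) B := fun i => by
    rw [hσ i, ← hb (σ i)]
    simp only [Equiv.symm_apply_eq]
  obtain ⟨f, hf, hinv, ht⟩ := h.2 α T _ hT hb'
  refine ⟨f, ?_, fun g hg => hinv g fun x => by simp only [hg x], ht⟩
  rwa [Strip.specht, poly_congr hr hcol, ← Strip.specht] at hf

/-- A single block may be refined to any blocks. -/
theorem Good.of_merged (h : Good c [c.sum]) (hs : c.sum = B.sum) : Good c B := by
  refine ⟨hs, fun α _ S b hS hb => ?_⟩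
  have h0 : Blocks (fun _ : α => 0) [c.sum] := fun i => by
    rcases i with _ | i
    · simpa using hS.card_eq
    · simp
  obtain ⟨f, hf, hinv, ht⟩ := h.2 α S _ hS h0
  exact ⟨f, hf, fun g _ => hinv g fun _ => rfl, ht⟩

/-- The empty shape. -/
theorem Good.nil : Good [] [] := by
  refine Good.of_lab (β := Empty) (S := Empty.elim) (b := Empty.elim)
    ⟨fun x => x.elim, fun p => by simp [mem_colCells]⟩ (fun i => by simp) ⟨fun _ => 1, ?_,
      fun _ _ _ => by simp, Empty.elim, by decide⟩
  refine Submodule.subset_span ⟨1, funext fun t => ?_⟩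
  show Strip.poly _ (t ∘ _) = _
  have hu : Strip.colPerms (Empty.elim : Empty → ℕ × ℕ) = {1} := by
    ext g
    simp [Strip.mem_colPerms, Subsingleton.elim g 1]
  rw [Strip.poly, hu, sum_singleton, if_pos (funext fun x => x.elim)]
  simp [Strip.sgn]

section Sum

variable {S : α → ℕ × ℕ} {T : β → ℕ × ℕ}

/-- Two labellings side by side. -/
def sideBySide (L : ℕ) (S : α → ℕ × ℕ) (T : β → ℕ × ℕ) : α ⊕ β → ℕ × ℕ :=
  Sum.elim S fun y => ((T y).1, L + (T y).2)

theorem poly_sum (L : ℕ) (hL : ∀ x, (S x).2 < L) (t : α ⊕ β → ℕ) :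
    Strip.poly (sideBySide L S T) t =
      Strip.poly S (t ∘ Sum.inl) * Strip.poly T (t ∘ Sum.inr) := by
  simp only [Strip.poly]
  rw [sum_mul_sum, ← sum_product']
  refine (sum_bij (fun p _ => Equiv.sumCongr p.1 p.2) (fun p hp => ?_) (fun p _ q _ e => ?_)
    (fun c hc => ?_) fun p _ => ?_).symm
  · rw [mem_product, Strip.mem_colPerms, Strip.mem_colPerms] at hp
    rw [Strip.mem_colPerms]
    rintro (x | y) <;> simp [sideBySide, hp.1, hp.2]
  · refine Prod.ext (Equiv.ext fun x => ?_) (Equiv.ext fun y => ?_)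
    · simpa using Equiv.congr_fun e (Sum.inl x)
    · simpa using Equiv.congr_fun e (Sum.inr y)
  · rw [Strip.mem_colPerms] at hc
    have hmap : Set.MapsTo c (Set.range Sum.inl) (Set.range Sum.inl) := by
      rintro _ ⟨x, rfl⟩
      rcases h : c (Sum.inl x) with x' | y
      · exact ⟨x', rfl⟩
      · have := hc (Sum.inl x)
        rw [h] at this
        simp only [sideBySide, Sum.elim_inl, Sum.elim_inr] at this
        have := hL x
        omega
    obtain ⟨⟨p, q⟩, rfl⟩ := Equiv.Perm.mem_sumCongrHom_range_of_perm_mapsTo_inl hmap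
    refine ⟨(p, q), ?_, rfl⟩
    simp only [mem_product, Strip.mem_colPerms]
    exact ⟨fun x => by simpa [sideBySide] using hc (Sum.inl x),
      fun y => by simpa [sideBySide] using hc (Sum.inr y)⟩
  · obtain ⟨p, q⟩ := p
    have key : (t = fun z => (sideBySide L S T (Equiv.sumCongr p q z)).1) ↔
        (t ∘ Sum.inl = fun x => (S (p x)).1) ∧ (t ∘ Sum.inr = fun y => (T (q y)).1) := by
      constructor
      · intro h
        rw [h]
        exact ⟨rfl, rfl⟩
      · rintro ⟨h1, h2⟩
        funext z
        rcases z with x | y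
        · exact congrFun h1 x
        · exact congrFun h2 y
    have hs : Strip.sgn (Equiv.sumCongr p q) = Strip.sgn p * Strip.sgn q := by
      simp only [Strip.sgn]
      rw [← Int.cast_mul, ← Units.val_mul]
      congr 2
      exact (congrArg (fun d => (@Equiv.Perm.sign (α ⊕ β) d _) (Equiv.sumCongr p q))
        (Subsingleton.elim _ _)).trans (Equiv.Perm.sign_sumCongr p q)
    simp only [key, hs]
    split_ifs <;> simp_all

theorem mul_mem_specht (L : ℕ) (hL : ∀ x, (S x).2 < L) {F : (α → ℕ) → ℂ} {H : (β → ℕ) → ℂ}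
    (hF : F ∈ Strip.specht S) (hH : H ∈ Strip.specht T) :
    (fun t => F (t ∘ Sum.inl) * H (t ∘ Sum.inr)) ∈ Strip.specht (sideBySide L S T) := by
  induction hF using Submodule.span_induction with
  | mem F hF =>
    obtain ⟨g, rfl⟩ := hF
    induction hH using Submodule.span_induction with
    | mem H hH =>
      obtain ⟨k, rfl⟩ := hH
      refine Submodule.subset_span ⟨Equiv.sumCongr g k, funext fun t => ?_⟩
      show Strip.poly _ (t ∘ Equiv.sumCongr g k) = _
      rw [poly_sum L hL]
      rfl
    | zero => simp only [Pi.zero_apply, mul_zero]; exact Submodule.zero_mem _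
    | add H H' _ _ h h' => simp only [Pi.add_apply, mul_add]; exact Submodule.add_mem _ h h'
    | smul q H _ h =>
      simp only [Pi.smul_apply, smul_eq_mul, mul_left_comm _ q]
      exact Submodule.smul_mem _ q h
  | zero => simp only [Pi.zero_apply, zero_mul]; exact Submodule.zero_mem _
  | add F F' _ _ h h' => simp only [Pi.add_apply, add_mul]; exact Submodule.add_mem _ h h'
  | smul q F _ h =>
    simp only [Pi.smul_apply, smul_eq_mul, mul_assoc]
    exact Submodule.smul_mem _ q h

theorem GoodLab.sum {b : α → ℕ} {b' : β → ℕ} (L M : ℕ) (hL : ∀ x, (S x).2 < L)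
    (hM : ∀ x, b x < M) (h : GoodLab S b) (h' : GoodLab T b') :
    GoodLab (sideBySide L S T) (Sum.elim b fun y => M + b' y) := by
  obtain ⟨f, hf, hinv, s, hs⟩ := h
  obtain ⟨f', hf', hinv', s', hs'⟩ := h'
  refine ⟨fun t => f (t ∘ Sum.inl) * f' (t ∘ Sum.inr), ?_, fun g hg t => ?_, Sum.elim s s', ?_⟩
  · push_cast
    exact mul_mem_specht L hL hf hf'
  · have hmap : Set.MapsTo g (Set.range Sum.inl) (Set.range Sum.inl) := by
      rintro _ ⟨x, rfl⟩
      rcases hgx : g (Sum.inl x) with x' | y
      · exact ⟨x', rfl⟩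
      · have := hg (Sum.inl x)
        rw [hgx] at this
        simp only [Sum.elim_inl, Sum.elim_inr] at this
        have := hM x
        omega
    obtain ⟨⟨p, q⟩, rfl⟩ := Equiv.Perm.mem_sumCongrHom_range_of_perm_mapsTo_inl hmap
    have h1 := hinv p (fun x => by simpa using hg (Sum.inl x)) (t ∘ Sum.inl)
    have h2 := hinv' q (fun y => by simpa using hg (Sum.inr y)) (t ∘ Sum.inr)
    have h3 := dvd_add (dvd_mul_of_dvd_left h1 (f' ((t ∘ Sum.inr) ∘ q)))
      (dvd_mul_of_dvd_right h2 (f (t ∘ Sum.inl)))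
    have e : f (t ∘ ⇑(Equiv.sumCongr p q) ∘ Sum.inl) * f' (t ∘ ⇑(Equiv.sumCongr p q) ∘ Sum.inr) -
        f (t ∘ Sum.inl) * f' (t ∘ Sum.inr) =
        (f ((t ∘ Sum.inl) ∘ p) - f (t ∘ Sum.inl)) * f' ((t ∘ Sum.inr) ∘ q) +
          f (t ∘ Sum.inl) * (f' ((t ∘ Sum.inr) ∘ q) - f' (t ∘ Sum.inr)) := by
      have e1 : t ∘ ⇑(Equiv.sumCongr p q) ∘ Sum.inl = (t ∘ Sum.inl) ∘ p := rfl
      have e2 : t ∘ ⇑(Equiv.sumCongr p q) ∘ Sum.inr = (t ∘ Sum.inr) ∘ q := rfl
      rw [e1, e2]
      ring
    rw [← e] at h3
    exact h3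
  · simp only [Sum.elim_comp_inl, Sum.elim_comp_inr]
    rw [Int.prime_two.dvd_mul]
    exact not_or.2 ⟨hs, hs'⟩

end Sum

/-- Columns and blocks may be concatenated. -/
theorem Good.append (h : Good c B) (h' : Good d D) : Good (c ++ d) (B ++ D) := by
  refine ⟨by simp [h.1, h'.1], fun α _ S b hS hb => ?_⟩
  have hfib : ∀ i (hi : i < B.length),
      (univ.filter fun x : {x // b x < B.length} => b x = i).card = B.getD i 0 := fun i hi => by
    rw [← List.getD_append B D 0 i hi, ← hb i]
    exact card_bij (fun x _ => x.1) (fun x hx => by simpa using hx)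
      (fun x _ y _ e => Subtype.ext e)
      fun x hx => ⟨⟨x, by simp only [mem_filter, mem_univ, true_and] at hx; omega⟩,
        by simpa using hx, rfl⟩
  have hb1 : Blocks (fun x : {x // b x < B.length} => b x) B := fun i => by
    rcases lt_or_ge i B.length with hi | hi
    · exact hfib i hi
    · rw [List.getD_eq_default _ _ hi, card_eq_zero, filter_eq_empty_iff]
      exact fun x _ e => absurd (e ▸ x.2) (not_lt.2 hi)
  have hb2 : Blocks (fun x : {x // ¬ b x < B.length} => b x - B.length) D := fun i => by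
    rw [← getD_append_add B D i, ← hb (B.length + i)]
    exact card_bij (fun x _ => x.1)
      (fun x hx => by have := x.2; simp at hx ⊢; omega)
      (fun x _ y _ e => Subtype.ext e)
      fun x hx => ⟨⟨x, by simp at hx; omega⟩, by simp at hx ⊢; omega, rfl⟩
  obtain ⟨S1, hS1⟩ := exists_isLab (α := {x // b x < B.length}) c (hb1.card_eq.trans h.1.symm)
  obtain ⟨S2, hS2⟩ := exists_isLab (α := {x // ¬ b x < B.length}) d (hb2.card_eq.trans h'.1.symm)
  have hg := ((h.2 _ S1 _ hS1 hb1).sum c.length B.length hS1.col_lt hb1.lt_length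
    (h'.2 _ S2 _ hS2 hb2)).comp_equiv (Equiv.sumCompl fun x => b x < B.length).symm
  have hS' : IsLab (sideBySide c.length S1 S2 ∘ (Equiv.sumCompl fun x => b x < B.length).symm)
      (c ++ d) := (hS1.append hS2).comp_equiv _
  have eb : (Sum.elim (fun x : {x // b x < B.length} => b x)
      fun x : {x // ¬ b x < B.length} => B.length + (b x - B.length)) ∘
      ⇑(Equiv.sumCompl fun x => b x < B.length).symm = b := by
    funext x
    by_cases hx : b x < B.length
    · simp [hx]
    · simp [hx]
      omega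
  rw [eb, GoodLab, specht_eq hS' hS, ← GoodLab] at hg
  exact hg

theorem blocks_stair (m : ℕ) :
    Blocks (fun x : Specht.Box m => (Strip.boxT x).1) (stairBlocks m) := fun i => by
  have e : (stairBlocks m).getD i 0 = m - i := by
    rcases lt_or_ge i m with hi | hi
    · rw [List.getD_eq_getElem _ _ (by simpa [stairBlocks] using hi)]
      simp [stairBlocks]
    · rw [List.getD_eq_default _ _ (by simpa [stairBlocks] using hi)]
      omega
  rw [e]
  refine (card_bij (t := range (m - i)) (fun x _ => (Specht.colFn x : ℕ)) (fun x hx => ?_)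
    (fun x hx y hy he => ?_) fun j hj => ?_).trans (card_range _)
  · replace hx : (Specht.rowFn x : ℕ) = i := (mem_filter.1 hx).2
    have := Specht.box_lt x
    rw [mem_range]
    omega
  · replace hx : (Specht.rowFn x : ℕ) = i := (mem_filter.1 hx).2
    replace hy : (Specht.rowFn y : ℕ) = i := (mem_filter.1 hy).2
    exact Specht.box_ext (Fin.ext (by omega)) (Fin.ext he)
  · rw [mem_range] at hj
    exact ⟨Specht.mkBox i j (by omega), mem_filter.2 ⟨mem_univ _, by simp [Strip.boxT]⟩, by simp⟩

/-- A good vector for the rows of the staircase gives an occurrence. -/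
theorem occurs_of_goodLab {m : ℕ} {S : Specht.Box m → ℕ × ℕ}
    (h : GoodLab S fun x => (Strip.boxT x).1) : Occurs (Strip.spechtRep S) := by
  obtain ⟨f, hf, hinv, t, ht⟩ := h
  refine Specht.exists_map_of_fixed_mod_two (Strip.spechtRep S)
    ((LinearMap.proj t).comp (Strip.specht S).subtype) ⟨_, hf⟩ (fun g => f (t ∘ g))
    (fun g => rfl) (fun g r hr => ?_) ht
  exact hinv r (fun x => Strip.mem_rowPerms.1 ((Strip.mem_R_iff r).1 hr) x) (t ∘ g)

/-- A good vector for the transpose gives an occurrence. -/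
theorem occurs_of_goodLab_flip {m : ℕ} {S : Specht.Box m → ℕ × ℕ}
    (h : GoodLab (Strip.flipLab S) fun x => (Strip.boxT x).1) : Occurs (Strip.spechtRep S) := by
  obtain ⟨f, hf, hinv, t, ht⟩ := h
  refine Strip.occurs_of_flip S ((LinearMap.proj t).comp (Strip.specht (Strip.flipLab S)).subtype)
    ⟨_, hf⟩ (fun g => f (t ∘ g)) (fun g => rfl) (fun g r hr => ?_) ht
  exact hinv r (fun x => Strip.mem_rowPerms.1 ((Strip.mem_R_iff r).1 hr) x) (t ∘ g)

/-- A diagram whose columns, or whose rows, are good for the staircase occurs. -/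
theorem occurs_of_good {m : ℕ} {nu : YoungDiagram} {S : Specht.Box m → ℕ × ℕ}
    (hS : Strip.IsLabelling S nu)
    (h : Good (colList nu) (stairBlocks m) ∨ Good (colList nu.transpose) (stairBlocks m)) :
    Occurs (Strip.spechtRep S) := by
  rcases h with h | h
  · exact occurs_of_goodLab (h.2 _ S _ (isLab_colList hS.1 hS.2) (blocks_stair m))
  · have hT := Strip.isLabelling_flip hS
    exact occurs_of_goodLab_flip (h.2 _ _ _ (isLab_colList hT.1 hT.2) (blocks_stair m))

end Vale.Agent.P197.Full

end
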