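import Vale.Agent.P197.Full.Columns

/-!
# P197: greedy nested pieces

A piece takes one copy of `y 0`, two of `y 1`, four of `y 2`, …, each value the largest possible.
What is left has fewer than `2 ^ (t + 1)` copies of every value in `(y (t + 1), y t]`, so its total
is at most the triangular number of the weight of the piece.
-/

namespace Vale.Agent.P197.Full

/-- Triangular numbers. -/
def tri (a : ℕ) : ℕ := a * (a + 1) / 2

theorem two_mul_tri (a : ℕ) : 2 * tri a = a * (a + 1) :=
  Nat.mul_div_cancel' (Nat.even_mul_succ_self a).two_dvd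

theorem tri_succ (a : ℕ) : tri (a + 1) = tri a + (a + 1) := by
  have h1 := two_mul_tri a
  have h2 := two_mul_tri (a + 1)
  nlinarith

theorem tri_mono : Monotone tri :=
  monotone_nat_of_le_succ fun a => by rw [tri_succ]; exact Nat.le_add_right _ _

theorem tri_add_le (a b : ℕ) : tri a + tri b ≤ tri (a + b) := by
  have h1 := two_mul_tri a
  have h2 := two_mul_tri b
  have h3 := two_mul_tri (a + b)
  nlinarith [Nat.zero_le (a * b)]

theorem mul_tri_le (k a : ℕ) : k * tri a ≤ tri (k * a) := by
  induction k with
  | zero => simp
  | succ k ih =>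
    rw [Nat.succ_mul, Nat.succ_mul]
    exact (Nat.add_le_add_right ih _).trans (tri_add_le _ _)

/-- The columns of a piece with values `p`, the first taken `2 ^ t` times. -/
def pieceColsFrom : ℕ → List ℕ → List ℕ
  | _, [] => []
  | t, y :: p => List.replicate (2 ^ t) y ++ pieceColsFrom (t + 1) p

/-- The columns of a piece: `p[t]` is taken `2 ^ t` times. -/
def pieceCols (p : List ℕ) : List ℕ := pieceColsFrom 0 p

/-- A piece has positive values in weakly decreasing order. -/
def IsPiece (p : List ℕ) : Prop := p.Pairwise (fun a b => b ≤ a) ∧ ∀ y ∈ p, 0 < y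

/-- After taking `p` from level `t`, `R` has few copies of the values passed. -/
def Gaps (t : ℕ) (p : List ℕ) (R : Multiset ℕ) : Prop :=
  ∀ s v, v ≤ p.getD s 0 → p.getD (s + 1) 0 < v → R.count v < 2 ^ (t + s + 1)

theorem rowSize_pieceColsFrom (i : ℕ) : ∀ (t : ℕ) (p : List ℕ),
    rowSize (pieceColsFrom t p) i
      = ∑ s ∈ Finset.range p.length, if i < p.getD s 0 then 2 ^ (t + s) else 0
  | t, [] => rfl
  | t, y :: p => by
    rw [pieceColsFrom, rowSize_append, rowSize_pieceColsFrom i (t + 1) p, List.length_cons,
      Finset.sum_range_succ', add_comm, add_zero]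
    congr 1
    · refine Finset.sum_congr rfl fun s _ => ?_
      rw [List.getD_cons_succ, show t + (s + 1) = t + 1 + s by omega]
    · rw [rowSize, List.countP_replicate, List.getD_cons_zero]
      simp

theorem rowSize_pieceCols (p : List ℕ) (i : ℕ) :
    rowSize (pieceCols p) i
      = ∑ s ∈ Finset.range p.length, if i < p.getD s 0 then 2 ^ s else 0 := by
  rw [pieceCols, rowSize_pieceColsFrom]
  simp

theorem sum_pieceColsFrom : ∀ (t : ℕ) (p : List ℕ),
    (pieceColsFrom t p).sum = ∑ s ∈ Finset.range p.length, 2 ^ (t + s) * p.getD s 0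
  | t, [] => rfl
  | t, y :: p => by
    rw [pieceColsFrom, List.sum_append, List.sum_replicate, sum_pieceColsFrom (t + 1) p,
      List.length_cons, Finset.sum_range_succ', add_comm, add_zero, smul_eq_mul]
    congr 1
    refine Finset.sum_congr rfl fun s _ => ?_
    rw [List.getD_cons_succ, show t + (s + 1) = t + 1 + s by omega]

/-- A piece can be taken from every level on. -/
theorem exists_levels : ∀ (c : Multiset ℕ) (cap t : ℕ),
    ∃ (p : List ℕ) (R : Multiset ℕ), c = R + (pieceColsFrom t p : Multiset ℕ) ∧ IsPiece p ∧
      (∀ y ∈ p, y ≤ cap) ∧ (∀ v, p.getD 0 0 < v → v ≤ cap → R.count v < 2 ^ t) ∧ Gaps t p R := by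
  intro c
  induction hn : c.card using Nat.strong_induction_on generalizing c with
  | _ n ih =>
    intro cap t
    set y := Nat.findGreatest (fun v => 2 ^ t ≤ c.count v) cap
    rcases Nat.eq_zero_or_pos y with hy | hy
    · refine ⟨[], c, by simp [pieceColsFrom], ⟨List.Pairwise.nil, by simp⟩, by simp,
        fun v hv hvc => ?_, fun s v h1 h2 => by simp at h1 h2; omega⟩
      simp only [List.getD_nil] at hv
      have h1 : y < v := by rw [hy]; exact hv
      have h2 : ¬ 2 ^ t ≤ c.count v :=
        Nat.findGreatest_is_greatest (P := fun v => 2 ^ t ≤ c.count v) h1 hvc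
      omega
    · have hyc : 2 ^ t ≤ c.count y :=
        Nat.findGreatest_of_ne_zero (P := fun v => 2 ^ t ≤ c.count v) (n := cap) rfl hy.ne'
      obtain ⟨c', hc'⟩ := Multiset.le_iff_exists_add.1 (Multiset.le_count_iff_replicate_le.1 hyc)
      have hlt : c'.card < n := by
        rw [← hn, hc', Multiset.card_add, Multiset.card_replicate]
        have := Nat.two_pow_pos t
        omega
      obtain ⟨p, R, hR, hp, hcap, htop, hgap⟩ := ih c'.card hlt c' rfl y (t + 1)
      refine ⟨y :: p, R, ?_, ⟨List.pairwise_cons.2 ⟨hcap, hp.1⟩, ?_⟩, ?_, fun v hv hvc => ?_,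
        fun s v h1 h2 => ?_⟩
      · rw [hc', hR, pieceColsFrom, ← Multiset.coe_add, Multiset.coe_replicate]
        abel
      · simpa using ⟨hy, hp.2⟩
      · simp only [List.mem_cons, forall_eq_or_imp]
        exact ⟨Nat.findGreatest_le cap, fun z hz => (hcap z hz).trans (Nat.findGreatest_le cap)⟩
      · simp only [List.getD_cons_zero] at hv
        have h2 : ¬ 2 ^ t ≤ c.count v :=
          Nat.findGreatest_is_greatest (P := fun v => 2 ^ t ≤ c.count v) hv hvc
        refine lt_of_le_of_lt ?_ (not_le.1 h2)
        rw [hc', hR]
        simp only [Multiset.count_add]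
        omega
      · rcases s with _ | s
        · simp only [List.getD_cons_zero] at h1
          simp only [List.getD_cons_succ] at h2
          simpa using htop v h2 h1
        · simp only [List.getD_cons_succ] at h1 h2
          rw [show t + (s + 1) + 1 = t + 1 + s + 1 by omega]
          exact hgap s v h1 h2

/-- What a piece leaves below its first value. -/
theorem sum_filter_le : ∀ (t : ℕ) (p : List ℕ) (R : Multiset ℕ), Gaps t p R →
    p.Pairwise (fun a b => b ≤ a) →
    (R.filter fun v => v ≤ p.getD 0 0).sum
      ≤ (2 ^ t - 1) * tri (p.getD 0 0)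
        + ∑ s ∈ Finset.range p.length, 2 ^ (t + s) * tri (p.getD s 0) := by
  intro t p
  induction p generalizing t with
  | nil =>
    intro R _ _
    refine le_of_eq_of_le (Multiset.sum_eq_zero fun x hx => ?_) (Nat.zero_le _)
    simpa using (Multiset.mem_filter.1 hx).2
  | cons y p ih =>
    intro R hgap hp
    rw [List.pairwise_cons] at hp
    have hg' : Gaps (t + 1) p R := fun s v h1 h2 => by
      have := hgap (s + 1) v (by simpa using h1) (by simpa using h2)
      rwa [show t + 1 + s + 1 = t + (s + 1) + 1 by omega]
    have h := ih (t + 1) R hg' hp.2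
    set z := p.getD 0 0
    have hzy : z ≤ y := by
      rcases p with _ | ⟨x, p⟩
      · simp [z]
      · exact hp.1 x (by simp)
    simp only [List.getD_cons_zero, List.length_cons]
    rw [Finset.sum_range_succ', List.getD_cons_zero, add_zero]
    have e1 : ∑ s ∈ Finset.range p.length, 2 ^ (t + (s + 1)) * tri ((y :: p).getD (s + 1) 0)
        = ∑ s ∈ Finset.range p.length, 2 ^ (t + 1 + s) * tri (p.getD s 0) :=
      Finset.sum_congr rfl fun s _ => by
        rw [List.getD_cons_succ, show t + (s + 1) = t + 1 + s by omega]
    rw [e1]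
    set tail := ∑ s ∈ Finset.range p.length, 2 ^ (t + 1 + s) * tri (p.getD s 0)
    -- the values in `(z, y]`
    have hsplit : (R.filter fun v => v ≤ y).sum
        ≤ (R.filter fun v => v ≤ z).sum + (2 ^ (t + 1) - 1) * (tri y - tri z) := by
      have hk : ∀ k, z ≤ k → k ≤ y → (R.filter fun v => v ≤ k).sum
          ≤ (R.filter fun v => v ≤ z).sum + (2 ^ (t + 1) - 1) * (tri k - tri z) := by
        intro k hk
        induction k, hk using Nat.le_induction with
        | base => intro _; simp
        | succ k hzk ihk =>
          intro hky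
          have hcnt : R.count (k + 1) < 2 ^ (t + 1) := by
            have := hgap 0 (k + 1) (by simpa using hky)
              (by simp only [List.getD_cons_succ]; omega)
            simpa using this
          have e : R.filter (fun v => v ≤ k + 1)
              = R.filter (fun v => v ≤ k) + Multiset.replicate (R.count (k + 1)) (k + 1) := by
            ext v
            simp only [Multiset.count_add, Multiset.count_filter, Multiset.count_replicate]
            rcases lt_trichotomy v (k + 1) with hv | rfl | hv
            · rw [if_pos hv.le, if_pos (by omega), if_neg (by omega)]; omega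
            · rw [if_pos le_rfl, if_neg (by omega), if_pos rfl]; omega
            · rw [if_neg (by omega), if_neg (by omega), if_neg (by omega)]
          rw [e, Multiset.sum_add, Multiset.sum_replicate, smul_eq_mul, tri_succ]
          have hm : tri z ≤ tri k := tri_mono hzk
          have h1 := ihk (by omega)
          have h2 : R.count (k + 1) * (k + 1) ≤ (2 ^ (t + 1) - 1) * (k + 1) :=
            Nat.mul_le_mul_right _ (by omega)
          rw [show tri k + (k + 1) - tri z = tri k - tri z + (k + 1) by omega,
            Nat.mul_add (2 ^ (t + 1) - 1) (tri k - tri z) (k + 1)]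
          omega
      exact hk y hzy le_rfl
    have hm : tri z ≤ tri y := tri_mono hzy
    obtain ⟨d, hd⟩ := Nat.exists_eq_add_of_le hm
    rw [hd, Nat.add_sub_cancel_left] at hsplit
    have hpow : 2 ^ (t + 1) - 1 = (2 ^ t - 1) + 2 ^ t := by
      have := Nat.two_pow_pos t
      rw [pow_succ]
      omega
    rw [hpow] at hsplit h
    rw [hd]
    nlinarith [hsplit, h]

/-- One greedy step leaves at most the triangular number of the weight it takes. -/
theorem exists_step (c : Multiset ℕ) (hc : c ≠ 0) (hpos : ∀ v ∈ c, 0 < v) :
    ∃ (p : List ℕ) (R : Multiset ℕ), c = R + (pieceCols p : Multiset ℕ) ∧ IsPiece p ∧ p ≠ [] ∧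
      (∀ v ∈ c, v ≤ p.getD 0 0) ∧ Gaps 0 p R ∧ R.sum ≤ tri (pieceCols p).sum := by
  obtain ⟨p, R, hR, hp, hcap, htop, hgap⟩ := exists_levels c c.sum 0
  have hle : ∀ v ∈ c, v ≤ p.getD 0 0 := by
    intro v hv
    by_contra hlt
    rw [not_le] at hlt
    have h0 := htop v hlt (Multiset.le_sum_of_mem hv)
    rw [pow_zero, Nat.lt_one_iff] at h0
    rw [hR, Multiset.mem_add] at hv
    rcases hv with hv | hv
    · exact (Multiset.count_ne_zero.2 hv) h0
    · rw [Multiset.mem_coe] at hv
      have : ∀ (t : ℕ) (q : List ℕ), v ∈ pieceColsFrom t q → v ∈ q := by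
        intro t q
        induction q generalizing t with
        | nil => simp [pieceColsFrom]
        | cons y q ih =>
          simp only [pieceColsFrom, List.mem_append, List.mem_replicate, List.mem_cons]
          rintro (⟨-, rfl⟩ | h)
          · exact .inl rfl
          · exact .inr (ih _ h)
      have hvp := this 0 p hv
      rcases p with _ | ⟨y, p⟩
      · simp at hvp
      · simp only [List.getD_cons_zero] at hlt
        have := hp.1
        rw [List.pairwise_cons] at this
        rcases List.mem_cons.1 hvp with rfl | h
        · exact lt_irrefl _ hlt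
        · exact absurd (this.1 v h) (not_le.2 hlt)
  obtain ⟨v, hv⟩ := Multiset.exists_mem_of_ne_zero hc
  refine ⟨p, R, hR, hp, fun hp0 => ?_, hle, hgap, ?_⟩
  · have := hle v hv
    rw [hp0, List.getD_nil] at this
    exact absurd (hpos v hv) (by omega)
  · have h := sum_filter_le 0 p R hgap hp.1
    rw [Multiset.filter_eq_self.2 fun x hx => hle x (by rw [hR]; exact Multiset.mem_add.2 (.inl hx))]
      at h
    simp only [pow_zero, Nat.sub_self, Nat.zero_mul, zero_add] at h
    refine h.trans ?_
    rw [pieceCols, sum_pieceColsFrom]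
    simp only [zero_add]
    refine (Finset.sum_le_sum fun s _ => mul_tri_le _ _).trans ?_
    induction Finset.range p.length using Finset.induction with
    | empty => simp
    | insert a s ha ih =>
      rw [Finset.sum_insert ha, Finset.sum_insert ha]
      exact (Nat.add_le_add_left ih _).trans (tri_add_le _ _)

/-- A later piece is nested in an earlier one. -/
theorem nested_of_gaps {p q : List ℕ} {R : Multiset ℕ} (hgap : Gaps 0 p R)
    (hq : q.Pairwise fun a b => b ≤ a) (hsub : (pieceCols q : Multiset ℕ) ≤ R)
    (h0 : q.getD 0 0 ≤ p.getD 0 0) : ∀ s, q.getD s 0 ≤ p.getD s 0 := by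
  intro s
  induction s with
  | zero => exact h0
  | succ s ih =>
    by_contra hlt
    rw [not_le] at hlt
    have hs : s + 1 < q.length := by
      by_contra h
      rw [List.getD_eq_default _ _ (not_lt.1 h)] at hlt
      omega
    have hdec : q.getD (s + 1) 0 ≤ q.getD s 0 := by
      rw [List.getD_eq_getElem _ _ hs, List.getD_eq_getElem _ _ (by omega)]
      exact List.pairwise_iff_getElem.1 hq _ _ _ hs (Nat.lt_succ_self s)
    have h1 := hgap s _ (hdec.trans ih) hlt
    rw [zero_add] at h1
    have h2 : ∀ (t : ℕ) (q : List ℕ) (k : ℕ), k < q.length →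
        2 ^ (t + k) ≤ (pieceColsFrom t q : Multiset ℕ).count (q.getD k 0) := by
      intro t q
      induction q generalizing t with
      | nil => simp
      | cons y q ih' =>
        intro k hk
        rw [pieceColsFrom, ← Multiset.coe_add, Multiset.count_add, Multiset.coe_replicate]
        rcases k with _ | k
        · simp
        · have := ih' (t + 1) k (by simpa using hk)
          simp only [List.getD_cons_succ]
          rw [show t + (k + 1) = t + 1 + k by omega]
          omega
    have h3 := (h2 0 q (s + 1) hs).trans (Multiset.count_le_of_le _ hsub)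
    rw [zero_add] at h3
    omega

/-- LEMMA G: the greedy pieces. The pieces are nested, the weight left after `j` of them is at
most the triangular number of `m - j`, and at most that of the weight of the last one taken. -/
theorem exists_greedy : ∀ (m : ℕ) (c : Multiset ℕ), (∀ v ∈ c, 0 < v) → c.sum ≤ tri m →
    ∃ ps : List (List ℕ), ps.length ≤ m ∧ c = ((ps.map pieceCols).flatten : Multiset ℕ) ∧
      (∀ p ∈ ps, IsPiece p ∧ p ≠ []) ∧
      ps.Pairwise (fun p q => ∀ s, q.getD s 0 ≤ p.getD s 0) ∧
      (∀ j, ((ps.drop j).map pieceCols).flatten.sum ≤ tri (m - j)) ∧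
      ∀ j, j < ps.length → ((ps.drop (j + 1)).map pieceCols).flatten.sum
        ≤ tri (pieceCols (ps.getD j [])).sum := by
  intro m
  induction m with
  | zero =>
    intro c hpos hc
    have h0 : c = 0 := by
      by_contra h
      obtain ⟨v, hv⟩ := Multiset.exists_mem_of_ne_zero h
      have := Multiset.le_sum_of_mem hv
      have := hpos v hv
      simp [tri] at hc
      omega
    exact ⟨[], le_rfl, by simp [h0], by simp, List.Pairwise.nil, by simp, by simp⟩
  | succ m ih =>
    intro c hpos hc
    by_cases h0 : c = 0
    · exact ⟨[], Nat.zero_le _, by simp [h0], by simp, List.Pairwise.nil, by simp, by simp⟩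
    obtain ⟨p, R, hR, hp, hp0, htop, hgap, hG⟩ := exists_step c h0 hpos
    have hsum : c.sum = R.sum + (pieceCols p).sum := by rw [hR, Multiset.sum_add, Multiset.sum_coe]
    have hRm : R.sum ≤ tri m := by
      rcases le_or_gt (m + 1) (pieceCols p).sum with h | h
      · have := tri_succ m
        omega
      · exact hG.trans (tri_mono (by omega))
    obtain ⟨ps, hlen, hflat, hps, hnest, hdrop, hlast⟩ :=
      ih R (fun v hv => hpos v (by rw [hR]; exact Multiset.mem_add.2 (.inl hv))) hRm
    refine ⟨p :: ps, by simpa using hlen, ?_, ?_, List.pairwise_cons.2 ⟨fun q hq => ?_, hnest⟩,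
      fun j => ?_, fun j hj => ?_⟩
    · rw [List.map_cons, List.flatten_cons, ← Multiset.coe_add, ← hflat, hR, add_comm]
    · simp only [List.mem_cons, forall_eq_or_imp]
      exact ⟨⟨hp, hp0⟩, hps⟩
    · have hsub : (pieceCols q : Multiset ℕ) ≤ R := by
        rw [hflat, Multiset.coe_le]
        exact (List.sublist_flatten_of_mem (List.mem_map_of_mem hq)).subperm
      refine nested_of_gaps hgap (hps q hq).1.1 hsub ?_
      obtain ⟨x, q, rfl⟩ := List.exists_cons_of_ne_nil (hps q hq).2
      refine htop x ?_
      rw [hR]
      refine Multiset.mem_add.2 (.inl (Multiset.mem_of_le hsub ?_))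
      simp [pieceCols, pieceColsFrom]
    · rcases j with _ | j
      · rw [List.drop_zero, Nat.sub_zero, List.map_cons, List.flatten_cons, List.sum_append]
        have : ((ps.map pieceCols).flatten).sum = R.sum := by rw [hflat, Multiset.sum_coe]
        omega
      · simpa using hdrop j
    · rcases j with _ | j
      · simp only [zero_add, List.drop_succ_cons, List.drop_zero, List.getD_cons_zero]
        rw [← Multiset.sum_coe, ← hflat]
        exact hG
      · simpa using hlast j (by simpa using hj)

/-- The greedy pieces of a diagram with `tri m` boxes: they dominate the staircase. -/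
theorem exists_greedy_colList (m : ℕ) (nu : YoungDiagram) (h : nu.cells.card = tri m) :
    ∃ ps : List (List ℕ), ps.length ≤ m ∧ (ps.map pieceCols).flatten.Perm (colList nu) ∧
      (∀ p ∈ ps, IsPiece p ∧ p ≠ []) ∧
      ps.Pairwise (fun p q => ∀ s, q.getD s 0 ≤ p.getD s 0) ∧
      (∀ j, tri m ≤ ((ps.take j).map pieceCols).flatten.sum + tri (m - j)) ∧
      ∀ j, j < ps.length → ((ps.drop (j + 1)).map pieceCols).flatten.sum
        ≤ tri (pieceCols (ps.getD j [])).sum := by
  obtain ⟨ps, h1, h2, h3, h4, h5, h6⟩ := exists_greedy m (colList nu : Multiset ℕ)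
    (fun v hv => pos_of_mem_colList hv) (by rw [Multiset.sum_coe, sum_colList, h])
  refine ⟨ps, h1, (Multiset.coe_eq_coe.1 h2).symm, h3, h4, fun j => ?_, h6⟩
  have e := congrArg Multiset.sum h2
  rw [Multiset.sum_coe, Multiset.sum_coe, sum_colList, h] at e
  rw [e]
  conv_lhs => rw [← List.take_append_drop j ps]
  rw [List.map_append, List.flatten_append, List.sum_append]
  exact Nat.add_le_add_left (h5 j) _

end Vale.Agent.P197.Full
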