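import Vale.Agent.P197.Full.Split
import Vale.Agent.P197.Full.Balance

/-!
# P197: shapes with all rows one less than a power of two are all-good

The first column takes one letter of every row; the other letters alternate along an order between
two copies of the rest of the shape. Modulo two these products of all-good pieces add up to the sum
of all tabloids.
-/

noncomputable section

namespace Vale.Agent.P197.Full

open Finset
open scoped Classical

variable {α : Type} {x : ℕ}

/-- The piece of every letter: `0` on `A`, elsewhere alternately `1` and `2` along the list. -/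
def pieceOf (A : Finset α) : List α → Bool → α → ℕ
  | [], _ => fun _ => 0
  | z :: l, p => if z ∈ A then pieceOf A l p
      else Function.update (pieceOf A l (!p)) z (if p then 1 else 2)

theorem pieceOf_notMem (A : Finset α) : ∀ (l : List α) p z, z ∉ l → pieceOf A l p z = 0 := by
  intro l
  induction l with
  | nil => simp [pieceOf]
  | cons y l ih =>
    intro p z hz
    simp only [List.mem_cons, not_or] at hz
    unfold pieceOf
    split_ifs <;> simp [hz.1, ih _ z hz.2]

theorem pieceOf_eq (A : Finset α) : ∀ (l : List α) p z,
    if z ∈ l ∧ z ∉ A then pieceOf A l p z = 1 ∨ pieceOf A l p z = 2 else pieceOf A l p z = 0 := by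
  intro l
  induction l with
  | nil => simp [pieceOf]
  | cons y l ih =>
    intro p z
    unfold pieceOf
    by_cases hy : y ∈ A
    · rw [if_pos hy]
      have := ih p z
      by_cases hz : z = y
      · subst hz; simp [hy] at this ⊢; exact this
      · simpa [hz] using this
    · rw [if_neg hy]
      by_cases hz : z = y
      · subst hz; cases p <;> simp [hy]
      · simpa [hz] using ih (!p) z

theorem pieceOf_congr {A A' : Finset α} : ∀ (l : List α), (∀ z ∈ l, z ∈ A ↔ z ∈ A') →
    ∀ p, pieceOf A l p = pieceOf A' l p := by
  intro l
  induction l with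
  | nil => simp [pieceOf]
  | cons y l ih =>
    intro h p
    have h' := ih fun z hz => h z (List.mem_cons_of_mem _ hz)
    simp only [pieceOf, h y (List.mem_cons_self ..), h']

/-- The markings of a list of letters are the sets with one letter of each unmarked row. -/
theorem total_map (h : Fin x → ℕ) (r : α → Fin x) : ∀ (l : List α), l.Nodup → ∀ p U m,
    Balance.total h (l.map r) p U m = ∑ A ∈ l.toFinset.powerset,
      if ∀ i, #(A.filter fun z => r z = i) = if i ∈ U then 0 else 1 then
        Balance.weight h fun i => m i + #(l.toFinset.filter fun z => r z = i ∧ pieceOf A l p z = 1)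
      else 0 := by
  intro l
  induction l with
  | nil =>
    intro _ p U m
    simp [Balance.total, eq_univ_iff_forall]
  | cons y l ih =>
    intro hl p U m
    rw [List.nodup_cons] at hl
    have hy : y ∉ l.toFinset := fun h => hl.1 (List.mem_toFinset.1 h)
    rw [List.toFinset_cons, sum_powerset_insert hy, List.map_cons, Balance.total,
      add_comm (∑ A ∈ _, _)]
    refine congrArg₂ (· + ·) ?_ ?_
    · by_cases hU : r y ∈ U
      · rw [if_pos hU]
        refine (sum_eq_zero fun A _ => if_neg fun H => ?_).symm
        have := H (r y)
        rw [if_pos hU, card_eq_zero] at this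
        exact eq_empty_iff_forall_notMem.1 this y (by simp)
      rw [if_neg hU, ih hl.2]
      refine sum_congr rfl fun A hA => ?_
      have hyA : y ∉ A := fun h => hy (mem_powerset.1 hA h)
      refine if_congr (forall_congr' fun i => ?_) (congrArg _ (funext fun i => ?_)) rfl
      · rw [filter_insert]
        by_cases hi : r y = i
        · subst hi
          rw [if_pos rfl, card_insert_of_notMem (by simp [hyA]), if_neg hU,
            if_pos (mem_insert_self _ _)]
          omega
        · rw [if_neg hi]
          simp [Ne.symm hi]
      · refine congrArg _ ?_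
        rw [filter_insert]
        simp only [pieceOf, mem_insert_self, if_pos, pieceOf_notMem _ l p y hl.1, zero_ne_one,
          and_false, if_false]
        refine congrArg card (filter_congr fun z hz => ?_)
        rw [pieceOf_congr (A := insert y A) (A' := A) l fun w hw => ?_]
        rw [mem_insert, or_iff_right]
        rintro rfl
        exact hl.1 hw
    · rw [ih hl.2]
      refine sum_congr rfl fun A hA => ?_
      have hyA : y ∉ A := fun h => hy (mem_powerset.1 hA h)
      refine if_congr Iff.rfl (congrArg _ (funext fun i => ?_)) rfl
      simp only [pieceOf, if_neg hyA, filter_insert, Function.update_self]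
      have he : l.toFinset.filter (fun z => r z = i ∧
            Function.update (pieceOf A l !p) y (if p then 1 else 2) z = 1) =
          l.toFinset.filter fun z => r z = i ∧ pieceOf A l (!p) z = 1 := filter_congr fun z hz => by
        rw [Function.update_of_ne (show z ≠ y from fun e => hy (e ▸ hz))]
      rw [he]
      rcases eq_or_ne (r y) i with rfl | hi
      · cases p
        · simp
        · simp [hy, add_assoc, add_comm]
      · cases p <;> simp [hi, Ne.symm hi]

/-- Below twice a number `2 ^ e - 1` only that number contains all its digits. -/
theorem choose_two_pow_sub_one : ∀ e C : ℕ, C ≤ 2 * (2 ^ e - 1) →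
    (C.choose (2 ^ e - 1) : ZMod 2) = if C = 2 ^ e - 1 then 1 else 0 := by
  intro e
  induction e with
  | zero =>
    intro C hC
    have : C = 0 := by simpa using hC
    simp [this]
  | succ e ih =>
    intro C hC
    have h2 : 1 ≤ 2 ^ e := Nat.one_le_two_pow
    have hl := Choose.choose_modEq_choose_mod_mul_choose_div_nat (n := C) (k := 2 ^ (e + 1) - 1)
      (p := 2)
    rw [show (2 ^ (e + 1) - 1) % 2 = 1 by rw [pow_succ]; omega,
      show (2 ^ (e + 1) - 1) / 2 = 2 ^ e - 1 by rw [pow_succ]; omega, Nat.choose_one_right] at hl
    rw [(ZMod.natCast_eq_natCast_iff _ _ 2).2 hl, Nat.cast_mul]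
    rw [pow_succ] at hC ⊢
    rcases Nat.mod_two_eq_zero_or_one C with hm | hm
    · rw [hm, Nat.cast_zero, zero_mul, if_neg (by omega)]
    · rw [hm, Nat.cast_one, one_mul, ih _ (by omega)]
      exact if_congr (by omega) rfl rfl

/-- A column in front of two copies of a shape with all rows `2 ^ e - 1`. -/
theorem allGood_double {mu : List ℕ} (hmu : AllGood mu) (hle : ∀ l ∈ mu, l ≤ x)
    (hM : ∀ i, ∃ e, rowSize mu i = 2 ^ e - 1) : AllGood (x :: (mu ++ mu)) := by
  intro α _ S hS
  let l : List α := (univ : Finset α).toList
  have hl : l.toFinset = univ := toList_toFinset _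
  have hgs : ∀ c ∈ ([[x], mu, mu] : List (List ℕ)), AllGood c := by
    simp only [List.mem_cons, List.not_mem_nil, or_false, forall_eq_or_imp, forall_eq]
    exact ⟨allGood_one_column x, hmu, hmu⟩
  choose f hf hv using fun A : Finset α =>
    exists_prod [[x], mu, mu] hgs α S (by simpa using hS) fun z => pieceOf A l false z
  refine ⟨fun t => ∑ A ∈ (univ : Finset α).powerset, f A t, ?_, fun t => ?_⟩
  · have : (fun t => ((∑ A ∈ (univ : Finset α).powerset, f A t : ℤ) : ℂ)) =
        ∑ A ∈ (univ : Finset α).powerset, fun t => (f A t : ℂ) := by
      funext t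
      simp [Finset.sum_apply]
    rw [this]
    exact sum_mem fun A _ => hf A
  simp only [Int.cast_sum, hv]
  have hrow : ∀ i, rowSize (x :: (mu ++ mu)) i = (if i < x then 1 else 0) + (rowSize mu i + rowSize mu i) :=
    fun i => by
      rw [← rowSize_append mu mu]
      simp only [rowSize, List.countP_cons, decide_eq_true_eq]
      omega
  have hx : rowSize [x] = fun i => if i < x then 1 else 0 := funext fun i => by
    simp [rowSize, List.countP_cons]
  have h3 : ∀ k i, rowSize (([[x], mu, mu] : List (List ℕ)).getD k []) i =
      if k = 0 then (if i < x then 1 else 0) else if k ≤ 2 then rowSize mu i else 0 := by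
    intro k i
    match k with
    | 0 => simp [hx]
    | 1 => simp
    | 2 => simp
    | k + 3 => simp [rowSize]
  have hmem : ∀ z, z ∈ l := fun z => mem_toList.2 (mem_univ z)
  have hval : ∀ (A : Finset α) z, pieceOf A l false z = 0 ↔ z ∈ A := fun A z => by
    have := pieceOf_eq A l false z
    by_cases hz : z ∈ A <;> simp [hz, hmem] at this ⊢ <;> omega
  -- the condition on the pieces, in terms of `A`
  have hcond : ∀ A : Finset α,
      (∀ k i, #(univ.filter fun z => pieceOf A l false z = k ∧ t z = i) =
        rowSize (([[x], mu, mu] : List (List ℕ)).getD k []) i) ↔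
      (∀ i, #(univ.filter fun z => t z = i) = rowSize (x :: (mu ++ mu)) i) ∧
      (∀ i, #(A.filter fun z => t z = i) = if i < x then 1 else 0) ∧
      ∀ i, #(univ.filter fun z => pieceOf A l false z = 1 ∧ t z = i) = rowSize mu i := by
    intro A
    have hsplit : ∀ i, #(univ.filter fun z => t z = i) = #(A.filter fun z => t z = i) +
        (#(univ.filter fun z => pieceOf A l false z = 1 ∧ t z = i) +
          #(univ.filter fun z => pieceOf A l false z = 2 ∧ t z = i)) := fun i => by
      rw [← card_union_of_disjoint (by
        rw [disjoint_left]
        intro z h1 h2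
        simp only [mem_filter] at h1 h2
        omega), ← card_union_of_disjoint (by
        rw [disjoint_left]
        intro z h1 h2
        simp only [mem_union, mem_filter, ← hval A] at h1 h2
        omega)]
      refine congrArg card (ext fun z => ?_)
      have := pieceOf_eq A l false z
      by_cases hz : z ∈ A <;> simp [hz, hmem] at this ⊢ <;> tauto
    have hA : ∀ i, #(univ.filter fun z => pieceOf A l false z = 0 ∧ t z = i) =
        #(A.filter fun z => t z = i) := fun i => congrArg card (ext fun z => by simp [hval])
    constructor
    · intro H
      have h0 := H 0; have h1 := H 1; have h2 := H 2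
      simp only [h3, hA, if_neg one_ne_zero, if_neg two_ne_zero, one_le_two, le_refl,
        if_true] at h0 h1 h2
      exact ⟨fun i => by rw [hsplit, h0, h1, h2, hrow], h0, h1⟩
    · rintro ⟨ht, h0, h1⟩ k i
      rw [h3]
      match k with
      | 0 => rw [if_pos rfl, hA, h0]
      | 1 => simp [h1]
      | 2 =>
        simp only [two_ne_zero, le_refl, if_false, if_true]
        have := hsplit i
        rw [ht, hrow, h0, h1] at this
        omega
      | k + 3 =>
        simp only [show k + 3 ≠ 0 by omega, show ¬ k + 3 ≤ 2 by omega, if_false, card_eq_zero]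
        refine filter_eq_empty_iff.2 fun z _ h => ?_
        have := pieceOf_eq A l false z
        split_ifs at this <;> omega
  simp only [hcond]
  by_cases ht : ∀ i, #(univ.filter fun z => t z = i) = rowSize (x :: (mu ++ mu)) i
  swap
  · rw [if_neg ht]
    exact sum_eq_zero fun A _ => if_neg fun H => ht H.1
  rw [if_pos ht]
  simp only [eq_true ht, true_and]
  have hlt : ∀ z, t z < x := fun z => by
    by_contra hz
    have := ht (t z)
    rw [rowSize_eq_zero fun l hl' => ?_, card_eq_zero] at this
    · exact eq_empty_iff_forall_notMem.1 this z (by simp)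
    · simp only [List.mem_cons, List.mem_append, or_self] at hl'
      rcases hl' with rfl | hl'
      · exact not_lt.1 hz
      · exact (hle l hl').trans (not_lt.1 hz)
  let r : α → Fin x := fun z => ⟨t z, hlt z⟩
  have hr : ∀ z (i : Fin x), r z = i ↔ t z = i := fun z i => by simp [r, Fin.ext_iff]
  let h : Fin x → ℕ := fun i => rowSize mu i
  have hn : ∀ i, (l.map r).count i = 2 * h i + 1 := fun i => by
    rw [List.count_eq_countP, List.countP_map, List.countP_eq_length_filter,
      ← List.toFinset_card_of_nodup ((nodup_toList _).filter _), List.toFinset_filter, hl]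
    have := ht i
    rw [hrow, if_pos i.isLt] at this
    simp only [Function.comp, beq_iff_eq, hr, h]
    omega
  refine Eq.trans ?_ ((total_map h r l (nodup_toList _) false ∅ 0).symm.trans (Balance.total_eq_one h hn))
  rw [hl]
  refine sum_congr rfl fun A _ => ?_
  have hA : (∀ i, #(A.filter fun z => t z = i) = if i < x then 1 else 0) ↔
      ∀ i : Fin x, #(A.filter fun z => r z = i) = 1 := by
    constructor
    · intro H i
      simp only [hr, H, i.isLt, if_true]
    · intro H i
      by_cases hi : i < x
      · rw [if_pos hi, ← H ⟨i, hi⟩]
        simp only [hr]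
      · rw [if_neg hi, card_eq_zero]
        exact filter_eq_empty_iff.2 fun z _ e => hi (e ▸ hlt z)
  simp only [notMem_empty, if_false, Pi.zero_apply, zero_add]
  by_cases hB : ∀ i : Fin x, #(A.filter fun z => r z = i) = 1
  swap
  · rw [if_neg hB, if_neg fun H => hB (hA.1 H.1)]
  rw [if_pos hB]
  simp only [eq_true (hA.2 hB), true_and, Balance.weight]
  have hC : ∀ i : Fin x,
      #(univ.filter fun z => r z = i ∧ pieceOf A l false z = 1) ≤ 2 * h i := fun i => by
    have e : #(A.filter fun z => t z = i) +
        #(univ.filter fun z => r z = i ∧ pieceOf A l false z = 1) ≤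
          #(univ.filter fun z => t z = (i : ℕ)) := by
      rw [← card_union_of_disjoint (disjoint_left.2 fun z h1 h2 => by
        simp only [mem_filter, ← hval A] at h1 h2; omega)]
      exact card_le_card fun z hz => by
        simp only [mem_union, mem_filter, hr] at hz
        simp only [mem_filter, mem_univ, true_and]
        tauto
    rw [(hA.2 hB) i, if_pos i.isLt, ht, hrow, if_pos i.isLt] at e
    simp only [h]
    omega
  have hchoose : ∀ i : Fin x,
      ((#(univ.filter fun z => r z = i ∧ pieceOf A l false z = 1)).choose (h i) : ZMod 2) =
        if #(univ.filter fun z => pieceOf A l false z = 1 ∧ t z = i) = h i then 1 else 0 := fun i => by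
    obtain ⟨e, he⟩ := hM i
    have := hC i
    simp only [h, he] at this ⊢
    rw [choose_two_pow_sub_one _ _ this]
    simp only [hr, and_comm]
  simp only [hchoose, prod_boole, mem_univ, forall_const]
  refine if_congr ⟨fun H i => H i, fun H i => ?_⟩ rfl rfl
  by_cases hi : i < x
  · exact H ⟨i, hi⟩
  · rw [rowSize_eq_zero fun l hl' => (hle l hl').trans (not_lt.1 hi), card_eq_zero]
    exact filter_eq_empty_iff.2 fun z _ e => hi (e.2 ▸ hlt z)

/-- The columns of nested layers: the layer `k` gives `2 ^ k` columns. -/
def layerCols : List ℕ → List ℕ
  | [] => []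
  | y :: L => y :: (layerCols L ++ layerCols L)

theorem rowSize_layerCols : ∀ L : List ℕ, L.Pairwise (· ≥ ·) → ∀ i,
    rowSize (layerCols L) i = 2 ^ (L.countP fun y => decide (i < y)) - 1 := by
  intro L
  induction L with
  | nil => simp [layerCols, rowSize]
  | cons y L ih =>
    intro hL i
    rw [List.pairwise_cons] at hL
    have e : rowSize (layerCols (y :: L)) i =
        rowSize (layerCols L ++ layerCols L) i + if i < y then 1 else 0 := by
      simp [layerCols, rowSize, List.countP_cons]
    rw [e, rowSize_append, ih hL.2, List.countP_cons]
    by_cases hi : i < y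
    · have := Nat.one_le_two_pow (n := L.countP fun y => decide (i < y))
      simp [hi, pow_succ]
      omega
    · have : L.countP (fun y => decide (i < y)) = 0 := List.countP_eq_zero.2 fun z hz => by
        have := hL.1 z hz
        simp
        omega
      simp [hi, this]

theorem mem_layerCols_le {b : ℕ} : ∀ L : List ℕ, (∀ y ∈ L, y ≤ b) → ∀ l ∈ layerCols L, l ≤ b := by
  intro L
  induction L with
  | nil => simp [layerCols]
  | cons y L ih =>
    intro h l hl
    simp only [layerCols, List.mem_cons, List.mem_append, or_self] at hl
    rcases hl with rfl | hl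
    · exact h l (List.mem_cons_self ..)
    · exact ih (fun z hz => h z (List.mem_cons_of_mem _ hz)) l hl

/-- The sum of all tabloids of nested layers lies in the Specht module modulo two. -/
theorem allGood_layerCols : ∀ L : List ℕ, L.Pairwise (· ≥ ·) → AllGood (layerCols L) := by
  intro L
  induction L with
  | nil => exact fun _ => allGood_one_row 0
  | cons y L ih =>
    intro hL
    rw [List.pairwise_cons] at hL
    exact allGood_double (ih hL.2) (mem_layerCols_le L fun z hz => hL.1 z hz)
      fun i => ⟨_, rowSize_layerCols L hL.2 i⟩

end Vale.Agent.P197.Full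

end
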