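import Vale.Agent.P197.Full.Split

/-!
# P197: tokens of several levels

A cell count is written in powers of two; in every row and every level the tokens of the pieces
are matched with blocks, at most one token for each block. The matched pieces then add without
carries, so the splitting lemma applies.
-/

noncomputable section

namespace Vale.Agent.P197.Full

open Finset
open scoped Classical

/-- A number without a common digit with each term meets their sum nowhere. -/
theorem land_sum_eq_zero {ι : Type*} (f : ι → ℕ) (s : Finset ι)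
    (hf : ∀ i ∈ s, ∀ j ∈ s, i ≠ j → f i &&& f j = 0) :
    ∀ x : ℕ, (∀ i ∈ s, x &&& f i = 0) → x &&& ∑ i ∈ s, f i = 0 := by
  induction s using Finset.induction_on with
  | empty => simp
  | insert a s ha ih =>
    intro x hx
    have ih' := ih fun i hi j hj => hf i (mem_insert_of_mem hi) j (mem_insert_of_mem hj)
    rw [sum_insert ha]
    refine land_add_eq_zero (ih' _ fun i hi => hf a (mem_insert_self a s) i (mem_insert_of_mem hi)
      fun e => ha (e ▸ hi)) (hx a (mem_insert_self a s)) (ih' x fun i hi => hx i (mem_insert_of_mem hi))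

/-- Sums of powers of two over disjoint sets have no common digit. -/
theorem land_sum_two_pow {s u : Finset ℕ} (h : Disjoint s u) :
    (∑ t ∈ s, 2 ^ t) &&& (∑ t ∈ u, 2 ^ t) = 0 := by
  have hp : ∀ t t' : ℕ, t ≠ t' → 2 ^ t &&& 2 ^ t' = 0 := fun t t' hne => by
    refine Nat.eq_of_testBit_eq fun i => ?_
    simp [Nat.testBit_two_pow]
    omega
  refine land_sum_eq_zero _ u (fun i _ j _ => hp i j) _ fun i hi => ?_
  rw [Nat.land_comm]
  exact land_sum_eq_zero _ s (fun i _ j _ => hp i j) _ fun j hj =>
    hp i j fun e => disjoint_left.1 h (e ▸ hj) hi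

/-- Pieces with level tokens: `E t i` holds the pieces with a token of level `t` in row `i`, and
`M t i` the blocks which receive one. -/
theorem Good.of_levels (gs : List (List ℕ)) (hgs : ∀ c ∈ gs, AllGood c) {B : List ℕ} {I : ℕ}
    (hI : ∀ l ∈ gs.flatten, l ≤ I) (L : ℕ) (E : ℕ → ℕ → Finset (Fin gs.length))
    (M : ℕ → ℕ → Finset ℕ)
    (hrow : ∀ g i, i < I →
      rowSize gs[g] i = ∑ t ∈ range L, if g ∈ E t i then 2 ^ t else 0)
    (hM : ∀ t < L, ∀ i < I, M t i ⊆ range B.length)
    (hcard : ∀ t < L, ∀ i < I, (M t i).card = (E t i).card)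
    (hB : ∀ j < B.length,
      ∑ i ∈ range I, ∑ t ∈ range L, (if j ∈ M t i then 2 ^ t else 0) = B.getD j 0) :
    Good gs.flatten B := by
  have hm : ∀ t i, ∃ w : ℕ → Option (Fin gs.length), t < L → i < I →
      (∀ j, (∃ g, w j = some g) ↔ j ∈ M t i) ∧
      ∀ g, g ∈ E t i → #((range B.length).filter fun j => w j = some g) = 1 ∧
      ∀ j g, w j = some g → g ∈ E t i := fun t i => by
    by_cases h : t < L ∧ i < I
    swap
    · exact ⟨fun _ => none, fun h1 h2 => absurd ⟨h1, h2⟩ h⟩
    let e := equivOfCardEq (hcard t h.1 i h.2)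
    refine ⟨fun j => if hj : j ∈ M t i then some (e ⟨j, hj⟩).1 else none,
      fun _ _ => ⟨fun j => ?_, fun g hg => ⟨card_eq_one.2 ⟨(e.symm ⟨g, hg⟩).1, ?_⟩, ?_⟩⟩⟩
    · by_cases hj : j ∈ M t i <;> simp [hj]
    · ext j
      simp only [mem_filter, mem_range, mem_singleton]
      constructor
      · rintro ⟨-, hj⟩
        by_cases hjM : j ∈ M t i
        · rw [dif_pos hjM, Option.some_inj] at hj
          rw [← show e ⟨j, hjM⟩ = ⟨g, hg⟩ from Subtype.ext hj, Equiv.symm_apply_apply]
        · simp [hjM] at hj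
      · rintro rfl
        exact ⟨mem_range.1 (hM t h.1 i h.2 (e.symm ⟨g, hg⟩).2), by simp⟩
    · intro j g' hj
      replace hj : (if hj : j ∈ M t i then some (e ⟨j, hj⟩).1 else none) = some g' := hj
      by_cases hjM : j ∈ M t i
      · rw [dif_pos hjM, Option.some_inj] at hj
        exact hj ▸ (e ⟨j, hjM⟩).2
      · simp [hjM] at hj
  choose w hw using hm
  refine Good.split gs hgs hI
    (fun j g i => ∑ t ∈ (range L).filter (fun t => w t i j = some g), 2 ^ t)
    (fun g i hi => ?_) (fun j hj => ?_) fun j _ i _ g g' hne => land_sum_two_pow ?_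
  · simp only [sum_filter]
    rw [hrow g i hi, sum_comm]
    refine sum_congr rfl fun t ht => ?_
    obtain ⟨-, h2⟩ := hw t i (mem_range.1 ht) hi
    rw [← sum_filter, sum_const, smul_eq_mul]
    by_cases hg : g ∈ E t i
    · rw [if_pos hg, (h2 g hg).1, one_mul]
    · rw [if_neg hg, card_eq_zero.2 (filter_eq_empty_iff.2 fun j _ e => hg ?_), zero_mul]
      obtain ⟨h1, -⟩ := hw t i (mem_range.1 ht) hi
      obtain ⟨g0, hg0⟩ : (E t i).Nonempty := card_pos.1 (by
        rw [← hcard t (mem_range.1 ht) i hi]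
        exact card_pos.2 ⟨j, (h1 j).1 ⟨g, e⟩⟩)
      exact (h2 g0 hg0).2 j g e
  · simp only [sum_filter]
    rw [sum_comm, ← hB j hj]
    refine sum_congr rfl fun i hi => ?_
    rw [sum_comm]
    refine sum_congr rfl fun t ht => ?_
    obtain ⟨h1, -⟩ := hw t i (mem_range.1 ht) (mem_range.1 hi)
    rcases hwj : w t i j with _ | g
    · rw [if_neg fun hj' => by simpa [hwj] using (h1 j).2 hj']
      simp
    · rw [if_pos ((h1 j).1 ⟨g, hwj⟩)]
      simp
  · exact disjoint_left.2 fun t ht ht' => hne (Option.some_inj.1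
      ((mem_filter.1 ht).2.symm.trans (mem_filter.1 ht').2))

end Vale.Agent.P197.Full

end
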