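import Vale.Agent.P197.Full.Split
import Vale.Agent.P197.Full.Threshold

/-!
# P197: packing the columns of an arbitrary shape

Columns are taken greedily, singly or three at a time, and the blocks are poured into them one
after another. A block cut between two consecutive groups uses disjoint rows in them. The columns
left at the end dominate the remaining blocks by rows.
-/

noncomputable section

namespace Vale.Agent.P197.Full

namespace Pack

open Finset

/-- The first `j` parts of the staircase of size `q`. -/
def top (q j : ℕ) : ℕ := ∑ i ∈ range j, (q - i)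

/-- The size of the staircase. -/
def size (q : ℕ) : ℕ := top q q

theorem top_succ (q j : ℕ) : top (q + 1) j = top q j + min j (q + 1) := by
  induction j with
  | zero => simp [top]
  | succ j ih =>
    simp only [top, sum_range_succ] at ih ⊢
    omega

theorem top_cons (q j : ℕ) : top (q + 1) (j + 1) = (q + 1) + top q j := by
  simp only [top, sum_range_succ' _ j]
  simp only [Nat.sub_zero, Nat.succ_sub_succ_eq_sub]
  omega

theorem size_succ (q : ℕ) : size (q + 1) = (q + 1) + size q := top_cons q q

theorem top_of_le (q j : ℕ) (h : q ≤ j) : top q j = size q := by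
  induction j, h using Nat.le_induction with
  | base => rfl
  | succ j hj ih => rw [top, sum_range_succ, ← top, ih, Nat.sub_eq_zero_of_le hj, add_zero]

theorem sum_stair (q : ℕ) : (stairBlocks q).sum = size q := by
  induction q with
  | zero => rfl
  | succ q ih =>
    rw [size_succ, ← ih, stairBlocks, List.range_succ_eq_map]
    simp [stairBlocks, List.map_map, Function.comp_def]

theorem size_mono : Monotone size := monotone_nat_of_le_succ fun q => by rw [size_succ]; omega

theorem exists_rep : ∀ R : ℕ, ∃ p r, r ≤ p ∧ size p + r = R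
  | 0 => ⟨0, 0, le_rfl, rfl⟩
  | R + 1 => by
    obtain ⟨p, r, h, e⟩ := exists_rep R
    rcases lt_or_eq_of_le h with h | rfl
    · exact ⟨p, r + 1, h, by omega⟩
    · exact ⟨r + 1, 0, Nat.zero_le _, by rw [size_succ]; omega⟩

/-- A group: one column, or a column and two equal ones. -/
def unit (h b : ℕ) : List ℕ := if b = 0 then [h] else [h, b, b]

theorem sum_unit (h b : ℕ) : (unit h b).sum = h + 2 * b := by
  unfold unit; split <;> simp <;> omega

/-- The cells of a group in its first rows. -/
def cells (u : List ℕ) (n : ℕ) : ℕ := psum (rowSize u) n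

theorem cells_unit (h b n : ℕ) : cells (unit h b) n = min h n + 2 * min b n := by
  rw [cells, psum_rowSize]; unfold unit; split <;> simp <;> omega

theorem cells_succ (u : List ℕ) (i : ℕ) : cells u (i + 1) = cells u i + rowSize u i := by
  simp [cells, psum, sum_range_succ]

theorem cells_le (u : List ℕ) (i : ℕ) : cells u i ≤ u.sum := psum_rowSize_le u i

theorem cells_eq (u : List ℕ) (I : ℕ) (h : ∀ l ∈ u, l ≤ I) : cells u I = u.sum := sum_rowSize u I h

/-- The cells of row `i` among the first `x` cells of a group, read row by row. -/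
def seg (u : List ℕ) (x i : ℕ) : ℕ := min (cells u (i + 1)) x - min (cells u i) x

theorem seg_mono (u : List ℕ) (i : ℕ) : Monotone fun x => seg u x i := fun x y h => by
  have := cells_succ u i
  simp only [seg]
  omega

theorem sum_seg (u : List ℕ) (x I : ℕ) : ∑ i ∈ range I, seg u x i = min (cells u I) x := by
  induction I with
  | zero => simp [cells, psum]
  | succ I ih =>
    rw [sum_range_succ, ih, seg]
    have := cells_succ u I
    omega

/-- The cells of row `i` of a group which lie in block `k`, the group ending at position `R`. -/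
def share (u : List ℕ) (R k i : ℕ) : ℕ := seg u (R - size (k - 1)) i - seg u (R - size k) i

/-- The total of the groups from number `g` on, with `W` cells after them. -/
def start (gs : List (List ℕ)) (W g : ℕ) : ℕ := (gs.drop g).flatten.sum + W

theorem start_succ (gs : List (List ℕ)) (W g : ℕ) (hg : g < gs.length) :
    start gs W g = gs[g].sum + start gs W (g + 1) := by
  simp only [start, List.drop_eq_getElem_cons hg, List.flatten_cons, List.sum_append]
  omega

theorem start_anti (gs : List (List ℕ)) (W : ℕ) : Antitone (start gs W) :=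
  antitone_nat_of_succ_le fun g => by
    by_cases hg : g < gs.length
    · rw [start_succ gs W g hg]; omega
    · simp [start, List.drop_eq_nil_of_le (not_lt.1 hg),
        List.drop_eq_nil_of_le (show gs.length ≤ g + 1 by omega)]

/-- The conditions at the junction of two groups, the second ending at `R`. -/
def Link (a b : List ℕ) (R : ℕ) : Prop :=
  ∀ k, size (k - 1) < R → R < size k →
    R - size (k - 1) < b.sum ∧
      ∀ i, cells b i < R - size (k - 1) → cells a (i + 1) + (size k - R) ≤ a.sum

/-- All junctions are in order. -/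
def Fine (gs : List (List ℕ)) (W : ℕ) : Prop :=
  ∀ g, (hg : g + 1 < gs.length) → Link gs[g] gs[g + 1] (start gs W (g + 1))

theorem disjoint_of_fine {gs : List (List ℕ)} {W : ℕ} (hF : Fine gs W) {g g' : ℕ} (hlt : g < g')
    (hg' : g' < gs.length) (k i : ℕ) :
    share gs[g] (start gs W g) k i = 0 ∨ share gs[g'] (start gs W g') k i = 0 := by
  by_contra hne
  simp only [not_or] at hne
  obtain ⟨ha, hb⟩ := hne
  have h1 := start_succ gs W g (by omega)
  have h2 := cells_succ gs[g] i
  have h3 := cells_succ gs[g'] i
  have h4 := cells_le gs[g] (i + 1)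
  simp only [share, seg] at ha hb
  have := start_anti gs W (show g + 1 ≤ g' from hlt)
  have := size_mono (show k - 1 ≤ k by omega)
  have hlow : size (k - 1) < start gs W g' := by omega
  have hhigh : cells gs[g] (i + 1) + size k > gs[g].sum + start gs W (g + 1) := by omega
  obtain ⟨hv, hrow⟩ := hF g (by omega) k
    (hlow.trans_le (start_anti gs W hlt)) (by omega)
  rcases eq_or_lt_of_le (Nat.succ_le_of_lt hlt) with e | e
  · obtain rfl : g' = g + 1 := e.symm
    have := hrow i (by omega)
    omega
  · have := start_anti gs W (show g + 1 + 1 ≤ g' from e)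
    have := start_succ gs W (g + 1) (by omega)
    omega

theorem sum_min_start (W x : ℕ) : ∀ gs : List (List ℕ),
    ∑ g : Fin gs.length, min gs[g].sum (start gs W g - x) = gs.flatten.sum + W - max x W
  | [] => by simp
  | u :: gs => by
    have ih := sum_min_start W x gs
    rw [show ∑ g : Fin (u :: gs).length, min (u :: gs)[g].sum (start (u :: gs) W g - x) =
        ∑ g : Fin (gs.length + 1), min (u :: gs)[(g : ℕ)].sum (start (u :: gs) W g - x) from rfl,
      Fin.sum_univ_succ]
    simp only [Fin.val_zero, Fin.val_succ, List.getElem_cons_zero, List.getElem_cons_succ, start,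
      List.drop_zero, List.drop_succ_cons, List.flatten_cons, List.sum_append,
      Fin.getElem_fin] at ih ⊢
    rw [ih]
    omega

/-- Groups with all junctions in order can take the top blocks. -/
theorem good_groups (m p r : ℕ) (gs : List (List ℕ)) (hgs : ∀ c ∈ gs, AllGood c)
    (hp : p < m) (hr : r ≤ p) (hsum : gs.flatten.sum + (size p + r) = size m)
    (hF : Fine gs (size p + r)) : Good gs.flatten (topBlocks m (p + 1) ++ [p + 1 - r]) := by
  set W := size p + r with hW
  have hlen : (topBlocks m (p + 1) ++ [p + 1 - r]).length = m - p := by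
    simp [topBlocks]; omega
  have hI : ∀ l ∈ gs.flatten, l ≤ size m := fun l hl => by
    have := List.le_sum_of_mem hl; omega
  have hB : ∀ j < m - p, (topBlocks m (p + 1) ++ [p + 1 - r]).getD j 0 =
      size (m - j) - max (size (m - j - 1)) W := fun j hj => by
    have hsz := size_succ (m - j - 1)
    rw [show m - j - 1 + 1 = m - j by omega] at hsz
    rcases lt_or_eq_of_le (show j + 1 ≤ m - p by omega) with h | h
    · rw [List.getD_append _ _ _ _ (by simp [topBlocks]; omega), List.getD_eq_getElem _ _
        (by simp [topBlocks]; omega)]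
      simp only [topBlocks, List.getElem_map, List.getElem_range]
      have := size_mono (show p + 1 ≤ m - j - 1 by omega)
      have := size_succ p
      omega
    · rw [List.getD_append_right _ _ _ _ (by simp [topBlocks]; omega),
        show j - (topBlocks m (p + 1)).length = 0 by simp [topBlocks]; omega,
        show m - j - 1 = p by omega] at *
      have := size_succ p
      rw [show m - j = p + 1 by omega]
      simp
      omega
  refine Good.split gs hgs hI (fun j g i => share gs[g] (start gs W g) (m - j) i)
    (fun g i hi => ?_) (fun j hj => ?_) fun j _ i _ g g' hne => ?_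
  · rw [hlen]
    have h1 := start_succ gs W g g.isLt
    have h2 : start gs W g ≤ size m := (start_anti gs W (Nat.zero_le _)).trans (by
      simp only [start, List.drop_zero]; omega)
    have h3 : W ≤ start gs W (g + 1) := Nat.le_add_left _ _
    let f : ℕ → ℕ := fun j => seg gs[g] (start gs W g - size (m - j)) i
    have hf : Monotone f := fun a b hab => seg_mono _ i (by
      have := size_mono (show m - b ≤ m - a by omega); omega)
    rw [sum_congr rfl fun j _ => (show share gs[g] (start gs W g) (m - j) i = f (j + 1) - f j by
        simp only [share, f, Nat.sub_add_eq]), sum_range_tsub hf]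
    simp only [f, show m - (m - p) = p by omega, Nat.sub_zero, Nat.sub_eq_zero_of_le h2, seg]
    have h4 := cells_succ gs[g] i
    have h5 := cells_le gs[g] (i + 1)
    simp only [Fin.getElem_fin] at *
    omega
  · rw [hlen] at hj
    rw [hB j hj]
    have e : ∀ g : Fin gs.length, ∑ i ∈ range (size m), share gs[g] (start gs W g) (m - j) i =
        min gs[g].sum (start gs W g - size (m - j - 1)) -
          min gs[g].sum (start gs W g - size (m - j)) := fun g => by
      simp only [share]
      rw [sum_tsub_distrib _ fun i _ => seg_mono _ i (by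
          have := size_mono (show m - j - 1 ≤ m - j by omega); omega),
        sum_seg, sum_seg, cells_eq]
      exact fun l hl => hI l (List.mem_flatten.2 ⟨_, List.getElem_mem g.isLt, hl⟩)
    rw [sum_congr rfl fun g _ => e g, sum_tsub_distrib _ fun g _ => by
      have := size_mono (show m - j - 1 ≤ m - j by omega); omega,
      sum_min_start, sum_min_start]
    have := size_mono (show m - j ≤ m by omega)
    have := size_mono (show p + 1 ≤ m - j by omega)
    have := size_succ p
    omega
  · rcases lt_or_gt_of_ne (Fin.val_injective.ne hne) with h | h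
    · rcases disjoint_of_fine hF h g'.isLt (m - j) i with e | e <;> simp [e]
    · rcases disjoint_of_fine hF h g.isLt (m - j) i with e | e <;> simp [e]

/-- Domination of column prefixes turns into domination of rows. -/
theorem take_sum_le (k : ℕ) : ∀ (B : List ℕ) (i : ℕ),
    (B.take i).sum + (B.map fun b => min b k).sum ≤ i * k + B.sum
  | [], i => by simp
  | b :: B, 0 => by
    have := take_sum_le k B 0
    simp at this ⊢
    omega
  | b :: B, i + 1 => by
    have := take_sum_le k B i
    simp only [List.take_succ_cons, List.sum_cons, List.map_cons, Nat.succ_mul] at this ⊢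
    omega

theorem take_countP (i : ℕ) : ∀ c : List ℕ, c.Pairwise (fun a b => b ≤ a) →
    psum (rowSize c) i + (c.take (c.countP fun x => decide (i < x))).sum =
      i * (c.countP fun x => decide (i < x)) + c.sum
  | [], _ => by simp [psum, rowSize]
  | x :: c, h => by
    obtain ⟨h1, h2⟩ := List.pairwise_cons.1 h
    have ih := take_countP i c h2
    rw [psum_rowSize] at ih ⊢
    by_cases hx : i < x
    · simp [List.countP_cons, hx, Nat.mul_add] at ih ⊢
      omega
    · have h0 : c.countP (fun y => decide (i < y)) = 0 :=
        List.countP_eq_zero.2 fun y hy => by have := h1 y hy; simp; omega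
      simp [List.countP_cons, hx, h0] at ih ⊢
      omega

/-- The remaining columns dominate the blocks `1, …, p + 1` other than `p + 1 - r`. -/
def Stop (p r : ℕ) (c : List ℕ) : Prop :=
  ∀ j, (c.take j).sum + min j (p + 1 - r) ≤ top (p + 1) j

theorem sum_min_stair (q j : ℕ) : ((stairBlocks q).map fun b => min b j).sum = top q j := by
  induction q with
  | zero => simp [stairBlocks, top]
  | succ q ih =>
    rw [top_succ, ← ih, stairBlocks, List.range_succ_eq_map]
    simp only [List.map_cons, List.map_map, List.sum_cons, stairBlocks, Function.comp_def,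
      Nat.succ_sub_succ_eq_sub, Nat.sub_zero]
    omega

theorem good_stop {p r : ℕ} {c : List ℕ} (hr : r ≤ p) (hc : c.Pairwise fun a b => b ≤ a)
    (hs : c.sum = size p + r) (h : Stop p r c) :
    Good c ((stairBlocks (p + 1)).erase (p + 1 - r)) := by
  have hmem : p + 1 - r ∈ stairBlocks (p + 1) := mem_stair.2 ⟨by omega, by omega⟩
  have hperm := List.perm_cons_erase hmem
  have hsum : ((stairBlocks (p + 1)).erase (p + 1 - r)).sum = size p + r := by
    have := hperm.sum_eq
    rw [sum_stair, size_succ, List.sum_cons] at this
    omega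
  refine good_dom_rows (hs.trans hsum.symm)
    ((pairwise_stair _).imp (fun hab => hab.le) |>.sublist List.erase_sublist) fun i => ?_
  have h1 := take_countP i c hc
  set k := c.countP fun x => decide (i < x)
  have h2 := take_sum_le k ((stairBlocks (p + 1)).erase (p + 1 - r)) i
  have h3 := (hperm.map fun b => min b k).sum_eq
  rw [sum_min_stair, List.map_cons, List.sum_cons] at h3
  have h4 := h k
  omega

/-- Strictly decreasing numbers bounded by `K`. -/
theorem take_sum_top : ∀ (l : List ℕ) (K j : ℕ), l.Pairwise (fun a b => b < a) →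
    (∀ x ∈ l, x ≤ K) → (l.take j).sum ≤ top K j
  | [], K, j, _, _ => by simp
  | x :: l, K, 0, _, _ => by simp
  | x :: l, 0, j + 1, h, hK => by
    have hx := hK x (List.mem_cons_self ..)
    have : l = [] := List.eq_nil_iff_forall_not_mem.2 fun y hy =>
      Nat.not_lt_zero y (((List.pairwise_cons.1 h).1 y hy).trans_le hx)
    simp [this]
    omega
  | x :: l, K + 1, j + 1, h, hK => by
    obtain ⟨h1, h2⟩ := List.pairwise_cons.1 h
    have hx := hK x (List.mem_cons_self ..)
    have ih := take_sum_top l K j h2 fun y hy => by have := h1 y hy; omega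
    rw [List.take_succ_cons, List.sum_cons, top_cons]
    omega

/-- The first repeated value of a decreasing list. -/
theorem exists_repeat : ∀ l : List ℕ, l.Pairwise (fun a b => b ≤ a) →
    l.Pairwise (fun a b => b < a) ∨ ∃ pre post b, l = pre ++ b :: b :: post ∧
      pre.Pairwise (fun a b => b < a) ∧ (∀ x ∈ pre, b < x) ∧ ∀ x ∈ post, x ≤ b
  | [], _ => Or.inl List.Pairwise.nil
  | [x], _ => Or.inl (List.pairwise_singleton _ _)
  | x :: y :: l, h => by
    obtain ⟨h1, h2⟩ := List.pairwise_cons.1 h
    rcases eq_or_lt_of_le (h1 y (List.mem_cons_self ..)) with e | e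
    · exact Or.inr ⟨[], l, x, by simp [e], List.Pairwise.nil, by simp,
        fun z hz => h1 z (List.mem_cons_of_mem _ hz)⟩
    · have h3 : ∀ z ∈ y :: l, z < x := fun z hz => by
        rcases List.mem_cons.1 hz with rfl | hz
        · exact e
        · exact ((List.pairwise_cons.1 h2).1 z hz).trans_lt e
      rcases exists_repeat (y :: l) h2 with hl | ⟨pre, post, b, e', hpre, hb, hpost⟩
      · exact Or.inl (List.pairwise_cons.2 ⟨h3, hl⟩)
      · refine Or.inr ⟨x :: pre, post, b, by simp [e'],
          List.pairwise_cons.2 ⟨fun z hz => h3 z (e' ▸ List.mem_append_left _ hz), hpre⟩,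
          fun z hz => ?_, hpost⟩
        rcases List.mem_cons.1 hz with rfl | hz
        · exact h3 b (e' ▸ by simp)
        · exact hb z hz

theorem length_add_le : ∀ (l : List ℕ) (b K : ℕ), l.Pairwise (fun a b => b < a) →
    (∀ x ∈ l, b < x) → (∀ x ∈ l, x ≤ K) → b ≤ K → b + l.length ≤ K
  | [], _, _, _, _, _, h => by simpa using h
  | x :: l, b, K, h, hb, hK, _ => by
    obtain ⟨h1, h2⟩ := List.pairwise_cons.1 h
    have hx := hb x (List.mem_cons_self ..)
    have := length_add_le l b (x - 1) h2 (fun y hy => hb y (List.mem_cons_of_mem _ hy))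
      (fun y hy => by have := h1 y hy; omega) (by omega)
    have := hK x (List.mem_cons_self ..)
    simp only [List.length_cons]
    omega

theorem top_add (p a : ℕ) : ∀ e, 2 * top p a + e * (2 * p + 1) ≤
    2 * top p (a + e) + e * (2 * a + e)
  | 0 => by simp
  | e + 1 => by
    have ih := top_add p a e
    rw [← Nat.add_assoc]
    simp only [top, sum_range_succ] at ih ⊢
    nlinarith [Nat.sub_add_eq_max p (a + e), le_max_left p (a + e)]

/-- Outside the stopping case three columns suffice for a step. -/
theorem exists_triple {p r : ℕ} {x : ℕ} {l : List ℕ} (hc : (x :: l).Pairwise fun a b => b ≤ a)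
    (hpos : ∀ y ∈ x :: l, 0 < y) (hr : r ≤ p) (hs : (x :: l).sum = size p + r)
    (hstop : ¬ Stop p r (x :: l)) (hx : x ≤ p) (hsingle : r < p → ∀ y ∈ l, y < p) :
    ∃ pre post b, l = pre ++ b :: b :: post ∧ 0 < b ∧ b ≤ x ∧ p + 2 ≤ x + 2 * b ∧
      (∀ z, 2 ≤ (pre ++ post).count z → z ≤ b) := by
  obtain ⟨h1, h2⟩ := List.pairwise_cons.1 hc
  simp only [Stop, not_forall, not_le] at hstop
  obtain ⟨j, hj⟩ := hstop
  have hjp : j ≤ p := by
    by_contra hgt
    rw [top_of_le _ _ (by omega : p + 1 ≤ j), size_succ] at hj
    have : ((x :: l).take j).sum ≤ size p + r :=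
      hs ▸ (List.take_sublist _ _).sum_le_sum (by simp)
    omega
  obtain ⟨j, rfl⟩ : ∃ j', j = j' + 1 := Nat.exists_eq_add_of_le' (by
    by_contra h0
    obtain rfl : j = 0 := by omega
    simp at hj)
  obtain ⟨P, rfl⟩ : ∃ P, p = P + 1 := Nat.exists_eq_add_of_le' (by omega)
  rw [List.take_succ_cons, List.sum_cons, top_succ (P + 1), top_cons P j] at hj
  obtain ⟨K, hK, hKj⟩ : ∃ K, (∀ y ∈ l, y ≤ K) ∧
      ∀ n ≤ j, x + top K n + top (P + 1) (j + 1) ≤
        top (P + 1) (n + 1) + (x + (l.take j).sum - 1) := by
    by_cases h : r < P + 1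
    · refine ⟨P, fun y hy => Nat.lt_succ_iff.1 (hsingle h y hy), fun n _ => ?_⟩
      rw [top_cons P n, top_cons P j]
      omega
    · refine ⟨P + 1, fun y hy => (h1 y hy).trans hx, fun n hn => ?_⟩
      rw [top_succ P n, top_cons P n, top_cons P j]
      omega
  rcases exists_repeat l h2 with hl | ⟨pre, post, b, rfl, hpre, hb, hpost⟩
  · have := take_sum_top l K j hl hK
    have := hpos x (List.mem_cons_self ..)
    have := hKj j le_rfl
    omega
  have hbx : b + pre.length ≤ x := length_add_le pre b x hpre hb
    (fun y hy => h1 y (List.mem_append_left _ hy)) (h1 b (by simp))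
  have hpreK : ∀ n, (pre.take n).sum ≤ top K n := fun n =>
    take_sum_top pre K n hpre fun y hy => hK y (List.mem_append_left _ hy)
  have ha : pre.length < j := by
    by_contra hle
    have hle : j ≤ pre.length := by omega
    have := hKj j le_rfl
    rw [List.take_append_of_le_length hle] at this
    have := hpreK j
    have := hpos x (List.mem_cons_self ..)
    omega
  obtain ⟨e, rfl⟩ : ∃ e, j = pre.length + e := Nat.exists_eq_add_of_le ha.le
  have htail : ((b :: b :: post).take e).sum ≤ e * b := by
    refine (List.sum_le_card_nsmul _ b fun y hy => ?_).trans ?_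
    · have := List.mem_of_mem_take hy
      simp only [List.mem_cons] at this
      rcases this with rfl | rfl | h <;> first | exact le_rfl | exact hpost _ h
    · exact Nat.mul_le_mul_right b (by simp [List.length_take])
  have h5 := hKj pre.length (Nat.le_add_right _ _)
  rw [List.take_length_add_append, List.sum_append] at h5
  have h6 := hpreK pre.length
  rw [List.take_length] at h6
  have h7 := top_add (P + 1) (pre.length + 1) e
  rw [show pre.length + 1 + e = pre.length + e + 1 by omega] at h7
  refine ⟨pre, post, b, rfl, hpos b (by simp), by omega, ?_, fun z hz => ?_⟩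
  · have h8 : e * (2 * (P + 1) + 1) < e * (2 * b + 2 * (pre.length + 1) + e) := by
      have := hpos x (List.mem_cons_self ..)
      have : top (P + 1) (pre.length + e + 1) + 1 ≤ top (P + 1) (pre.length + 1) + e * b := by omega
      nlinarith
    have := Nat.lt_of_mul_lt_mul_left h8
    omega
  · by_contra hbz
    have h9 : post.count z = 0 := List.count_eq_zero.2 fun hm => hbz (hpost z hm)
    have : pre.Nodup := hpre.imp fun h => (ne_of_lt h).symm
    have := List.nodup_iff_count_le_one.1 this z
    rw [List.count_append, h9] at hz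
    omega

/-- What a group knows about the columns after it. -/
def Ctx (hA bA p : ℕ) (c : List ℕ) : Prop :=
  (∀ x ∈ c, x ≤ hA) ∧ (bA = 0 ∧ p + 1 ≤ hA ∨
    0 < bA ∧ bA ≤ hA ∧ p + 3 ≤ hA + 2 * bA ∧ ∀ z, 2 ≤ c.count z → z ≤ bA)

/-- The shares of a cut block lie in disjoint rows. -/
theorem link_unit {hA bA h b p r : ℕ} {c : List ℕ} (hctx : Ctx hA bA p c) (hh : h ∈ c)
    (hbh : b ≤ h) (hr : r ≤ p) (hv : r < h + 2 * b)
    (hcase : 0 < b ∧ p + 2 ≤ h + 2 * b ∨ b = 0 ∧ (p < h ∨ h = p ∧ r < p ∧ 2 ≤ c.count p)) :
    Link (unit hA bA) (unit h b) (size p + r) := by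
  intro k hk1 hk2
  obtain rfl : k = p + 1 := by
    have hk : p < k := by
      by_contra hle
      have := size_mono (not_lt.1 hle)
      omega
    by_contra hne
    have := size_mono (show p + 1 ≤ k - 1 by omega)
    have := size_succ p
    omega
  have e := size_succ p
  rw [show p + 1 - 1 = p from rfl] at *
  refine ⟨by rw [sum_unit]; omega, fun i hi => ?_⟩
  rw [cells_unit, sum_unit] at *
  have hhA := hctx.1 h hh
  rcases hctx.2 with ⟨rfl, hA'⟩ | ⟨h0, hle, hA', hdup⟩
  · omega
  · rcases hcase with ⟨hb0, hb⟩ | ⟨rfl, hb | ⟨rfl, hb, hd⟩⟩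
    · omega
    · omega
    · have := hdup _ hd
      omega

/-- The result of running the procedure. -/
structure Run (m p r : ℕ) (c : List ℕ) where
  gs : List (List ℕ)
  tail : List ℕ
  q : ℕ
  s : ℕ
  perm : (gs.flatten ++ tail).Perm c
  allGood : ∀ u ∈ gs, AllGood u
  hsq : s ≤ q
  hlt : gs ≠ [] → q < p
  heq : gs = [] → q = p ∧ s = r
  sorted : tail.Pairwise fun a b => b ≤ a
  tailSum : tail.sum = size q + s
  stop : Stop q s tail
  fine : Fine gs (size q + s)
  link : ∀ hA bA, Ctx hA bA p c → ∀ u ∈ gs.head?, Link (unit hA bA) u (size p + r)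

theorem allGood_unit {h b : ℕ} (hb : b ≤ h) : AllGood (unit h b) := by
  unfold unit
  split
  · exact allGood_one_column h
  · obtain ⟨k, rfl⟩ := Nat.exists_eq_add_of_le hb
    exact allGood_three b k

theorem exists_run (m : ℕ) : ∀ (n : ℕ) (c : List ℕ) (p r : ℕ), c.length ≤ n →
    c.Pairwise (fun a b => b ≤ a) → (∀ x ∈ c, 0 < x) → r ≤ p → c.sum = size p + r →
    Nonempty (Run m p r c) := by
  intro n
  induction n with
  | zero =>
    intro c p r hn hsort _ hr hs
    obtain rfl := List.length_eq_zero_iff.1 (Nat.le_zero.1 hn)
    have : p = 0 := by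
      by_contra h0
      obtain ⟨P, rfl⟩ := Nat.exists_eq_add_of_le' (Nat.one_le_iff_ne_zero.2 h0)
      rw [size_succ] at hs; simp at hs; omega
    subst this
    obtain rfl : r = 0 := by omega
    exact ⟨⟨[], [], 0, 0, .refl _, by simp, le_rfl, by simp, fun _ => ⟨rfl, rfl⟩, hsort, hs,
      fun j => by cases j <;> simp [top_cons], fun g hg => by simp at hg, by simp⟩⟩
  | succ n ih =>
    intro c p r hn hsort hpos hr hs
    by_cases hstop : Stop p r c
    · exact ⟨⟨[], c, p, r, .refl _, by simp, hr, by simp, fun _ => ⟨rfl, rfl⟩, hsort, hs, hstop,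
        fun g hg => by simp at hg, by simp⟩⟩
    rcases c with _ | ⟨x, l⟩
    · refine absurd (fun j => ?_) hstop
      cases j <;> simp [top_cons] <;> omega
    obtain ⟨h1, h2⟩ := List.pairwise_cons.1 hsort
    obtain ⟨b, rest, hperm, hsub, hbx, hv, hcase, hctx⟩ : ∃ b rest,
        (unit x b ++ rest).Perm (x :: l) ∧ rest.Sublist l ∧ b ≤ x ∧ r < x + 2 * b ∧
        (0 < b ∧ p + 2 ≤ x + 2 * b ∨
          b = 0 ∧ (p < x ∨ x = p ∧ r < p ∧ 2 ≤ (x :: l).count p)) ∧
        ∀ q, q < p → Ctx x b q rest := by
      by_cases hs1 : p < x ∨ x = p ∧ r < p ∧ p ∈ l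
      · refine ⟨0, l, by simp [unit], List.Sublist.refl _, Nat.zero_le _, by omega, Or.inr ⟨rfl, ?_⟩,
          fun q hq => ⟨h1, Or.inl ⟨rfl, by omega⟩⟩⟩
        rcases hs1 with h | ⟨rfl, h, hm⟩
        · exact Or.inl h
        · exact Or.inr ⟨rfl, h, by simpa using List.count_pos_iff.2 hm⟩
      · simp only [not_or, not_lt, not_and] at hs1
        obtain ⟨pre, post, b, rfl, hb0, hbx, hb, hdup⟩ := exists_triple hsort hpos hr hs hstop hs1.1
          fun hrp y hy => lt_of_le_of_ne ((h1 y hy).trans hs1.1) fun e =>
            hs1.2 (le_antisymm hs1.1 (e ▸ h1 y hy)) hrp (e ▸ hy)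
        refine ⟨b, pre ++ post, ?_, ?_, hbx, by omega, Or.inl ⟨hb0, hb⟩, fun q hq =>
          ⟨fun y hy => h1 y ?_, Or.inr ⟨hb0, hbx, by omega, hdup⟩⟩⟩
        · rw [unit, if_neg (by omega)]
          exact List.Perm.cons x (List.perm_append_comm_assoc [b, b] pre post)
        · exact (List.Sublist.refl pre).append ((List.sublist_cons_self b post).cons b)
        · rcases List.mem_append.1 hy with h | h <;> simp [h]
    have hsum : x + 2 * b + rest.sum = size p + r := by
      rw [← hs, ← hperm.sum_eq, List.sum_append, sum_unit]
    obtain ⟨p', r', hr', he⟩ := exists_rep rest.sum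
    have hp' : p' < p := by
      by_contra hle
      have := size_mono (not_lt.1 hle)
      omega
    have hlen : rest.length ≤ n := by have := hsub.length_le; simp at hn; omega
    obtain ⟨R⟩ := ih rest p' r' hlen (h2.sublist hsub)
      (fun y hy => hpos y (List.mem_cons_of_mem _ (hsub.subset hy))) hr' he.symm
    refine ⟨⟨unit x b :: R.gs, R.tail, R.q, R.s, ?_, ?_, R.hsq, fun _ => ?_, by simp, R.sorted,
      R.tailSum, R.stop, ?_, ?_⟩⟩
    · rw [List.flatten_cons, List.append_assoc]
      exact (R.perm.append_left _).trans hperm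
    · intro u hu
      rcases List.mem_cons.1 hu with rfl | hu
      · exact allGood_unit hbx
      · exact R.allGood u hu
    · rcases List.eq_nil_or_concat R.gs with e | ⟨l', a, e⟩
      · rw [(R.heq e).1]; exact hp'
      · exact (R.hlt (by simp [e])).trans hp'
    · intro g hg
      rcases g with _ | g
      · obtain ⟨v, gs', e⟩ := List.exists_cons_of_ne_nil (l := R.gs)
          (fun e => by simp [e] at hg)
        have e2 : start (unit x b :: R.gs) (size R.q + R.s) 1 = size p' + r' := by
          simp only [start, List.drop_succ_cons, List.drop_zero, ← R.tailSum,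
            ← List.sum_append, R.perm.sum_eq, he]
        simp only [List.getElem_cons_zero, List.getElem_cons_succ, e2]
        refine R.link x b (hctx p' hp') _ ?_
        simp [e]
      · simpa [start] using R.fine g (by simpa using hg)
    · intro hA bA hc u hu
      obtain rfl : unit x b = u := by simpa using hu
      exact link_unit hc (List.mem_cons_self ..) hbx hr hv hcase

end Pack

/-- The columns of every shape of the right size pack into the blocks `1, …, m`. -/
theorem good_packing (m : ℕ) (c : List ℕ) (hc : c.Pairwise fun a b => b ≤ a)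
    (hpos : ∀ x ∈ c, 0 < x) (hs : c.sum = (stairBlocks m).sum) : Good c (stairBlocks m) := by
  obtain ⟨⟨gs, tail, q, s, perm, hgood, hsq, hlt, heq, sorted, tailSum, stop, fine, -⟩⟩ :=
    Pack.exists_run m c.length c m 0 le_rfl hc hpos (Nat.zero_le _)
      (by rw [hs, Pack.sum_stair, Nat.add_zero])
  have htail := Pack.good_stop hsq sorted tailSum stop
  rcases eq_or_ne gs [] with e | e
  · obtain ⟨rfl, rfl⟩ := heq e
    refine htail.perm (by simpa [e] using perm) ?_
    rw [Nat.sub_zero, stairBlocks, List.range_succ_eq_map]
    simp [List.map_map, stairBlocks, Function.comp_def]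
  · have hq : q < m := hlt e
    have hsum : gs.flatten.sum + (Pack.size q + s) = Pack.size m := by
      rw [← tailSum, ← List.sum_append, perm.sum_eq, hs, Pack.sum_stair]
    refine ((Pack.good_groups m q s gs hgood hq hsq hsum fine).append htail).perm perm ?_
    rw [List.append_assoc, List.singleton_append, ← topBlocks_append (show q + 1 ≤ m from hq)]
    exact List.Perm.append_left _ (List.perm_cons_erase (mem_stair.2 ⟨by omega, by omega⟩)).symm

end Vale.Agent.P197.Full

end
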