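import Mathlib

/-!
# P197: parities of counts used to split a shape among blocks

Functions with fibres of prescribed sizes are counted by multinomial coefficients, which are odd
when the sizes add without carries in base two.
-/

namespace Vale.Agent.P197.Full

open Finset
open scoped Classical

/-- A binomial coefficient without a carry in base two is odd. -/
theorem odd_choose_add : ∀ {a b : ℕ}, a &&& b = 0 → Odd ((a + b).choose a) := by
  suffices key : ∀ n a b : ℕ, a + b = n → a &&& b = 0 → Odd ((a + b).choose a) from
    fun {a b} => key _ a b rfl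
  intro n
  induction n using Nat.strong_induction_on with
  | _ n ih =>
    intro a b hn hab
    rcases Nat.eq_zero_or_pos n with h0 | h0
    · have : a = 0 := by omega
      subst this; simp
    have hd : a / 2 &&& b / 2 = 0 := by rw [← Nat.and_div_two, hab]
    have hm : a % 2 + b % 2 ≤ 1 := by
      by_contra hc
      have h1 : (a &&& b).testBit 0 = true := by
        rw [Nat.testBit_land, Nat.testBit_zero, Nat.testBit_zero]
        simp
        omega
      rw [hab] at h1
      simp at h1
    have ih' := ih (a / 2 + b / 2) (by omega) (a / 2) (b / 2) rfl hd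
    have hl := Choose.choose_modEq_choose_mod_mul_choose_div_nat (n := a + b) (k := a) (p := 2)
    rw [show (a + b) / 2 = a / 2 + b / 2 by omega,
      show (a + b) % 2 = a % 2 + b % 2 by omega] at hl
    have h1 : (a % 2 + b % 2).choose (a % 2) = 1 := by
      rcases Nat.mod_two_eq_zero_or_one a with h | h <;>
        rcases Nat.mod_two_eq_zero_or_one b with h' | h' <;> simp [h, h'] at hm ⊢
    rw [h1, one_mul] at hl
    rw [Nat.odd_iff]
    have := Nat.odd_iff.1 ih'
    unfold Nat.ModEq at hl
    omega

/-- A sum of numbers without carries meets another number only where one of them does. -/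
theorem land_add_eq_zero {a b c : ℕ} (hbc : b &&& c = 0) (hab : a &&& b = 0) (hac : a &&& c = 0) :
    a &&& (b + c) = 0 := by
  induction a using Nat.strong_induction_on generalizing b c with
  | _ a ih =>
    rcases Nat.eq_zero_or_pos a with h | h
    · simp [h]
    have bit : ∀ x y : ℕ, x &&& y = 0 → (x / 2 &&& y / 2 = 0) ∧ (x % 2 = 0 ∨ y % 2 = 0) := by
      intro x y hxy
      refine ⟨by rw [← Nat.and_div_two, hxy], ?_⟩
      have h2 := congrArg (fun n => n.testBit 0) hxy
      simp [Nat.testBit_zero] at h2
      rcases Nat.mod_two_eq_zero_or_one x with hx | hx <;>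
        rcases Nat.mod_two_eq_zero_or_one y with hy | hy <;> simp_all
    obtain ⟨a1, a2⟩ := bit a b hab
    obtain ⟨b1, b2⟩ := bit a c hac
    obtain ⟨c1, c2⟩ := bit b c hbc
    have := ih (a / 2) (by omega) c1 a1 b1
    have hdiv : (b + c) / 2 = b / 2 + c / 2 := by omega
    apply Nat.eq_of_testBit_eq
    intro i
    cases i with
    | zero => simp [Nat.testBit_zero]; omega
    | succ i =>
      rw [Nat.testBit_succ, Nat.and_div_two, hdiv, this]
      simp

/-- A multinomial coefficient without carries in base two is odd. -/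
theorem odd_multinomial {ι : Type*} (s : Finset ι) (f : ι → ℕ)
    (h : ∀ i ∈ s, ∀ j ∈ s, i ≠ j → f i &&& f j = 0) : Odd (Nat.multinomial s f) := by
  suffices key : Odd (Nat.multinomial s f) ∧
      ∀ x : ℕ, (∀ i ∈ s, x &&& f i = 0) → x &&& ∑ i ∈ s, f i = 0 from key.1
  induction s using Finset.induction_on with
  | empty => simp
  | insert a s ha ih =>
    obtain ⟨ih1, ih2⟩ := ih fun i hi j hj =>
      h i (Finset.mem_insert_of_mem hi) j (Finset.mem_insert_of_mem hj)
    have hfa : f a &&& ∑ i ∈ s, f i = 0 := ih2 _ fun i hi =>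
      h a (Finset.mem_insert_self a s) i (Finset.mem_insert_of_mem hi) fun e => ha (e ▸ hi)
    refine ⟨?_, fun x hx => ?_⟩
    · rw [Nat.multinomial_insert ha]
      exact (odd_choose_add hfa).mul ih1
    · rw [Finset.sum_insert ha]
      exact land_add_eq_zero hfa (hx a (Finset.mem_insert_self a s))
        (ih2 x fun i hi => hx i (Finset.mem_insert_of_mem hi))

/-- Functions with fibres of bit-disjoint sizes are odd in number. -/
theorem odd_fibre_count {ι β : Type*} [Fintype ι] [Fintype β] (a : ι → ℕ)
    (hsum : ∑ g, a g = Fintype.card β) (hbit : ∀ g g', g ≠ g' → a g &&& a g' = 0) :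
    Odd #(univ.filter fun q : β → ι => ∀ g, #(univ.filter fun x => q x = g) = a g) := by
  have key : (∑ g, (MvPolynomial.X g : MvPolynomial ι ℕ)) ^ Fintype.card β =
      ∑ q : β → ι, MvPolynomial.monomial (∑ x, Finsupp.single (q x) 1) 1 := by
    rw [← card_univ, ← prod_const, Fintype.prod_sum]
    exact sum_congr rfl fun q _ => by rw [MvPolynomial.monomial_sum_one]; rfl
  have hpa : ∀ k : ι → ℕ, ∏ g, (MvPolynomial.X g : MvPolynomial ι ℕ) ^ k g =
      MvPolynomial.monomial (Finsupp.equivFunOnFinite.symm k) 1 := fun k => by
    rw [MvPolynomial.monomial_eq, map_one, one_mul, Finsupp.prod_fintype _ _ fun _ => pow_zero _]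
    simp
  rw [sum_pow_eq_sum_piAntidiag] at key
  replace key := congrArg (MvPolynomial.coeff (Finsupp.equivFunOnFinite.symm a)) key
  simp only [MvPolynomial.coeff_sum, hpa, ← MvPolynomial.C_eq_coe_nat, MvPolynomial.coeff_C_mul,
    MvPolynomial.coeff_monomial, mul_ite, mul_one, mul_zero, EmbeddingLike.apply_eq_iff_eq] at key
  rw [sum_ite_eq', if_pos (mem_piAntidiag.2 ⟨hsum, fun g _ => mem_univ g⟩), sum_boole] at key
  simp only [Nat.cast_id] at key
  convert odd_multinomial univ a fun g _ g' _ => hbit g g'
  rw [key]
  refine congrArg card (filter_congr fun q _ => ?_)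
  simp [Finsupp.ext_iff, Finsupp.single_apply, sum_boole]

/-- A function is a family of functions on the fibres of another. -/
def fibreFunctions {α ι G : Type*} (t : α → ι) : (α → G) ≃ ((i : ι) → {x // t x = i} → G) where
  toFun h i x := h x.1
  invFun k x := k (t x) ⟨x, rfl⟩
  left_inv h := rfl
  right_inv k := by funext i ⟨x, hx⟩; subst hx; rfl

/-- Counting inside a fibre. -/
theorem card_filter_subtype {α : Type*} [Fintype α] (p q : α → Prop) [DecidablePred p]
    [DecidablePred q] :
    #(univ.filter fun x : {x // p x} => q x.1) = #(univ.filter fun x => p x ∧ q x) :=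
  card_bij (fun x _ => x.1) (fun x hx => mem_filter.2 ⟨mem_univ _, x.2, (mem_filter.1 hx).2⟩)
    (fun _ _ _ _ e => Subtype.ext e)
    fun x hx => ⟨⟨x, (mem_filter.1 hx).2.1⟩, mem_filter.2 ⟨mem_univ _, (mem_filter.1 hx).2.2⟩, rfl⟩

/-- The number of functions with a bit-disjoint table of sizes over the fibres of `b` is odd. -/
theorem odd_table_count {ι β : Type*} [Fintype ι] [Fintype β] (J : ℕ) (b : β → Fin J)
    (a : Fin J → ι → ℕ) (hsum : ∀ j, ∑ g, a j g = #(univ.filter fun x => b x = j))
    (hbit : ∀ j g g', g ≠ g' → a j g &&& a j g' = 0) :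
    Odd #(univ.filter fun q : β → ι =>
      ∀ j g, #(univ.filter fun x => b x = j ∧ q x = g) = a j g) := by
  have e : #(univ.filter fun q : β → ι => ∀ j g, #(univ.filter fun x => b x = j ∧ q x = g) = a j g) =
      ∏ j, #(univ.filter fun q : {x // b x = j} → ι =>
        ∀ g, #(univ.filter fun x => q x = g) = a j g) := by
    rw [← Fintype.card_piFinset]
    refine card_equiv (fibreFunctions b) fun q => ?_
    simp only [mem_filter, mem_univ, true_and, Fintype.mem_piFinset]
    refine forall₂_congr fun j g => ?_
    have h := card_filter_subtype (fun x => b x = j) fun x => q x = g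
    exact ⟨fun H => h.trans H, fun H => h.symm.trans H⟩
  rw [e]
  refine prod_induction _ Odd (fun _ _ => Odd.mul) odd_one fun j _ => ?_
  have hs : ∑ g, a j g = Fintype.card {x // b x = j} := by rw [hsum, Fintype.card_subtype]
  refine (congrArg Odd (congrArg card ?_)).mpr (odd_fibre_count (a j) hs (hbit j))
  ext q
  simp

end Vale.Agent.P197.Full
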