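import Vale.Agent.P197.Full.Greedy
import Vale.Agent.P197.Full.Layers

/-!
# P197: greedy pieces are all-good
-/

noncomputable section

namespace Vale.Agent.P197.Full

open scoped Classical

/-- The order of the columns does not matter. -/
theorem AllGood.perm {c d : List ℕ} (h : AllGood c) (hp : c.Perm d) : AllGood d := by
  intro α _ S hS
  obtain ⟨T, hT, hr, hcol⟩ := hS.perm hp.symm
  obtain ⟨f, hf, hv⟩ := h α T hT
  refine ⟨f, ?_, fun t => (hv t).trans ?_⟩
  · rwa [Strip.specht, poly_congr hr hcol, ← Strip.specht] at hf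
  · simp only [rowSize_perm hp]

theorem pieceColsFrom_succ_perm : ∀ (t : ℕ) (p : List ℕ),
    (pieceColsFrom (t + 1) p).Perm (pieceColsFrom t p ++ pieceColsFrom t p)
  | _, [] => List.Perm.refl _
  | t, y :: p => by
    have ih := pieceColsFrom_succ_perm (t + 1) p
    rw [← Multiset.coe_eq_coe] at ih ⊢
    simp only [pieceColsFrom, ← Multiset.coe_add, Multiset.coe_replicate] at ih ⊢
    rw [ih, show 2 ^ (t + 1) = 2 ^ t + 2 ^ t by rw [pow_succ]; ring, Multiset.replicate_add]
    abel

/-- Both forms of a piece have the same columns. -/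
theorem pieceCols_perm_layerCols : ∀ p : List ℕ, (pieceCols p).Perm (layerCols p)
  | [] => List.Perm.refl _
  | y :: p => by
    have ih := pieceCols_perm_layerCols p
    have h := pieceColsFrom_succ_perm 0 p
    simp only [pieceCols, pieceColsFrom, layerCols, pow_zero, List.replicate_one,
      List.singleton_append] at ih h ⊢
    exact List.Perm.cons y (h.trans (ih.append ih))

/-- A greedy piece is all-good. -/
theorem allGood_pieceCols {p : List ℕ} (h : IsPiece p) : AllGood (pieceCols p) :=
  (allGood_layerCols p h.1).perm (pieceCols_perm_layerCols p).symm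

/-- Greedy pieces with an array which adds without carries make the staircase blocks good. -/
theorem good_of_array (m : ℕ) (c : List ℕ) (ps : List (List ℕ)) {I : ℕ}
    (hflat : ((ps.map pieceCols).flatten).Perm c) (hps : ∀ p ∈ ps, IsPiece p)
    (hI : ∀ p ∈ ps, p.getD 0 0 ≤ I) (A : ℕ → Fin ps.length → ℕ → ℕ)
    (hprof : ∀ g i, i < I → ∑ j ∈ Finset.range (stairBlocks m).length, A j g i =
      ∑ s ∈ Finset.range ps[g].length, if i < ps[g].getD s 0 then 2 ^ s else 0)
    (htot : ∀ j < (stairBlocks m).length,
      ∑ g, ∑ i ∈ Finset.range I, A j g i = (stairBlocks m).getD j 0)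
    (hbit : ∀ j < (stairBlocks m).length, ∀ i < I, ∀ g g', g ≠ g' →
      A j g i &&& A j g' i = 0) :
    Good c (stairBlocks m) := by
  have hlen : (ps.map pieceCols).length = ps.length := List.length_map ..
  refine (Good.split (ps.map pieceCols) ?_ (I := I) ?_ (fun j g i => A j (Fin.cast hlen g) i)
    (fun g i hi => ?_) (fun j hj => ?_) fun j hj i hi g g' h =>
      hbit j hj i hi _ _ fun e => h (Fin.cast_injective _ e)).perm hflat (List.Perm.refl _)
  · simp only [List.mem_map, forall_exists_index, and_imp, forall_apply_eq_imp_iff₂]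
    exact fun p hp => allGood_pieceCols (hps p hp)
  · intro l hl
    obtain ⟨_, hc, hlc⟩ := List.mem_flatten.1 hl
    obtain ⟨p, hp, rfl⟩ := List.mem_map.1 hc
    refine le_trans ?_ (hI p hp)
    have hmem : l ∈ layerCols p := (pieceCols_perm_layerCols p).mem_iff.1 hlc
    obtain ⟨y, p', rfl⟩ := List.exists_cons_of_ne_nil (l := p) (by rintro rfl; simp [layerCols] at hmem)
    exact mem_layerCols_le _ (fun z hz => by
      simp only [List.getD_cons_zero]
      rcases List.mem_cons.1 hz with rfl | hz
      · exact le_rfl
      · exact (List.pairwise_cons.1 (hps _ hp).1).1 z hz) l hmem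
  · simp only [hprof _ i hi, Fin.getElem_fin, List.getElem_map, rowSize_pieceCols, Fin.val_cast]
  · rw [← htot j hj]
    exact Fintype.sum_equiv (finCongr hlen) _ _ fun g => rfl

end Vale.Agent.P197.Full

end
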