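import Vale.Agent.P197.Full.Defs

/-!
# P197: the shapes `(3^r, 1^b)` are good for all blocks

Fix an order of the letters. Add the polytabloids of all labellings, one for each partition into
columns, whose last two columns alternate along the order. Modulo two this is the sum of all
tabloids: the number of alternating column choices of a tabloid is a sum over functional graphs on
the long rows, where a vertex without preimage and a two-cycle cancel over the choice in that row,
longer cycles cancel with their inverses, and the identity counts once.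
-/

noncomputable section

namespace Vale.Agent.P197.Full.Three

open Finset
open scoped Classical

/-- The sum over the two indices other than `a`, modulo two. -/
def red (g : Fin 3 → ZMod 2) (a : Fin 3) : ZMod 2 := (∑ s, g s) + g a

/-- Comparison modulo two. -/
def lt2 (u v : ℕ) : ZMod 2 := if u < v then 1 else 0

variable {ι : Type*}

/-- The interlacing of two reduced rows. -/
def cross (x : ι → Fin 3 → ℕ) (i : ι) (a : Fin 3) (j : ι) (b : Fin 3) : ZMod 2 :=
  red (fun t => red (fun s => lt2 (x i s) (x j t)) a) b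

lemma lt2_flip {u v : ℕ} (h : u ≠ v) : lt2 v u = lt2 u v + 1 := by
  rcases Nat.lt_or_gt_of_ne h with h | h <;> simp [lt2, h, h.not_gt]; decide

lemma red_sum {κ : Type*} (s : Finset κ) (g : κ → Fin 3 → ZMod 2) (a : Fin 3) :
    red (fun t => ∑ k ∈ s, g k t) a = ∑ k ∈ s, red (g k) a := by
  simp only [red, sum_add_distrib]
  rw [sum_comm]

lemma sum_red : ∀ g : Fin 3 → ZMod 2, ∑ a, red g a = 0 := by unfold red; decide

lemma red_succ : ∀ (g : Fin 3 → ZMod 2) a, red (fun s => g s + 1) a = red g a := by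
  unfold red; decide

variable {x : ι → Fin 3 → ℕ} (hx : Function.Injective fun p : ι × Fin 3 => x p.1 p.2)
include hx

lemma cross_self (i : ι) (a : Fin 3) : cross x i a i a = 1 := by
  have d : ∀ s t : Fin 3, s ≠ t → lt2 (x i t) (x i s) = lt2 (x i s) (x i t) + 1 := fun s t h =>
    lt2_flip fun e => h (congrArg Prod.snd (@hx (i, s) (i, t) e))
  have r : ∀ s, lt2 (x i s) (x i s) = 0 := fun s => if_neg (lt_irrefl _)
  simp only [cross, red, Fin.sum_univ_three]
  fin_cases a <;>
    simp only [Fin.isValue, Fin.zero_eta, Fin.mk_one, Fin.reduceFinMk, r, d 0 1 (by decide),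
      d 0 2 (by decide), d 1 2 (by decide)] <;>
    generalize lt2 (x i 0) (x i 1) = p <;> generalize lt2 (x i 0) (x i 2) = q <;>
    generalize lt2 (x i 1) (x i 2) = w <;> revert p q w <;> decide

lemma cross_comm (i j : ι) (a : ι → Fin 3) : cross x i (a i) j (a j) = cross x j (a j) i (a i) := by
  rcases eq_or_ne i j with rfl | h
  · rfl
  have e : ∀ s t, lt2 (x j t) (x i s) = lt2 (x i s) (x j t) + 1 := fun s t =>
    lt2_flip fun e => h (congrArg Prod.fst (@hx (i, s) (j, t) e))
  have sw : red (fun t => red (fun s => lt2 (x i s) (x j t)) (a i)) (a j) =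
      red (fun s => red (fun t => lt2 (x i s) (x j t)) (a j)) (a i) := by
    simp only [red, sum_add_distrib]
    rw [sum_comm]
    ring
  rw [cross, sw, cross]
  congr 1
  funext s
  simp only [e, red_succ]

omit hx in
lemma sum_cross (i j : ι) (b : Fin 3) : ∑ a, cross x i a j b = 0 := by
  unfold cross
  rw [← red_sum]
  simp only [sum_red]
  simp [red]

variable [Fintype ι] [DecidableEq ι]

/-- The term of one functional graph. -/
def term (x : ι → Fin 3 → ℕ) (τ : ι → ι) : ZMod 2 :=
  ∑ a : ι → Fin 3, ∏ i, cross x (τ i) (a (τ i)) i (a i)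

omit hx in
/-- A term vanishes if the choice in the row `k` is seen by one factor only. -/
lemma term_eq_zero {τ : ι → ι} (k l : ι) (R : (ι → Fin 3) → ZMod 2)
    (h : ∀ a c, ∏ i, cross x (τ i) (Function.update a k c (τ i)) i (Function.update a k c i) =
      cross x k c l (a l) * R a) :
    term x τ = 0 := by
  rw [term, ← (Equiv.funSplitAt k (Fin 3)).symm.sum_comp, Fintype.sum_prod_type, sum_comm]
  refine sum_eq_zero fun rest _ => ?_
  have e : ∀ c, (Equiv.funSplitAt k (Fin 3)).symm (c, rest) =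
      Function.update ((Equiv.funSplitAt k (Fin 3)).symm (0, rest)) k c := fun c => by
    funext j
    by_cases hj : j = k <;> simp [Equiv.funSplitAt, Equiv.piSplitAt, hj]
  refine Eq.trans (sum_congr rfl fun c _ => by rw [e c, h]) ?_
  simp only [← sum_mul, sum_cross, zero_mul]

/-- The number of alternating choices is odd. -/
theorem sum_prod_cross : ∑ a : ι → Fin 3, ∏ i, ∑ j, cross x j (a j) i (a i) = 1 := by
  have hns : ∀ τ, ¬ Function.Surjective τ → term x τ = 0 := fun τ hτ => by
    obtain ⟨k, hk⟩ : ∃ k, ∀ i, τ i ≠ k := by simpa [Function.Surjective] using hτ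
    refine term_eq_zero k (τ k)
      (fun a => ∏ i ∈ univ.erase k, cross x (τ i) (a (τ i)) i (a i)) fun a c => ?_
    rw [← mul_prod_erase univ _ (mem_univ k)]
    congr 1
    · rw [cross_comm hx, Function.update_self, Function.update_of_ne (hk k)]
    · exact prod_congr rfl fun i hi => by
        rw [Function.update_of_ne (hk i), Function.update_of_ne (ne_of_mem_erase hi)]
  have hinv : ∀ e : Equiv.Perm ι, e⁻¹ = e → e ≠ 1 → term x e = 0 := fun e he h1 => by
    obtain ⟨k, hk⟩ : ∃ k, e k ≠ k := by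
      by_contra hne
      exact h1 (Equiv.ext fun k => of_not_not fun h => hne ⟨k, h⟩)
    have hee : e (e k) = k := by nth_rw 1 [← he]; simp
    refine term_eq_zero k (e k)
      (fun a => ∏ i ∈ (univ.erase k).erase (e k), cross x (e i) (a (e i)) i (a i)) fun a c => ?_
    rw [← mul_prod_erase univ _ (mem_univ k),
      ← mul_prod_erase (univ.erase k) _ (mem_erase.2 ⟨hk, mem_univ _⟩), ← mul_assoc]
    congr 1
    · have sq : ∀ z : ZMod 2, z * z = z := by decide
      rw [hee, cross_comm hx (e k) k, Function.update_self, Function.update_of_ne hk, sq]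
    · refine prod_congr rfl fun i hi => ?_
      obtain ⟨h2, h3, -⟩ : i ≠ e k ∧ i ≠ k ∧ i ∈ univ := by simpa using hi
      rw [Function.update_of_ne h3,
        Function.update_of_ne fun h => h2 (e.injective (h.trans hee.symm))]
  have hsymm : ∀ e : Equiv.Perm ι, term x ⇑e⁻¹ = term x e := fun e => sum_congr rfl fun a _ => by
    rw [← Equiv.prod_comp e]
    refine prod_congr rfl fun i _ => ?_
    rw [cross_comm hx]
    simp
  simp only [Fintype.prod_sum]
  rw [sum_comm]
  show ∑ τ, term x τ = 1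
  rw [← Fintype.sum_of_injective (fun e : Equiv.Perm ι => ⇑e) Equiv.coe_fn_injective
    (fun e => term x e) (term x) (fun τ hτ => hns τ fun hs => hτ
      ⟨Equiv.ofBijective τ ⟨Finite.injective_iff_surjective.2 hs, hs⟩, rfl⟩) fun _ => rfl,
    ← add_sum_erase univ _ (mem_univ (1 : Equiv.Perm ι))]
  have h3 : (3 : ZMod 2) = 1 := rfl
  rw [show term x ⇑(1 : Equiv.Perm ι) = 1 by simp [term, cross_self hx, h3]]
  refine add_eq_left.2 (sum_involution (fun e _ => e⁻¹) (fun e _ => ?_)
    (fun e he h h' => h (hinv e h' (ne_of_mem_erase he))) (fun e he => by simpa using he)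
    fun e _ => inv_inv e)
  rw [hsymm, ← two_mul, show (2 : ZMod 2) = 0 from rfl, zero_mul]

omit hx

variable {α : Type*} [Fintype α] {r b : ℕ}

lemma lt_getD {i j : ℕ} :
    i < [r + b, r, r].getD j 0 ↔ i < r ∧ j < 3 ∨ r ≤ i ∧ i < r + b ∧ j = 0 := by
  match j with
  | 0 => simp; omega
  | 1 => simp
  | 2 => simp
  | j + 3 => simp

/-- The column of a letter, as a colour. -/
def colour (S : α → ℕ × ℕ) (x : α) : Fin 3 := Fin.ofNat 3 (S x).2

/-- The parity of the number of coloured letters before `x`. -/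
def rank2 (κ : α → Fin 3) (x : α) : ZMod 2 :=
  ∑ z, if κ z = 0 then 0 else lt2 (Fintype.equivFin α z) (Fintype.equivFin α x)

/-- Outside the first column the colours alternate along the order. -/
def Alt (κ : α → Fin 3) : Prop := ∀ x, κ x ≠ 0 → κ x = if rank2 κ x = 0 then 1 else 2

/-- The rows `t` and the columns `κ` fill the shape. -/
def Fills (r b : ℕ) (t : α → ℕ) (κ : α → Fin 3) : Prop :=
  IsLab (fun x => (t x, (κ x : ℕ))) [r + b, r, r]

/-- The colour of a place, given the first column and the parities. -/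
def col (a : Fin 3) (ρ : Fin 3 → ZMod 2) (s : Fin 3) : Fin 3 :=
  if s = a then 0 else if ρ s = 0 then 1 else 2

lemma bijective_col : ∀ (a : Fin 3) (ρ : Fin 3 → ZMod 2),
    Function.Bijective (col a ρ) ↔ red ρ a = 1 := by
  unfold red col; decide

lemma exists_zero : ∀ k : Fin 3 → Fin 3, Function.Bijective k → ∃ a, ∀ s, k s = 0 ↔ s = a := by
  decide

lemma sum_ite_red : ∀ (g : Fin 3 → ZMod 2) (a : Fin 3),
    (∑ s, if s = a then 0 else g s) = red g a := by
  unfold red; decide

/-- Every tabloid of the shape is filled by an odd number of alternating colourings. -/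
theorem odd_fills {W : α → ℕ × ℕ} (hW : IsLab W [r + b, r, r]) :
    Odd #((univ : Finset (α → Fin 3)).filter fun κ =>
      Alt κ ∧ Fills r b (fun x => (W x).1) κ) := by
  set cell : (Fin r × Fin 3) ⊕ Fin b → ℕ × ℕ :=
    Sum.elim (fun p => ((p.1 : ℕ), (p.2 : ℕ))) fun k => (r + k, 0) with hcell
  have hpre : ∀ p, ∃ x, W x = cell p := fun p => (hW.2 _).2 (mem_colCells.2 (lt_getD.2 (by
    rcases p with p | k <;> simp [hcell])))
  choose f hf using hpre
  have hci : Function.Injective cell := by
    rintro (⟨i, s⟩ | k) (⟨j, u⟩ | l) h <;> simp [hcell] at h ⊢ <;> omega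
  obtain ⟨e, he⟩ : ∃ e : (Fin r × Fin 3) ⊕ Fin b ≃ α, ∀ p, W (e p) = cell p :=
    ⟨Equiv.ofBijective f ((Fintype.bijective_iff_injective_and_card f).2
      ⟨fun p q h => hci (by rw [← hf, ← hf, h]), by rw [hW.card_eq]; simp; omega⟩), hf⟩
  let y : Fin r → Fin 3 → ℕ := fun j s => Fintype.equivFin α (e (.inl (j, s)))
  have hy : Function.Injective fun p : Fin r × Fin 3 => y p.1 p.2 := fun p q h =>
    Sum.inl_injective (e.injective ((Fintype.equivFin α).injective (Fin.ext h)))
  let ρ : (Fin r → Fin 3) → ℕ → ZMod 2 := fun a v => ∑ j, red (fun t => lt2 (y j t) v) (a j)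
  let mk : (Fin r → Fin 3) → α → Fin 3 := fun a x =>
    Sum.elim (fun p => col (a p.1) (fun s => ρ a (y p.1 s)) p.2) (fun _ => 0) (e.symm x)
  have hmk : ∀ a j s, mk a (e (.inl (j, s))) = 0 ↔ s = a j := fun a j s => by
    simp only [mk, Equiv.symm_apply_apply, Sum.elim_inl, col]
    split_ifs <;> simp_all
  have hrank : ∀ (κ : α → Fin 3) (a : Fin r → Fin 3),
      (∀ j s, κ (e (.inl (j, s))) = 0 ↔ s = a j) → (∀ k, κ (e (.inr k)) = 0) →
      ∀ v, rank2 κ v = ρ a (Fintype.equivFin α v) := fun κ a h h0 v => by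
    rw [rank2, ← e.sum_comp, Fintype.sum_sum_type, Fintype.sum_prod_type]
    simp only [h, h0, if_pos, sum_const_zero, add_zero, sum_ite_red, ρ, y]
  have hiff : ∀ κ : α → Fin 3, Fills r b (fun x => (W x).1) κ ↔
      (∀ i, Function.Bijective fun s => κ (e (.inl (i, s)))) ∧ ∀ k, κ (e (.inr k)) = 0 := by
    intro κ
    refine ⟨fun h => ⟨fun i => Finite.injective_iff_bijective.1 fun s s' hs => ?_, fun k => ?_⟩,
      fun ⟨h, h0⟩ => ⟨fun p q hpq => ?_, fun ⟨i, j⟩ => ?_⟩⟩
    · have := h.1 (a₁ := e (.inl (i, s))) (a₂ := e (.inl (i, s'))) (Prod.ext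
        (by simp [he, hcell]) (congrArg Fin.val hs))
      simpa using this
    · have := lt_getD.1 (h.row_lt (e (.inr k)))
      simp [he, hcell] at this
      exact this
    · obtain ⟨⟨i, s⟩ | k, rfl⟩ := e.surjective p <;> obtain ⟨⟨j, u⟩ | l, rfl⟩ := e.surjective q <;>
        simp [he, hcell] at hpq ⊢
      · obtain rfl : i = j := Fin.ext hpq.1
        exact ⟨rfl, (h i).injective (Fin.ext hpq.2)⟩
      all_goals omega
    · rw [mem_colCells, lt_getD]
      constructor
      · rintro ⟨x, hx⟩
        obtain ⟨p | k, rfl⟩ := e.surjective x <;> simp [he, hcell, h0] at hx <;> omega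
      · rintro (⟨hu, hv⟩ | ⟨hu, hu', hv⟩) <;> simp only at *
        · obtain ⟨s, hs⟩ := (h ⟨i, hu⟩).surjective ⟨j, hv⟩
          exact ⟨e (.inl (⟨i, hu⟩, s)), by simp [he, hcell, show _ = _ from hs]⟩
        · exact ⟨e (.inr ⟨i - r, by omega⟩), by simp [he, hcell, h0]; omega⟩
  have hfil : ∀ a, Fills r b (fun x => (W x).1) (mk a) ↔
      ∀ i, ∑ j, cross y j (a j) i (a i) = 1 := fun a => by
    have hred : ∀ i, red (fun s => ρ a (y i s)) (a i) = ∑ j, cross y j (a j) i (a i) :=
      fun i => red_sum univ _ _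
    rw [hiff]
    simp only [← hred, ← bijective_col]
    simp [mk]
  rw [← card_bij (fun a (_ : a ∈ univ.filter fun a : Fin r → Fin 3 =>
      ∀ i, ∑ j, cross y j (a j) i (a i) = 1) => mk a) (fun a ha => ?_) (fun a _ a' _ h => ?_)
      fun κ hκ => ?_, ← ZMod.natCast_eq_one_iff_odd]
  · refine Eq.trans ?_ (sum_prod_cross hy)
    rw [← sum_boole]
    refine sum_congr rfl fun a _ => ?_
    split_ifs with h
    · exact (prod_eq_one fun i _ => h i).symm
    · simp only [not_forall] at h
      obtain ⟨i, hi⟩ := h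
      exact (prod_eq_zero (mem_univ i) ((by decide : ∀ z : ZMod 2, z ≠ 1 → z = 0) _ hi)).symm
  · simp only [mem_filter, mem_univ, true_and] at ha ⊢
    refine ⟨fun x hx => ?_, (hfil a).2 ha⟩
    obtain ⟨⟨j, s⟩ | k, rfl⟩ := e.surjective x
    · have hs : s ≠ a j := fun h => hx ((hmk a j s).2 h)
      rw [hrank _ a (hmk a) (fun k => by simp [mk])]
      simp [mk, col, hs, y]
    · simp [mk] at hx
  · funext j
    have := (hmk a j (a j)).2 rfl
    rw [h, hmk] at this
    exact this
  · simp only [mem_filter, mem_univ, true_and] at hκ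
    obtain ⟨hb, h0⟩ := (hiff κ).1 hκ.2
    choose a ha using fun i => exists_zero _ (hb i)
    have e' : mk a = κ := funext fun x => by
      obtain ⟨⟨j, s⟩ | k, rfl⟩ := e.surjective x
      · rcases eq_or_ne s (a j) with hs | hs
        · rw [(hmk a j s).2 hs, (ha j s).2 hs]
        · rw [hκ.1 _ fun h => hs ((ha j s).1 h), hrank κ a ha h0]
          simp [mk, col, hs, y]
      · simp [mk, h0]
    exact ⟨a, mem_filter.2 ⟨mem_univ _, (hfil a).1 (e' ▸ hκ.2)⟩, e'⟩

lemma exists_perm {S L : α → ℕ × ℕ} {c : List ℕ} (hS : IsLab S c) (hL : IsLab L c) :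
    ∃ g : Equiv.Perm α, L = S ∘ g := by
  choose y hy using fun x => (hS.2 (L x)).2 ((hL.2 _).1 ⟨x, rfl⟩)
  exact ⟨Equiv.ofBijective y (Finite.injective_iff_bijective.1
    fun u v e => hL.1 (by rw [← hy, ← hy, e])), funext fun x => (hy x).symm⟩

/-- Renaming the letters translates the polytabloid. -/
lemma poly_comp (S : α → ℕ × ℕ) (g : Equiv.Perm α) (t : α → ℕ) :
    Strip.poly (S ∘ g) t = Strip.poly S (t ∘ ⇑g⁻¹) := by
  refine sum_nbij' (fun c => g * c * g⁻¹) (fun c => g⁻¹ * c * g) (fun c hc => ?_) (fun c hc => ?_)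
    (fun c _ => by group) (fun c _ => by group) fun c _ => ?_
  · exact Strip.mem_colPerms.2 fun x => by simpa using Strip.mem_colPerms.1 hc (g⁻¹ x)
  · exact Strip.mem_colPerms.2 fun x => by simpa using Strip.mem_colPerms.1 hc (g x)
  · refine if_congr ⟨fun h => funext fun x => by simp [h],
      fun h => funext fun x => by simpa using congrFun h (g x)⟩ (by
      rw [Strip.sgn, Strip.sgn, map_mul, map_mul, map_inv, mul_right_comm, mul_inv_cancel,
        one_mul]) rfl

/-- An integral vector of the Specht module is, modulo two, the sum of all tabloids. -/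
theorem exists_all {S : α → ℕ × ℕ} (hS : IsLab S [r + b, r, r]) :
    ∃ f : (α → ℕ) → ℤ, (fun t => (f t : ℂ)) ∈ Strip.specht S ∧
      ∀ t, (f t : ZMod 2) = if ∃ g : Equiv.Perm α, t = fun x => (S (g x)).1 then 1 else 0 := by
  set P : (α → ℕ) → Prop := fun t => ∃ g : Equiv.Perm α, t = fun x => (S (g x)).1 with hP
  set K := (univ : Finset (α → Fin 3)).filter fun κ =>
    Alt κ ∧ ∃ L, IsLab L [r + b, r, r] ∧ colour L = κ
  choose L hL hLκ using fun κ : {κ // κ ∈ K} => (mem_filter.1 κ.2).2.2
  let pz : (α → ℕ × ℕ) → (α → ℕ) → ℤ := fun L t =>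
    ∑ c ∈ Strip.colPerms L, if t = fun x => (L (c x)).1 then (Equiv.Perm.sign c : ℤ) else 0
  have hcol : ∀ {L : α → ℕ × ℕ}, IsLab L [r + b, r, r] → ∀ x, (colour L x : ℕ) = (L x).2 :=
    fun hL x => Nat.mod_eq_of_lt (hL.col_lt x)
  have hpz : ∀ L : α → ℕ × ℕ, IsLab L [r + b, r, r] → ∀ t,
      (pz L t : ZMod 2) = if Fills r b t (colour L) then 1 else 0 := by
    intro L hL t
    have hs : ∀ c : Equiv.Perm α, ((Equiv.Perm.sign c : ℤ) : ZMod 2) = 1 := fun c => by
      rcases Int.units_eq_one_or (Equiv.Perm.sign c) with h | h <;> rw [h] <;> decide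
    have huniq : ∀ c ∈ Strip.colPerms L, (t = fun x => (L (c x)).1) →
        L ∘ c = fun x => (t x, (colour L x : ℕ)) := fun c hc ht => funext fun x =>
      Prod.ext (congrFun ht x).symm (by rw [hcol hL]; exact Strip.mem_colPerms.1 hc x)
    simp only [pz, Int.cast_sum, Int.cast_ite, Int.cast_zero, hs]
    split_ifs with hf
    · obtain ⟨g, hg⟩ := exists_perm hL hf
      have hg1 : ∀ x, L (g x) = (t x, (colour L x : ℕ)) := fun x => (congrFun hg x).symm
      rw [sum_eq_single_of_mem g (Strip.mem_colPerms.2 fun x => by rw [hg1, hcol hL])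
        fun c hc hne => if_neg fun ht => hne (Equiv.ext fun x => hL.1
          ((congrFun (huniq c hc ht) x).trans (hg1 x).symm)),
        if_pos (funext fun x => by rw [hg1])]
    · refine sum_eq_zero fun c hc => if_neg fun ht => hf ?_
      rw [Fills, ← huniq c hc ht]
      exact ⟨hL.1.comp c.injective, fun p => by rw [EquivLike.range_comp]; exact hL.2 p⟩
  have hv2 : ∀ t, ((∑ κ ∈ K.attach, pz (L κ) t : ℤ) : ZMod 2) = if P t then 1 else 0 := by
    intro t
    simp only [Int.cast_sum, hpz _ (hL _), hLκ]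
    rw [sum_attach K (fun κ => if Fills r b t κ then (1 : ZMod 2) else 0), sum_boole,
      show K.filter (fun κ => Fills r b t κ) = univ.filter fun κ => Alt κ ∧ Fills r b t κ from
        ext fun κ => by
          simp only [K, mem_filter, mem_univ, true_and]
          exact ⟨fun h => ⟨h.1.1, h.2⟩, fun h => ⟨⟨h.1, _, h.2,
            funext fun x => Fin.ext (Nat.mod_eq_of_lt (κ x).is_lt)⟩, h.2⟩⟩]
    split_ifs with ht
    · obtain ⟨g, rfl⟩ := ht
      exact ZMod.natCast_eq_one_iff_odd.2 (odd_fills (W := S ∘ g)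
        ⟨hS.1.comp g.injective, fun p => by rw [EquivLike.range_comp]; exact hS.2 p⟩)
    · rw [filter_false_of_mem fun κ _ hκ => ht ?_]
      · simp
      · obtain ⟨g, hg⟩ := exists_perm hS hκ.2
        exact ⟨g, funext fun x => congrArg Prod.fst (congrFun hg x)⟩
  refine ⟨fun t => ∑ κ ∈ K.attach, pz (L κ) t, ?_, hv2⟩
  have : (fun t => ((∑ κ ∈ K.attach, pz (L κ) t : ℤ) : ℂ)) =
      ∑ κ ∈ K.attach, Strip.poly (L κ) := by
    funext t
    simp [pz, Finset.sum_apply, Strip.poly, Strip.sgn]
  rw [this]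
  refine sum_mem fun κ _ => ?_
  obtain ⟨g, hg⟩ := exists_perm hS (hL κ)
  exact hg ▸ Submodule.subset_span ⟨g⁻¹, funext fun t => (poly_comp S g t).symm⟩

/-- The shape with columns `r + b, r, r` is good for all blocks. -/
theorem good_three (r b : ℕ) (B : List ℕ) (h : B.sum = 3 * r + b) : Good [r + b, r, r] B := by
  refine ⟨by simp [h]; omega, fun α _ S bl hS _ => ?_⟩
  obtain ⟨f, hf, hv⟩ := exists_all hS
  refine ⟨f, hf, fun g _ t => ?_, fun x => (S x).1, fun hdvd => ?_⟩
  · refine (ZMod.intCast_zmod_eq_zero_iff_dvd _ 2).1 ?_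
    rw [Int.cast_sub, hv, hv, sub_eq_zero]
    refine if_congr ⟨fun ⟨k, hk⟩ => ⟨k * g⁻¹, funext fun x => ?_⟩,
      fun ⟨k, hk⟩ => ⟨k * g, funext fun x => by simp [hk]⟩⟩ rfl rfl
    simpa using congrFun hk (g⁻¹ x)
  · have := (ZMod.intCast_zmod_eq_zero_iff_dvd _ 2).2 hdvd
    rw [hv, if_pos ⟨1, by simp⟩] at this
    exact one_ne_zero this

end Vale.Agent.P197.Full.Three

end
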