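import Vale.Agent.P197.Full.Good
import Vale.Agent.P197.Full.BaseLine
import Vale.Agent.P197.Full.Three
import Vale.Agent.P197.Full.Parity

/-!
# P197: splitting a shape into pieces that share blocks

A piece is all-good if the sum of all its tabloids lies, modulo two, in its Specht module. A shape
made of all-good pieces is good for blocks as soon as the cells of each row of each piece can be
divided among the blocks so that, within one row and one block, the pieces add without carries.
-/

noncomputable section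

namespace Vale.Agent.P197.Full

open Finset
open scoped Classical

/-- The sum of all tabloids of the shape `c` lies in the Specht module modulo two. -/
def AllGood (c : List ℕ) : Prop :=
  ∀ (α : Type) [Fintype α] (S : α → ℕ × ℕ), IsLab S c →
    ∃ f : (α → ℕ) → ℤ, (fun t => (f t : ℂ)) ∈ Strip.specht S ∧
      ∀ t, (f t : ZMod 2) = if ∀ i, #(univ.filter fun x => t x = i) = rowSize c i then 1 else 0

variable {α : Type} [Fintype α] {c : List ℕ}

theorem sum_rowSize (c : List ℕ) (I : ℕ) (h : ∀ l ∈ c, l ≤ I) :
    ∑ i ∈ range I, rowSize c i = c.sum := by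
  induction c with
  | nil => simp [rowSize]
  | cons l c ih =>
    have hl : #((range I).filter fun i => i < l) = l := by
      rw [show (range I).filter (fun i => i < l) = range l from ext fun i => by
        have := h l (List.mem_cons_self ..)
        simp only [mem_filter, mem_range]
        omega, card_range]
    have ih' := ih fun x hx => h x (List.mem_cons_of_mem _ hx)
    unfold rowSize at ih' ⊢
    simp only [List.countP_cons, decide_eq_true_eq, sum_add_distrib, sum_boole, Nat.cast_id, ih',
      hl, List.sum_cons]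
    omega

theorem rowSize_eq_zero {c : List ℕ} {i : ℕ} (h : ∀ l ∈ c, l ≤ i) : rowSize c i = 0 :=
  List.countP_eq_zero.2 fun l hl => by simpa using h l hl

/-- A set with the row counts of a shape has the size of the shape. -/
theorem card_eq_of_rowSize (p : α → Prop) (t : α → ℕ)
    (h : ∀ i, #(univ.filter fun x => p x ∧ t x = i) = rowSize c i) :
    #(univ.filter p) = c.sum := by
  have hl : ∀ l ∈ c, l ≤ c.sum := fun l hl => List.le_sum_of_mem hl
  rw [← sum_rowSize c _ hl, card_eq_sum_card_fiberwise (f := t) (t := range c.sum) fun x hx => ?_]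
  · simp only [filter_filter, h]
  · rw [mem_coe, mem_range]
    by_contra hlt
    have := h (t x)
    rw [rowSize_eq_zero fun l hl' => (hl l hl').trans (not_lt.1 hlt), card_eq_zero] at this
    exact eq_empty_iff_forall_notMem.1 this x
      (mem_filter.2 ⟨mem_univ _, (mem_filter.1 (mem_coe.1 hx)).2, rfl⟩)

/-- Being a rearrangement of the row coordinates is a condition on row counts. -/
theorem exists_perm_iff_rowSize {S : α → ℕ × ℕ} (hS : IsLab S c) (t : α → ℕ) :
    (∃ g : Equiv.Perm α, t = fun x => (S (g x)).1) ↔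
      ∀ i, #(univ.filter fun x => t x = i) = rowSize c i := by
  have hS' : ∀ i, #(univ.filter fun x => (S x).1 = i) = rowSize c i := fun i => by
    rw [← rowSize_eq_card, ← hS.image_univ, filter_image, card_image_of_injective _ hS.1]
  constructor
  · rintro ⟨g, rfl⟩ i
    rw [← hS' i]
    exact card_equiv g fun x => by simp
  · intro h
    have key : ∀ i, {x // t x = i} ≃ {x // (S x).1 = i} := fun i =>
      Fintype.equivOfCardEq (by rw [Fintype.card_subtype, Fintype.card_subtype, h i, hS' i])
    exact ⟨Equiv.ofFiberEquiv key, funext fun x => (Equiv.ofFiberEquiv_map key x).symm⟩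

theorem AllGood.good (h : AllGood c) {B : List ℕ} (hs : c.sum = B.sum) : Good c B := by
  refine ⟨hs, fun α _ S b hS _ => ?_⟩
  obtain ⟨f, hf, hv⟩ := h α S hS
  refine ⟨f, hf, fun g _ t => (ZMod.intCast_zmod_eq_zero_iff_dvd _ 2).1 ?_, fun x => (S x).1,
    fun hdvd => ?_⟩
  · rw [Int.cast_sub, hv, hv, sub_eq_zero]
    refine if_congr (forall_congr' fun i => ?_) rfl rfl
    rw [card_equiv g (t := univ.filter fun x => t x = i) fun x => by simp]
  · have := (ZMod.intCast_zmod_eq_zero_iff_dvd _ 2).2 hdvd
    rw [hv, if_pos ((exists_perm_iff_rowSize hS _).1 ⟨1, by simp⟩)] at this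
    exact one_ne_zero this

theorem allGood_three (r b : ℕ) : AllGood [r + b, r, r] := fun α _ S hS => by
  obtain ⟨f, hf, hv⟩ := Three.exists_all hS
  exact ⟨f, hf, fun t => (hv t).trans (if_congr (exists_perm_iff_rowSize hS t) rfl rfl)⟩

/-- A polytabloid is the sum of all tabloids if the rows of every permutation come from exactly
one column permutation. -/
theorem allGood_polyInt (h : ∀ (α : Type) [Fintype α] (S : α → ℕ × ℕ), IsLab S c →
    ∀ g : Equiv.Perm α, ∃! k, k ∈ Strip.colPerms S ∧ ∀ x, (S (k x)).1 = (S (g x)).1) :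
    AllGood c := fun α _ S hS => by
  refine ⟨polyInt S, polyInt_mem S, fun t => ?_⟩
  have hs : ∀ k : Equiv.Perm α, ((Equiv.Perm.sign k : ℤ) : ZMod 2) = 1 := fun k => by
    rcases Int.units_eq_one_or (Equiv.Perm.sign k) with h | h <;> rw [h] <;> decide
  simp only [polyInt, Int.cast_sum, Int.cast_ite, Int.cast_zero, hs,
    ← exists_perm_iff_rowSize hS]
  split_ifs with ht
  · obtain ⟨g, rfl⟩ := ht
    obtain ⟨k, ⟨hk, hkg⟩, huniq⟩ := h α S hS g
    rw [sum_eq_single_of_mem k hk fun k' hk' hne =>
      if_neg fun e => hne (huniq k' ⟨hk', fun x => (congrFun e x).symm⟩),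
      if_pos (funext fun x => (hkg x).symm)]
  · exact sum_eq_zero fun k _ => if_neg fun e => ht ⟨k, e⟩

theorem allGood_one_column (k : ℕ) : AllGood [k] := allGood_polyInt fun α _ S hS g => by
  have h2 : ∀ x, (S x).2 = 0 := fun x => by
    have := hS.col_lt x
    simp only [List.length_singleton] at this
    omega
  exact ⟨g, ⟨Strip.mem_colPerms.2 fun x => by rw [h2, h2], fun _ => rfl⟩, fun g' hg' =>
    Equiv.ext fun x => hS.1 (Prod.ext (hg'.2 x) (by rw [h2, h2]))⟩

theorem allGood_one_row (n : ℕ) : AllGood (List.replicate n 1) :=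
  allGood_polyInt fun α _ S hS g => by
    have h1 : ∀ x, (S x).1 = 0 := fun x => by
      have := hS.row_lt x
      rw [List.getD_eq_getElem _ _ (hS.col_lt x), List.getElem_replicate] at this
      omega
    exact ⟨1, ⟨Strip.one_mem_colPerms, fun x => by rw [h1, h1]⟩, fun k hk =>
      Equiv.ext fun x => hS.1 (Prod.ext (by rw [h1, h1]) (Strip.mem_colPerms.1 hk.1 x))⟩

/-- For every assignment of the letters to the pieces, the product of the tabloid sums of the
pieces lies in the Specht module of their concatenation. -/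
theorem exists_prod : ∀ (gs : List (List ℕ)), (∀ c ∈ gs, AllGood c) →
    ∀ (α : Type) [Fintype α] (S : α → ℕ × ℕ), IsLab S gs.flatten → ∀ h : α → ℕ,
    ∃ f : (α → ℕ) → ℤ, (fun t => (f t : ℂ)) ∈ Strip.specht S ∧
      ∀ t, (f t : ZMod 2) = if ∀ k i,
        #(univ.filter fun x => h x = k ∧ t x = i) = rowSize (gs.getD k []) i then 1 else 0 := by
  intro gs
  induction gs with
  | nil =>
    intro _ α _ S hS h
    have : IsEmpty α := ⟨fun x => Nat.not_lt_zero _ (hS.col_lt x)⟩
    refine ⟨fun _ => 1, ?_, fun t => ?_⟩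
    · refine Submodule.subset_span ⟨1, funext fun t => ?_⟩
      show Strip.poly S (t ∘ _) = _
      have hu : Strip.colPerms S = {1} := by
        ext g
        simp [Strip.mem_colPerms, Subsingleton.elim g 1]
      rw [Strip.poly, hu, sum_singleton, if_pos (funext fun x => isEmptyElim x)]
      simp [Strip.sgn]
    · rw [if_pos fun k i => by simp [rowSize], Int.cast_one]
  | cons c gs ih =>
    intro hgs α _ S hS h
    by_cases hc : #(univ.filter fun x => h x = 0) = c.sum
    swap
    · refine ⟨fun _ => 0, by simp only [Int.cast_zero]; exact Submodule.zero_mem _, fun t => ?_⟩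
      rw [if_neg fun H => hc ?_, Int.cast_zero]
      convert card_eq_of_rowSize (c := c) (fun x => h x = 0) t fun i => ?_
      convert H 0 i using 1
      all_goals congr!
    have hc0 : Fintype.card {x // h x = 0} = c.sum := by rw [Fintype.card_subtype, hc]
    have hc1 : Fintype.card {x // ¬ h x = 0} = gs.flatten.sum := by
      rw [Fintype.card_subtype_compl, hc0, hS.card_eq, List.flatten_cons, List.sum_append,
        Nat.add_sub_cancel_left]
    obtain ⟨S0, hS0⟩ := exists_isLab (α := {x // h x = 0}) c hc0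
    obtain ⟨S1, hS1⟩ := exists_isLab (α := {x // ¬ h x = 0}) gs.flatten hc1
    obtain ⟨f0, hf0, hv0⟩ := hgs c (List.mem_cons_self ..) _ S0 hS0
    obtain ⟨f1, hf1, hv1⟩ :=
      ih (fun d hd => hgs d (List.mem_cons_of_mem _ hd)) _ S1 hS1 fun x => h x - 1
    let e : α ≃ {x // h x = 0} ⊕ {x // ¬ h x = 0} := (Equiv.sumCompl fun x => h x = 0).symm
    refine ⟨fun t => f0 (t ∘ Subtype.val) * f1 (t ∘ Subtype.val), ?_, fun t => ?_⟩
    · have hm := mem_specht_comp e (mul_mem_specht c.length hS0.col_lt hf0 hf1)
      have hlab : IsLab (sideBySide c.length S0 S1 ∘ e) (c ++ gs.flatten) :=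
        (hS0.append hS1).comp_equiv e
      rw [specht_eq hlab (by simpa using hS)] at hm
      push_cast
      exact hm
    · rw [Int.cast_mul, hv0, hv1]
      have k0 : ∀ i, #(univ.filter fun x : {x // h x = 0} => (t ∘ Subtype.val) x = i) =
          #(univ.filter fun x => h x = 0 ∧ t x = i) := fun i =>
        card_filter_subtype (fun x => h x = 0) fun x => t x = i
      have k1 : ∀ k i,
          #(univ.filter fun x : {x // ¬ h x = 0} => h x - 1 = k ∧ (t ∘ Subtype.val) x = i) =
            #(univ.filter fun x => h x = k + 1 ∧ t x = i) := fun k i => by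
        refine (card_filter_subtype (fun x => ¬ h x = 0) fun x => h x - 1 = k ∧ t x = i).trans ?_
        refine congrArg card (filter_congr fun x _ => ?_)
        constructor
        · rintro ⟨h1, h2, h3⟩; exact ⟨by omega, h3⟩
        · rintro ⟨h1, h2⟩; exact ⟨by omega, by omega, h2⟩
      simp only [k0, k1, mul_ite, mul_one, mul_zero, ← ite_and]
      refine if_congr ⟨fun H k i => ?_, fun H => ⟨fun k i => ?_, fun i => ?_⟩⟩ rfl rfl
      · rcases k with _ | k
        · simpa using H.2 i
        · simpa using H.1 k i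
      · simpa using H (k + 1) i
      · simpa using H 0 i

section Split

variable {G : ℕ}

/-- The table of the numbers of letters in each block and piece. -/
def tab {β : Type*} [Fintype β] (b : β → ℕ) (h : β → Fin G) : ℕ × Fin G →₀ ℕ :=
  ∑ x, Finsupp.single (b x, h x) 1

theorem tab_apply {β : Type*} [Fintype β] (b : β → ℕ) (h : β → Fin G) (j : ℕ) (g : Fin G) :
    tab b h (j, g) = #(univ.filter fun x => b x = j ∧ h x = g) := by
  simp [tab, Finsupp.single_apply, sum_boole, Finsupp.finsetSum_apply, Prod.ext_iff]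

theorem tab_comp {b : α → ℕ} (h : α → Fin G) (σ : Equiv.Perm α) (hσ : ∀ x, b (σ x) = b x) :
    tab b (h ∘ σ) = tab b h :=
  (sum_congr rfl fun x _ => by rw [Function.comp_apply, ← hσ x]).trans
    (Equiv.sum_comp σ fun x => Finsupp.single (b x, h x) 1)

/-- Some table is attained an odd number of times by the assignments with the right row counts. -/
theorem exists_odd_table {I J : ℕ} (b : α → Fin J) (t : α → Fin I) (p : Fin G → Fin I → ℕ)
    (A : Fin J → Fin G → Fin I → ℕ)
    (hp : ∀ g i, ∑ j, A j g i = p g i)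
    (hZ : ∀ j i, ∑ g, A j g i = #(univ.filter fun x => b x = j ∧ t x = i))
    (hbit : ∀ j i g g', g ≠ g' → A j g i &&& A j g' i = 0) :
    ∃ T, Odd #(univ.filter fun h : α → Fin G => tab (fun x => (b x : ℕ)) h = T ∧
      ∀ g i, #(univ.filter fun x => h x = g ∧ t x = i) = p g i) := by
  let Q : Fin I → MvPolynomial (ℕ × Fin G) (ZMod 2) := fun i => ∑ k : {x // t x = i} → Fin G,
    if ∀ g, #(univ.filter fun x => k x = g) = p g i then
      MvPolynomial.monomial (tab (fun x => (b x.1 : ℕ)) k) 1 else 0
  have hQ : ∀ i, Q i ≠ 0 := fun i => by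
    have hodd : Odd #(univ.filter fun k : {x // t x = i} → Fin G =>
        ∀ j g, #(univ.filter fun x => b x.1 = j ∧ k x = g) = A j g i) := by
      refine (congrArg Odd (congrArg card (Finset.ext fun k => ?_))).mpr
        (odd_table_count J (fun x : {x // t x = i} => b x.1) (fun j g => A j g i)
          (fun j => by
            rw [hZ, card_filter_subtype (fun x => t x = i) fun x => b x = j]
            simp only [and_comm])
          fun j => hbit j i)
      simp only [mem_filter, mem_univ, true_and]
      exact forall₂_congr fun j g =>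
        Iff.of_eq (congrArg (· = A j g i) (congrArg card (Finset.ext fun x => by simp)))
    obtain ⟨k0, hk0⟩ := card_pos.1 hodd.pos
    have hk0 := (mem_filter.1 hk0).2
    intro h0
    have hc := congrArg (MvPolynomial.coeff (tab (fun x : {x // t x = i} => (b x.1 : ℕ)) k0)) h0
    simp only [Q, MvPolynomial.coeff_sum, MvPolynomial.coeff_zero, apply_ite (MvPolynomial.coeff _),
      MvPolynomial.coeff_monomial, ← ite_and, sum_boole] at hc
    refine one_ne_zero (hc ▸ ?_ : (1 : ZMod 2) = 0)
    refine ((ZMod.natCast_eq_one_iff_odd).2 ?_).symm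
    convert hodd using 2
    refine filter_congr fun k _ => ⟨fun hk j g => ?_, fun hk => ⟨fun g => ?_, ?_⟩⟩
    · have := DFunLike.congr_fun hk.2 ((j : ℕ), g)
      simp only [tab_apply, Fin.val_inj] at this
      exact this.trans (hk0 j g)
    · rw [← hp, card_eq_sum_card_fiberwise (f := fun x => b x.1) (t := univ) fun x _ => by simp]
      exact sum_congr rfl fun j _ => by rw [filter_filter, ← hk j g]; simp only [and_comm]
    · ext ⟨j, g⟩
      rw [tab_apply, tab_apply]
      by_cases hj : j < J
      · obtain ⟨j, rfl⟩ : ∃ j' : Fin J, (j' : ℕ) = j := ⟨⟨j, hj⟩, rfl⟩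
        simp only [Fin.val_inj]
        rw [hk, hk0]
      · have : ∀ x : {x // t x = i}, (b x.1 : ℕ) ≠ j := fun x e => hj (e ▸ (b x.1).isLt)
        simp [this]
  have hP : ∏ i, Q i = ∑ h : α → Fin G, if ∀ g i, #(univ.filter fun x => h x = g ∧ t x = i) = p g i
      then (MvPolynomial.monomial (tab (fun x => (b x : ℕ)) h) (1 : ZMod 2)) else 0 := by
    simp only [Q, Fintype.prod_sum]
    refine (Fintype.sum_equiv (fibreFunctions t) _ _ fun h => ?_).symm
    have key : ∀ g i, #(univ.filter fun x : {x // t x = i} => fibreFunctions t h i x = g) =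
        #(univ.filter fun x => h x = g ∧ t x = i) := fun g i =>
      (card_filter_subtype (fun x => t x = i) fun x => h x = g).trans (by simp only [and_comm])
    by_cases H : ∀ g i, #(univ.filter fun x => h x = g ∧ t x = i) = p g i
    · rw [if_pos H, prod_congr rfl fun i _ => if_pos fun g => (key g i).trans (H g i),
        ← MvPolynomial.monomial_sum_one]
      exact congrArg (fun s => MvPolynomial.monomial s (1 : ZMod 2))
        (Fintype.sum_fiberwise t fun x => Finsupp.single ((b x : ℕ), h x) 1).symm
    · rw [if_neg H]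
      simp only [not_forall] at H
      obtain ⟨g, i, hgi⟩ := H
      exact (prod_eq_zero (mem_univ i) (if_neg fun h' => hgi ((key g i).symm.trans (h' g)))).symm
  have hne : ∏ i, Q i ≠ 0 := prod_ne_zero_iff.2 fun i _ => hQ i
  obtain ⟨T, hT⟩ := MvPolynomial.exists_coeff_ne_zero hne
  refine ⟨T, ?_⟩
  rw [hP, MvPolynomial.coeff_sum] at hT
  simp only [apply_ite (MvPolynomial.coeff T), MvPolynomial.coeff_zero, MvPolynomial.coeff_monomial,
    ← ite_and, sum_boole] at hT
  rw [← ZMod.natCast_ne_zero_iff_odd]
  simp only [and_comm (a := tab _ _ = T)]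
  exact hT

/-- Pieces may share blocks wherever they add without carries. -/
theorem Good.split (gs : List (List ℕ)) (hgs : ∀ c ∈ gs, AllGood c) {B : List ℕ} {I : ℕ}
    (hI : ∀ l ∈ gs.flatten, l ≤ I) (A : ℕ → Fin gs.length → ℕ → ℕ)
    (hprof : ∀ g i, i < I → ∑ j ∈ range B.length, A j g i = rowSize gs[g] i)
    (htot : ∀ j < B.length, ∑ g, ∑ i ∈ range I, A j g i = B.getD j 0)
    (hbit : ∀ j < B.length, ∀ i < I, ∀ g g', g ≠ g' → A j g i &&& A j g' i = 0) :
    Good gs.flatten B := by
  have hI' : ∀ g : Fin gs.length, ∀ l ∈ gs[g], l ≤ I := fun g l hl =>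
    hI l (List.mem_flatten.2 ⟨_, List.getElem_mem g.isLt, hl⟩)
  refine ⟨?_, fun α _ S b hS hb => ?_⟩
  · rw [← sum_rowSize _ I hI, ← Fin.sum_univ_getElem B]
    have e1 : ∑ i ∈ range I, rowSize gs.flatten i = ∑ g : Fin gs.length, ∑ i ∈ range I, rowSize gs[g] i := by
      rw [sum_comm]
      refine sum_congr rfl fun i _ => ?_
      rw [rowSize_flatten, ← Fin.sum_univ_getElem]
      exact Fintype.sum_equiv (finCongr (by simp)) _ _ fun g => by simp
    rw [e1]
    have e : ∀ j : Fin B.length, B[(j : ℕ)] = ∑ g, ∑ i ∈ range I, A j g i := fun j =>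
      (List.getD_eq_getElem B 0 j.isLt).symm.trans (htot j j.isLt).symm
    simp only [e]
    rw [sum_comm (s := (univ : Finset (Fin B.length)))]
    refine sum_congr rfl fun g _ => ?_
    rw [sum_comm (t := range I)]
    exact sum_congr rfl fun i hi => by
      rw [← Finset.sum_range (fun j => A j g i)]
      exact (hprof g i (mem_range.1 hi)).symm
  let Z : Fin B.length → Fin I → ℕ := fun j i => ∑ g, A j g i
  have hZ : ∀ j : Fin B.length, {x // b x = (j : ℕ)} ≃ Σ i, Fin (Z j i) := fun j =>
    Fintype.equivOfCardEq (by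
      rw [Fintype.card_subtype, hb j, Fintype.card_sigma, ← htot j j.isLt]
      simp only [Z, Fintype.card_fin]
      rw [sum_comm, ← Fin.sum_univ_eq_sum_range (fun i => ∑ g, A j g i)])
  let t0 : α → Fin I := fun x => (hZ ⟨b x, hb.lt_length x⟩ ⟨x, rfl⟩).1
  have ht0 : ∀ j i, #(univ.filter fun x => (⟨b x, hb.lt_length x⟩ : Fin B.length) = j ∧ t0 x = i) =
      Z j i := fun j i => by
    have hj : ∀ x (hx : b x = (j : ℕ)), t0 x = (hZ j ⟨x, hx⟩).1 := fun x hx => by
      obtain rfl : (⟨b x, hb.lt_length x⟩ : Fin B.length) = j := Fin.ext hx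
      rfl
    have e : ∀ x : {x // b x = (j : ℕ)}, (hZ j x).1 = i ↔ t0 x = i := fun x => by rw [hj x.1 x.2]
    rw [← Fintype.card_fin (Z j i), ← card_univ]
    refine Eq.trans (Eq.trans ?_ (card_equiv (hZ j) (t := ({i} : Finset (Fin I)).sigma fun _ => univ)
      (s := univ.filter fun x => t0 x.1 = i) fun x => by simp [← e])) (by rw [card_sigma, sum_singleton])
    rw [card_filter_subtype (fun x => b x = (j : ℕ)) fun x => t0 x = i]
    exact congrArg card (filter_congr fun x _ => and_congr (by rw [Fin.ext_iff]) Iff.rfl)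
  obtain ⟨T, hT⟩ := exists_odd_table (fun x => (⟨b x, hb.lt_length x⟩ : Fin B.length)) t0
    (fun g i => rowSize gs[g] i) (fun j g i => A j g i)
    (fun g i => by rw [Fin.sum_univ_eq_sum_range fun j => A j g i]; exact hprof g i i.isLt)
    (fun j i => (ht0 j i).symm) fun j i => hbit j j.isLt i i.isLt
  choose f hf hv using fun h : α → Fin gs.length => exists_prod gs hgs α S hS fun x => (h x : ℕ)
  let F : (α → ℕ) → ℤ := fun t => ∑ h ∈ univ.filter fun h => tab b h = T, f h t
  have hval : ∀ (h : α → Fin gs.length) (t : α → ℕ), (f h t : ZMod 2) =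
      if ∀ g i, #(univ.filter fun x => h x = g ∧ t x = i) = rowSize gs[g] i then 1 else 0 := by
    intro h t
    rw [hv]
    refine if_congr ⟨fun H g i => ?_, fun H k i => ?_⟩ rfl rfl
    · simpa [List.getD_eq_getElem _ _ g.isLt, Fin.val_inj] using H g i
    · by_cases hk : k < gs.length
      · rw [List.getD_eq_getElem _ _ hk, ← Fin.getElem_fin gs ⟨k, hk⟩, ← H ⟨k, hk⟩ i]
        simp [Fin.ext_iff]
      · have : ∀ x, (h x : ℕ) ≠ k := fun x e => hk (e ▸ (h x).isLt)
        rw [List.getD_eq_default _ _ (not_lt.1 hk)]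
        simp [this, rowSize]
  have hF : ∀ t, (F t : ZMod 2) = ∑ h ∈ univ.filter (fun h => tab b h = T),
      if ∀ g i, #(univ.filter fun x => h x = g ∧ t x = i) = rowSize gs[g] i then 1 else 0 :=
    fun t => by simp only [F, Int.cast_sum, hval]
  refine ⟨F, ?_, fun σ hσ t => (ZMod.intCast_zmod_eq_zero_iff_dvd _ 2).1 ?_, fun x => (t0 x : ℕ),
    fun hdvd => ?_⟩
  · have : (fun t => (F t : ℂ)) =
        ∑ h ∈ univ.filter (fun h => tab b h = T), fun t => (f h t : ℂ) := by
      funext t
      simp [F, Finset.sum_apply]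
    rw [this]
    exact sum_mem fun h _ => hf h
  · rw [Int.cast_sub, hF, hF, sub_eq_zero]
    refine sum_equiv (Equiv.arrowCongr σ (Equiv.refl _)) (fun h => ?_) fun h _ => ?_
    · have : tab b (h ∘ σ.symm) = tab b h := tab_comp h σ.symm fun x => by
        simpa using (hσ (σ.symm x)).symm
      simp [Equiv.arrowCongr, this]
    · refine if_congr (forall₂_congr fun g i => ?_) rfl rfl
      rw [card_equiv σ (t := univ.filter fun x =>
        (Equiv.arrowCongr σ (Equiv.refl (Fin gs.length)) h) x = g ∧ t x = i) fun x => by simp]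
  · have h0 := (ZMod.intCast_zmod_eq_zero_iff_dvd _ 2).2 hdvd
    rw [hF, sum_boole, filter_filter] at h0
    refine one_ne_zero (((ZMod.natCast_eq_one_iff_odd).2 ?_).symm.trans h0)
    convert hT using 2
    refine filter_congr fun h _ => and_congr Iff.rfl ⟨fun H g i => ?_, fun H g i => ?_⟩
    · simpa [Fin.val_inj] using H g i
    · by_cases hi : i < I
      · simpa [Fin.ext_iff] using H g ⟨i, hi⟩
      · have : ∀ x, (t0 x : ℕ) ≠ i := fun x e => hi (e ▸ (t0 x).isLt)
        rw [rowSize_eq_zero fun l hl => (hI' g l hl).trans (not_lt.1 hi)]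
        simp [this]

end Split

end Vale.Agent.P197.Full

end
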